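import Vale.Agent.P042U.IntDefs

/-! Summation by parts, geometric sums, bilinear forms (task K1). -/

namespace Vale.Agent.P042U

open Finset

lemma abel_ee_add (x y : ℝ) : ee (x + y) = ee x * ee y := by
  rw [ee, ee, ee, ← Complex.exp_add]
  push_cast
  ring_nf

lemma abel_ee_eq (x : ℝ) : ee x = Complex.exp (Complex.I * (2 * Real.pi * x : ℝ)) := by
  rw [ee]
  push_cast
  ring_nf

lemma abel_ee_norm (x : ℝ) : ‖ee x‖ = 1 := by
  rw [abel_ee_eq, Complex.norm_exp_I_mul_ofReal]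

lemma abel_ee_int (k : ℤ) : ee k = 1 := by
  rw [ee, ← Complex.exp_int_mul_two_pi_mul_I k]
  push_cast
  ring_nf

lemma abel_ee_zero : ee 0 = 1 := by simpa using abel_ee_int 0

lemma abel_ee_conj (x : ℝ) : (starRingEnd ℂ) (ee x) = ee (-x) := by
  rw [ee, ee, ← Complex.exp_conj]
  simp [Complex.conj_ofReal, map_ofNat]

lemma abel_ee_sub (x : ℝ) : ‖ee x - 1‖ = 2 * |Real.sin (Real.pi * x)| := by
  rw [abel_ee_eq, Complex.norm_exp_I_mul_ofReal_sub_one, Real.norm_eq_abs, abs_mul, abs_two]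
  congr 3
  ring

lemma abel_ee_upper (x : ℝ) : ‖ee x - 1‖ ≤ 7 * |x| := by
  have h := Real.abs_sin_le_abs (x := Real.pi * x)
  rw [abs_mul, abs_of_pos Real.pi_pos] at h
  rw [abel_ee_sub]
  nlinarith [Real.pi_lt_d2, abs_nonneg x]

lemma abel_ee_lower (x : ℝ) : 4 * |x - round x| ≤ ‖ee x - 1‖ := by
  have h1 : ee x = ee (x - round x) := by
    rw [← mul_one (ee (x - round x)), ← abel_ee_int (round x), ← abel_ee_add, sub_add_cancel]
  have h2 := abs_sub_round x
  have h3 := Real.mul_abs_le_abs_sin (x := Real.pi * (x - round x)) (by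
    rw [abs_mul, abs_of_pos Real.pi_pos]
    nlinarith [Real.pi_pos])
  rw [abs_mul, abs_of_pos Real.pi_pos, ← mul_assoc, div_mul_cancel₀ _ Real.pi_ne_zero] at h3
  rw [h1, abel_ee_sub]
  linarith

theorem abel_bound (c φ : ℕ → ℂ) (S : ℕ) {Z B T : ℝ} (hZ : ∀ n ≤ S, ‖∑ s ∈ range n, c s‖ ≤ Z)
    (hB : ∀ s < S, ‖φ s‖ ≤ B) (hB0 : 0 ≤ B)
    (hT : ∑ s ∈ range (S - 1), ‖φ (s + 1) - φ s‖ ≤ T) :
    ‖∑ s ∈ range S, c s * φ s‖ ≤ Z * (B + T) := by
  have hZ0 : 0 ≤ Z := (norm_nonneg _).trans (hZ 0 S.zero_le)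
  have hT0 : 0 ≤ T := (sum_nonneg fun _ _ => norm_nonneg _).trans hT
  rcases S.eq_zero_or_pos with rfl | hS
  · rw [sum_range_zero, norm_zero]
    positivity
  have h := sum_range_by_parts φ c S
  simp only [smul_eq_mul] at h
  simp_rw [mul_comm (c _)]
  rw [h, mul_add]
  refine (norm_sub_le _ _).trans (add_le_add ?_ ((norm_sum_le _ _).trans ?_))
  · rw [norm_mul, mul_comm]
    exact mul_le_mul (hZ S le_rfl) (hB _ (by omega)) (norm_nonneg _) hZ0
  · refine le_trans (sum_le_sum fun s hs => ?_) ((mul_sum _ _ Z).ge.trans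
      (mul_le_mul_of_nonneg_left hT hZ0))
    rw [norm_mul, mul_comm]
    exact mul_le_mul_of_nonneg_right (hZ _ (by have := mem_range.1 hs; omega)) (norm_nonneg _)

lemma abel_period {ψ : ℤ → ℂ} {M : ℕ} (hper : ∀ s, ψ (s + M) = ψ s) (a : ℤ) :
    ∑ s ∈ range M, ψ (a + s) = ∑ s ∈ range M, ψ s := by
  have h : ∀ b : ℤ, ∑ s ∈ range M, ψ (b + 1 + s) = ∑ s ∈ range M, ψ (b + s) := fun b => by
    have h1 := sum_range_succ (fun s : ℕ => ψ (b + s)) M
    rw [sum_range_succ', hper] at h1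
    simp only [Nat.cast_zero, add_zero, Nat.cast_succ, add_left_inj] at h1
    rw [← h1]
    exact sum_congr rfl fun s _ => by rw [add_assoc, add_comm 1]
  induction a using Int.induction_on with
  | zero => simp
  | succ k ih => rw [h, ih]
  | pred k ih => rw [← h, sub_add_cancel, ih]

theorem periodic_partial {ψ : ℤ → ℂ} {M : ℕ} (hM : 1 ≤ M) (hper : ∀ s, ψ (s + M) = ψ s) {B : ℝ}
    (hB : ∀ s, ‖ψ s‖ ≤ B) (a : ℤ) (n : ℕ) :
    ‖∑ s ∈ range n, (ψ (a + s) - avg M ψ)‖ ≤ 2 * M * B := by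
  have hM0 : (0 : ℝ) < M := Nat.cast_pos.2 hM
  have hB0 : 0 ≤ B := (norm_nonneg _).trans (hB 0)
  have h1 : ‖avg M ψ‖ ≤ B := by
    rw [avg, norm_div, Complex.norm_natCast, div_le_iff₀' hM0]
    refine (norm_sum_le _ _).trans ((sum_le_card_nsmul _ _ B fun s _ => hB _).trans_eq ?_)
    simp
  induction n using Nat.strong_induction_on with
  | _ n ih =>
    rcases lt_or_ge n M with h | h
    · refine (norm_sum_le _ _).trans ((sum_le_card_nsmul _ _ (2 * B) fun s _ =>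
        (norm_sub_le _ _).trans (by linarith [hB (a + s)])).trans ?_)
      rw [card_range, nsmul_eq_mul]
      nlinarith [(Nat.cast_le (α := ℝ)).2 h.le]
    · obtain ⟨k, rfl⟩ := Nat.exists_eq_add_of_le' h
      have h2 : ∑ s ∈ range M, (ψ (a + (k + s : ℕ)) - avg M ψ) = 0 := by
        simp only [Nat.cast_add, ← add_assoc]
        rw [sum_sub_distrib, abel_period hper, sum_const, card_range, nsmul_eq_mul, avg,
          mul_div_cancel₀ _ (Nat.cast_ne_zero.2 (by omega)), sub_self]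
      rw [sum_range_add, h2, add_zero]
      exact ih k (by omega)

lemma abel_Ico (f : ℤ → ℂ) {a b c : ℤ} (h1 : a ≤ b) (h2 : b ≤ c) :
    ∑ d ∈ Ico a b, f d + ∑ d ∈ Ico b c, f d = ∑ d ∈ Ico a c, f d := by
  rw [← sum_union (Ico_disjoint_Ico_consecutive a b c), Ico_union_Ico_eq_Ico h1 h2]

theorem periodic_geom {ψ : ℤ → ℂ} {M : ℕ} (hM : 1 ≤ M) (hper : ∀ s, ψ (s + M) = ψ s) {B : ℝ}
    (hB : ∀ s, ‖ψ s‖ ≤ B) {θ σ : ℝ} (hσ : 0 < σ) (hθ : ∀ a : ℤ, σ ≤ |M * θ - a|) (a b : ℤ) :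
    ‖∑ d ∈ Ico a b, ψ d * ee (θ * d)‖ ≤ M * B / σ := by
  have hB0 : 0 ≤ B := (norm_nonneg _).trans (hB 0)
  rcases le_total b a with h | h
  · rw [Ico_eq_empty_of_le h, sum_empty, norm_zero]
    positivity
  set f : ℤ → ℂ := fun d => ψ d * ee (θ * d) with hf
  have h1 : ∀ c : ℤ, ‖∑ d ∈ Ico c (c + M), f d‖ ≤ M * B := fun c =>
    (norm_sum_le _ _).trans ((sum_le_card_nsmul _ _ B fun s _ => by
      rw [hf, norm_mul, abel_ee_norm, mul_one]; exact hB s).trans_eq (by simp))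
  have h2 : ee (M * θ) * ∑ d ∈ Ico a b, f d = ∑ d ∈ Ico (a + M) (b + M), f d := by
    rw [← sum_Ico_add', mul_sum]
    refine sum_congr rfl fun d _ => ?_
    simp only [hf]
    rw [hper, mul_left_comm, ← abel_ee_add]
    congr 2
    push_cast
    ring
  have h3 : (ee (M * θ) - 1) * ∑ d ∈ Ico a b, f d =
      ∑ d ∈ Ico b (b + M), f d - ∑ d ∈ Ico a (a + M), f d := by
    have h4 := abel_Ico f h (by omega : b ≤ b + M)
    have h5 := abel_Ico f (by omega : a ≤ a + M) (by omega : a + M ≤ b + M)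
    rw [sub_mul, h2]
    linear_combination h5 - h4
  have h6 := (norm_sub_le _ _).trans (add_le_add (h1 b) (h1 a))
  rw [← h3, norm_mul] at h6
  rw [le_div_iff₀ hσ]
  nlinarith [abel_ee_lower (M * θ), hθ (round (M * θ)), norm_nonneg (∑ d ∈ Ico a b, f d),
    mul_nonneg M.cast_nonneg hB0]

/-- a weighted polynomial sum imitates a geometric sum -/
theorem telescope_geom (G : ℕ → ℤ) (S : ℕ) {β Δ : ℝ} (hG : ∀ s < S, G s ≤ G (s + 1))
    (hΔ : ∀ s < S, ((G (s + 1) - G s : ℤ) : ℝ) ≤ Δ) :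
    ‖∑ s ∈ range S, ((G (s + 1) - G s : ℤ) : ℂ) * ee (β * G s) -
      ∑ d ∈ Ico (G 0) (G S), ee (β * d)‖ ≤ 7 * |β| * Δ * ((G S - G 0 : ℤ) : ℝ) := by
  have h0 : ∀ n ≤ S, G 0 ≤ G n := fun n hn => by
    induction n with
    | zero => exact le_rfl
    | succ n ih => exact (ih (by omega)).trans (hG n hn)
  induction S with
  | zero => simp
  | succ S ih =>
    have h1 := ih (fun s hs => hG s (by omega)) (fun s hs => hΔ s (by omega))
      fun n hn => h0 n (by omega)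
    have h2 := hG S S.lt_succ_self
    have h3 : ‖((G (S + 1) - G S : ℤ) : ℂ) * ee (β * G S) -
        ∑ d ∈ Ico (G S) (G (S + 1)), ee (β * d)‖ ≤
        7 * |β| * Δ * ((G (S + 1) - G S : ℤ) : ℝ) := by
      have h4 : (((Ico (G S) (G (S + 1))).card : ℤ)) = G (S + 1) - G S := by
        rw [Int.card_Ico, Int.toNat_of_nonneg (by omega)]
      rw [← h4, Int.cast_natCast, Int.cast_natCast, ← nsmul_eq_mul, ← sum_const,
        ← sum_sub_distrib, mul_comm (7 * |β| * Δ), ← nsmul_eq_mul]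
      refine (norm_sum_le _ _).trans (sum_le_card_nsmul _ _ _ fun d hd => ?_)
      obtain ⟨h5, h6⟩ := mem_Ico.1 hd
      have h7 : ee (β * d) = ee (β * G S) * ee (β * (d - G S : ℤ)) := by
        rw [← abel_ee_add]
        congr 1
        push_cast
        ring
      rw [h7, ← mul_one_sub, norm_mul, abel_ee_norm, one_mul, norm_sub_rev]
      refine (abel_ee_upper _).trans ?_
      rw [abs_mul, mul_assoc, abs_of_nonneg (a := ((d - G S : ℤ) : ℝ)) (Int.cast_nonneg (by omega))]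
      refine mul_le_mul_of_nonneg_left (mul_le_mul_of_nonneg_left
        (le_trans (Int.cast_le.2 (by omega)) (hΔ S S.lt_succ_self)) (abs_nonneg _)) (by norm_num)
    rw [sum_range_succ, ← abel_Ico _ (h0 S S.le_succ) h2, add_sub_add_comm]
    refine (norm_add_le _ _).trans ((add_le_add h1 h3).trans_eq ?_)
    push_cast
    ring

lemma abel_orth {M : ℕ} {k : ℤ} (hk : |k| < M) :
    ∑ j ∈ range M, ee ((j : ℝ) / M * k) = if k = 0 then (M : ℂ) else 0 := by
  split_ifs with h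
  · simp [h, abel_ee_zero]
  have hM : (0 : ℝ) < M := by exact_mod_cast (abs_nonneg k).trans_lt hk
  have h1 : ∀ j : ℕ, ee ((j : ℝ) / M * k) = ee (k / M) ^ j := fun j => by
    rw [ee, ee, ← Complex.exp_nat_mul]
    push_cast
    ring_nf
  have h2 : ee (k / M) ≠ 1 := fun h2 => by
    have h3 := abel_ee_lower (k / M)
    rw [h2, sub_self, norm_zero] at h3
    have h4 : (k : ℝ) / M - round ((k : ℝ) / M) = 0 :=
      abs_eq_zero.1 (le_antisymm (by linarith) (abs_nonneg _))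
    rw [sub_eq_zero, div_eq_iff hM.ne'] at h4
    have h5 : (M : ℤ) ∣ k := ⟨round ((k : ℝ) / M), by
      rw [mul_comm]; exact_mod_cast h4⟩
    exact h (Int.eq_zero_of_abs_lt_dvd h5 hk)
  simp only [h1]
  rw [geom_sum_eq h2, ← h1, div_self hM.ne', one_mul, abel_ee_int, sub_self, zero_div]

lemma abel_parseval {M n : ℕ} (hM : n ≤ M) (F : ℕ → ℝ) (hF : ∀ x, |F x| ≤ 1) :
    ∑ j ∈ range M, ‖∑ x ∈ range n, (F x : ℂ) * ee ((j : ℝ) / M * x)‖ ^ 2 ≤ M * n := by
  have h1 : ((∑ j ∈ range M, ‖∑ x ∈ range n, (F x : ℂ) * ee ((j : ℝ) / M * x)‖ ^ 2 : ℝ) : ℂ) =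
      ((M * ∑ x ∈ range n, F x ^ 2 : ℝ) : ℂ) := by
    push_cast
    simp only [← Complex.mul_conj', map_sum, map_mul, Complex.conj_ofReal, abel_ee_conj,
      sum_mul_sum]
    rw [sum_comm, mul_sum]
    refine sum_congr rfl fun x hx => ?_
    rw [sum_comm, sum_eq_single_of_mem x hx fun y hy h => ?_]
    · simp only [mul_mul_mul_comm (F x : ℂ), ← abel_ee_add, add_neg_cancel, abel_ee_zero]
      simp [sq]
    · have h2 := abel_orth (M := M) (k := x - y) (by
        have := mem_range.1 hx; have := mem_range.1 hy; rw [abs_lt]; omega)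
      rw [if_neg (by omega)] at h2
      simp only [mul_mul_mul_comm (F x : ℂ), ← abel_ee_add]
      rw [← mul_sum, ← mul_zero (F x * F y : ℂ), ← h2]
      congr 1
      refine sum_congr rfl fun j _ => ?_
      congr 1
      push_cast
      ring
  rw [Complex.ofReal_injective h1]
  refine mul_le_mul_of_nonneg_left ((sum_le_card_nsmul _ _ 1 fun x _ => ?_).trans_eq (by simp))
    M.cast_nonneg
  exact (sq_le_one_iff_abs_le_one _).2 (hF x)

theorem bil_of_fourier (E : ℤ → ℝ) (a b : ℤ) {Z : ℝ}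
    (hZ : ∀ θ : ℝ, ‖∑ d ∈ Ico a b, (E d : ℂ) * ee (θ * d)‖ ≤ Z) (n : ℕ) (F F' : ℕ → ℝ)
    (hF : ∀ x, |F x| ≤ 1) (hF' : ∀ y, |F' y| ≤ 1)
    (hs : ∀ x < n, ∀ y < n, F x * F' y ≠ 0 → a ≤ (y : ℤ) - x ∧ (y : ℤ) - x < b) :
    |∑ x ∈ range n, ∑ y ∈ range n, F x * F' y * E (y - x)| ≤ Z * n := by
  have hZ0 : 0 ≤ Z := (norm_nonneg _).trans (hZ 0)
  set M : ℕ := a.natAbs + b.natAbs + n + 1 with hM
  have hM0 : (0 : ℝ) < M := Nat.cast_pos.2 (by omega)
  have h1 : ((M * ∑ x ∈ range n, ∑ y ∈ range n, F x * F' y * E (y - x) : ℝ) : ℂ) =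
      ∑ j ∈ range M, (∑ x ∈ range n, (F x : ℂ) * ee ((j : ℝ) / M * x)) *
        (starRingEnd ℂ) (∑ y ∈ range n, (F' y : ℂ) * ee ((j : ℝ) / M * y)) *
          ∑ d ∈ Ico a b, (E d : ℂ) * ee ((j : ℝ) / M * d) := by
    push_cast
    simp only [map_sum, map_mul, Complex.conj_ofReal, abel_ee_conj, sum_mul_sum (range n) (range n)]
    simp only [sum_mul]
    rw [sum_comm (s := range M), mul_sum]
    refine sum_congr rfl fun x hx => ?_
    rw [sum_comm (s := range M), mul_sum]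
    refine sum_congr rfl fun y hy => ?_
    simp only [mul_sum]
    have h2 : ∀ d ∈ Ico a b, ∑ j ∈ range M, F x * ee ((j : ℝ) / M * x) *
        (F' y * ee (-((j : ℝ) / M * y))) * (E d * ee ((j : ℝ) / M * d)) =
        if d = y - x then (M : ℂ) * (F x * F' y * E d) else 0 := fun d hd => by
      have h3 := abel_orth (M := M) (k := d - (y - x)) (by
        have := mem_range.1 hx; have := mem_range.1 hy; have := mem_Ico.1 hd; rw [abs_lt]; omega)
      simp only [sub_eq_zero] at h3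
      rw [← zero_mul (F x * F' y * E d : ℂ), ← ite_mul, ← h3, sum_mul]
      refine sum_congr rfl fun j _ => ?_
      rw [mul_mul_mul_comm (F x : ℂ), mul_mul_mul_comm, ← abel_ee_add, ← abel_ee_add, mul_comm]
      congr 2
      push_cast
      ring
    rw [sum_comm, sum_congr rfl h2, sum_ite_eq']
    split_ifs with h
    · rfl
    · have h4 : F x * F' y = 0 := by
        by_contra h4
        exact h (mem_Ico.2 (hs x (mem_range.1 hx) y (mem_range.1 hy) h4))
      rw [← Complex.ofReal_mul, h4]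
      simp
  have h5 := congrArg norm h1
  rw [Complex.norm_real, Real.norm_eq_abs, abs_mul, abs_of_pos hM0] at h5
  refine le_of_mul_le_mul_left (h5.trans_le ((norm_sum_le _ _).trans ?_)) hM0
  have h6 := abel_parseval (M := M) (n := n) (by omega) F hF
  have h7 := abel_parseval (M := M) (n := n) (by omega) F' hF'
  refine le_trans (sum_le_sum (g := fun j : ℕ => Z / 2 *
    (‖∑ x ∈ range n, (F x : ℂ) * ee ((j : ℝ) / M * x)‖ ^ 2 +
      ‖∑ x ∈ range n, (F' x : ℂ) * ee ((j : ℝ) / M * x)‖ ^ 2)) fun j _ => ?_) ?_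
  · rw [norm_mul, norm_mul, Complex.norm_conj]
    refine (mul_le_mul_of_nonneg_left (hZ _) (by positivity)).trans ?_
    nlinarith [mul_nonneg hZ0 (sq_nonneg (‖∑ x ∈ range n, (F x : ℂ) * ee ((j : ℝ) / M * x)‖ -
      ‖∑ x ∈ range n, (F' x : ℂ) * ee ((j : ℝ) / M * x)‖))]
  · rw [← mul_sum, sum_add_distrib]
    nlinarith

end Vale.Agent.P042U
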