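import Vale.Agent.P042U.IntDefs

/-! The arc densities modulo a prime (task M). -/

namespace Vale.Agent.P042U

open Finset Polynomial
open scoped BigOperators

variable {p : ℕ} [Fact p.Prime] {g : ℤ[X]} {k : ℕ}

/-- the standard character -/
noncomputable abbrev alphaC (p : ℕ) [Fact p.Prime] : AddChar (ZMod p) ℂ := ZMod.stdAddChar

lemma alpha_pos (p : ℕ) [Fact p.Prime] : (0 : ℝ) < p := by exact_mod_cast (Fact.out : p.Prime).pos

lemma alpha_avg (f : ZMod p → ℂ) : avg p (fun s => f s) = 𝔼 t, f t := by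
  rw [avg, Fintype.expect_eq_sum_div_card, ZMod.card]
  congr 1
  exact sum_nbij' (fun s => (s : ZMod p)) (fun t => t.val) (by simp) (by simp [ZMod.val_lt])
    (fun s hs => ZMod.val_cast_of_lt (mem_range.1 hs)) (by simp) (by simp)

lemma alpha_ee (j : ℤ) : ee (j / p) = alphaC p j := by
  rw [ZMod.stdAddChar_coe, ee]
  push_cast
  rw [mul_div_assoc]

lemma alpha_norm (x : ZMod p) : ‖alphaC p x‖ = 1 := AddChar.norm_apply _ _

lemma alpha_orth (b : ZMod p) : ∑ r, alphaC p (r * b) = if b = 0 then (p : ℂ) else 0 := by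
  simpa using AddChar.sum_mulShift b (ZMod.isPrimitive_stdAddChar p)

lemma alpha_mean {b : ZMod p} (hb : b ≠ 0) : 𝔼 r, alphaC p (b * r) = 0 := by
  simp only [Fintype.expect_eq_sum_div_card, mul_comm b, alpha_orth, if_neg hb, zero_div]

lemma alpha_shift {M : Type*} [AddCommMonoid M] [Module ℚ≥0 M] (f : ZMod p → M) (h : ZMod p) :
    𝔼 x, f (x + h) = 𝔼 x, f x := Fintype.expect_equiv (Equiv.addRight h) _ _ fun _ => rfl

lemma alpha_weyl (j : ℕ) (hj : j < p) (P : (ZMod p)[X]) (h1 : P.natDegree ≤ j)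
    (h0 : P.natDegree ≠ 0) : ‖𝔼 t, alphaC p (P.eval t)‖ ≤ 2 * (p : ℝ) ^ (-(1 / 2 ^ j : ℝ)) := by
  induction j generalizing P with
  | zero => omega
  | succ j ih =>
    have hp := alpha_pos p
    by_cases hc : ∃ h ≠ 0, (taylor h P - P).natDegree = 0
    · obtain ⟨h, hh, hc⟩ := hc
      obtain ⟨c, hc⟩ := natDegree_eq_zero.1 hc
      have e : ∀ x, P.eval (x + h) = c + P.eval x := fun x => by
        simpa [taylor_eval, eq_sub_iff_add_eq, eq_comm] using congrArg (eval x) hc
      have hc0 : c ≠ 0 := by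
        rintro rfl
        have e1 : ∀ n : ℕ, P.eval (n * h) = P.eval 0 := fun n => by
          induction n with
          | zero => simp
          | succ n ih => rw [Nat.cast_succ, add_one_mul, e, ih, zero_add]
        have := eq_zero_of_natDegree_lt_card_of_eval_eq_zero (P - C (P.eval 0))
          Function.injective_id (fun x => by simpa [hh, sub_eq_zero] using e1 (x / h).val)
          (by rw [natDegree_sub_C, ZMod.card]; omega)
        exact h0 (by rw [sub_eq_zero.1 this, natDegree_C])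
      have e2 := alpha_shift (fun t => alphaC p (P.eval t)) h
      simp only [e, AddChar.map_add_eq_mul, ← mul_expect] at e2
      rw [(mul_left_eq_self₀.1 e2).resolve_left fun h =>
        hc0 (((ZMod.isPrimitive_stdAddChar p).zmod_char_eq_one_iff p c).1 h), norm_zero]
      positivity
    push Not at hc
    have hP : P ≠ 0 := fun h => h0 (by simp [h])
    have e : ((‖𝔼 t, alphaC p (P.eval t)‖ ^ 2 : ℝ) : ℂ) =
        𝔼 h, 𝔼 x, alphaC p ((taylor h P - P).eval x) := by
      rw [Complex.ofReal_pow, ← Complex.mul_conj', expect_comm, map_expect, mul_expect]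
      refine expect_congr rfl fun x _ => ?_
      rw [← alpha_shift _ x, expect_mul]
      refine expect_congr rfl fun h _ => ?_
      rw [eval_sub, taylor_eval, sub_eq_add_neg, AddChar.map_add_eq_mul, AddChar.map_neg_eq_conj,
        add_comm]
    have e2 : (2 * (p : ℝ) ^ (-(1 / 2 ^ (j + 1) : ℝ))) ^ 2 = 4 * (p : ℝ) ^ (-(1 / 2 ^ j : ℝ)) := by
      rw [mul_pow, ← Real.rpow_natCast (_ ^ _), ← Real.rpow_mul hp.le]
      congr 2
      · norm_num
      · push_cast
        field_simp
        ring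
    have e3 : 1 / (p : ℝ) ≤ (p : ℝ) ^ (-(1 / 2 ^ j : ℝ)) := by
      rw [one_div (p : ℝ), ← Real.rpow_neg_one]
      refine Real.rpow_le_rpow_of_exponent_le (by exact_mod_cast (Fact.out : p.Prime).one_le)
        (neg_le_neg (div_le_one_of_le₀ (one_le_pow₀ one_le_two) (by positivity)))
    refine abs_le_of_sq_le_sq' ?_ (by positivity) |>.2
    have e4 := (RCLike.norm_expect_le (K := ℂ) (s := univ) (f := fun h => 𝔼 x,
      alphaC p ((taylor h P - P).eval x))).trans (expect_le_expect (g := fun h =>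
        (if h = 0 then 1 else 0) + 2 * (p : ℝ) ^ (-(1 / 2 ^ j : ℝ))) fun h _ => by
      split_ifs with hh
      · simp only [hh, taylor_zero, sub_self, eval_zero, AddChar.map_zero_eq_one,
          Fintype.expect_const, norm_one, le_add_iff_nonneg_right]
        positivity
      · rw [zero_add]
        refine ih (by omega) _ ?_ (hc h hh)
        have := degree_sub_lt_left (degree_taylor P h) ((taylor_eq_zero h P).not.2 hP)
          (leadingCoeff_taylor h P)
        rw [degree_taylor] at this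
        have := natDegree_lt_natDegree (fun e => hc h hh (by rw [e, natDegree_zero])) this
        omega)
    rw [← e, Complex.norm_real, Real.norm_of_nonneg (by positivity), expect_add_distrib,
      Fintype.expect_const, Fintype.expect_eq_sum_div_card fun h => ite _ _ _, sum_ite_eq',
      if_pos (mem_univ _), ZMod.card] at e4
    rw [e2]
    linarith [Real.rpow_nonneg hp.le (-(1 / 2 ^ j : ℝ))]

lemma alpha_aeval (g : ℤ[X]) (t : ZMod p) :
    aeval t g = (g.map (Int.castRingHom (ZMod p))).eval t := by rw [eval_map]; rfl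

lemma alpha_der (hg : ∃ t : ℤ, ¬ (p : ℤ) ∣ (derivative g).eval t) :
    derivative (g.map (Int.castRingHom (ZMod p))) ≠ 0 := fun h => by
  obtain ⟨t, ht⟩ := hg
  have := congrArg (eval (t : ZMod p)) h
  rw [derivative_map, eval_intCast_map, eval_zero] at this
  exact ht ((ZMod.intCast_zmod_eq_zero_iff_dvd _ _).1 this)

lemma alpha_expsum (hk : g.natDegree ≤ k) (hp : 2 * k < p)
    (hg : ∃ t : ℤ, ¬ (p : ℤ) ∣ (derivative g).eval t) {a : ZMod p} (ha : a ≠ 0) :
    ‖𝔼 t : ZMod p, alphaC p (a * aeval t g)‖ ≤ 2 * (p : ℝ) ^ (-(1 / 2 ^ k : ℝ)) := by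
  simpa [alpha_aeval g] using alpha_weyl k (by omega) (C a * g.map (Int.castRingHom (ZMod p)))
    (by rw [natDegree_C_mul ha]; exact natDegree_map_le.trans hk)
    (by rw [natDegree_C_mul ha]; exact fun h => alpha_der hg (derivative_of_natDegree_zero h))

theorem expsum_prime (hk : g.natDegree ≤ k) (hp : 2 * k < p)
    (hg : ∃ t : ℤ, ¬ (p : ℤ) ∣ (derivative g).eval t) {a : ℤ} (ha : ¬ (p : ℤ) ∣ a) :
    ‖avg p fun s => ee (a * (g.eval s : ℤ) / p)‖ ≤ 2 * (p : ℝ) ^ (-(1 / 2 ^ k : ℝ)) := by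
  have := alpha_expsum hk hp hg ((ZMod.intCast_zmod_eq_zero_iff_dvd a p).not.2 ha)
  rw [← alpha_avg] at this
  simp only [← Int.cast_mul, alpha_ee]
  simpa [alpha_aeval g, eval_intCast_map] using this

lemma alpha_roots {P : (ZMod p)[X]} (hP : P ≠ 0) {s : Finset (ZMod p)}
    (h : ∀ t ∈ s, P.eval t = 0) : s.card ≤ P.natDegree :=
  card_le_degree_of_subset_roots fun t ht => (mem_roots hP).2 (h t ht)

lemma alpha_bad (hk : g.natDegree ≤ k) (hg : ∃ t : ℤ, ¬ (p : ℤ) ∣ (derivative g).eval t) :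
    (univ.filter fun t : ZMod p => ¬ aeval t (derivative g) ≠ 0).card ≤ k :=
  (alpha_roots (alpha_der hg) fun t ht => by
    simpa [alpha_aeval, derivative_map] using ht).trans
      ((natDegree_derivative_le _).trans ((Nat.sub_le _ _).trans (natDegree_map_le.trans hk)))

lemma alpha_good (hk : g.natDegree ≤ k) (hp : 2 * k < p)
    (hg : ∃ t : ℤ, ¬ (p : ℤ) ∣ (derivative g).eval t) :
    (p : ℝ) ≤ 2 * (univ.filter fun t : ZMod p => aeval t (derivative g) ≠ 0).card := by
  have h1 := alpha_bad hk hg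
  have h2 := card_filter_add_card_filter_not (s := univ)
    fun t : ZMod p => aeval t (derivative g) ≠ 0
  rw [card_univ, ZMod.card] at h2
  exact_mod_cast (by omega :
    p ≤ 2 * (univ.filter fun t : ZMod p => aeval t (derivative g) ≠ 0).card)

theorem alpha_bdd (hk : g.natDegree ≤ k) (hp : 2 * k < p)
    (hg : ∃ t : ℤ, ¬ (p : ℤ) ∣ (derivative g).eval t) (s : ZMod p) :
    0 ≤ alpha g p s ∧ alpha g p s ≤ 2 * k := by
  have h1 := alpha_good hk hp hg
  have h0 := alpha_pos p
  have h2 : ((univ.filter fun t : ZMod p => aeval t (derivative g) ≠ 0 ∧ aeval t g = s).card : ℝ)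
      ≤ k := Nat.cast_le.2 <| (alpha_roots (P := g.map (Int.castRingHom (ZMod p)) - C s)
    (fun h => alpha_der hg (by simpa using congrArg derivative h)) fun t ht => by
      rw [eval_sub, eval_C, ← alpha_aeval, (mem_filter.1 ht).2.2, sub_self]).trans
        (by rw [natDegree_sub_C]; exact natDegree_map_le.trans hk)
  refine ⟨by unfold alpha; positivity, div_le_of_le_mul₀ (by positivity) (by positivity) ?_⟩
  nlinarith [mul_le_mul h1 h2 (by positivity) (by positivity)]

lemma alpha_expect (g : ℤ[X]) (Φ : ZMod p → ℂ) : 𝔼 d, (alpha g p d : ℂ) * Φ d =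
    (∑ t : ZMod p with aeval t (derivative g) ≠ 0, Φ (aeval t g)) /
      (univ.filter fun t : ZMod p => aeval t (derivative g) ≠ 0).card := by
  have h0 : (p : ℂ) ≠ 0 := by exact_mod_cast (alpha_pos p).ne'
  rw [Fintype.expect_eq_sum_div_card, ZMod.card, ← sum_fiberwise (univ.filter _) fun t => aeval t g,
    sum_div, sum_div]
  refine sum_congr rfl fun d _ => ?_
  rw [sum_congr rfl fun t ht => congrArg Φ (mem_filter.1 ht).2, sum_const, filter_filter, alpha,
    nsmul_eq_mul]
  push_cast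
  field_simp

lemma alpha_planch (f g : ZMod p → ℂ) :
    ∑ r, (𝔼 x, f x * alphaC p (r * x)) * 𝔼 y, g y * alphaC p (-(r * y)) = 𝔼 x, f x * g x := by
  have h0 : (p : ℂ) ≠ 0 := by exact_mod_cast (alpha_pos p).ne'
  simp only [expect_mul_expect, ← expect_sum_comm]
  refine expect_congr rfl fun x _ => ?_
  have : ∀ y, ∑ r, f x * alphaC p (r * x) * (g y * alphaC p (-(r * y))) =
      if x = y then f x * g y * p else 0 := fun y => by
    simp only [mul_mul_mul_comm (f x), ← AddChar.map_add_eq_mul, ← sub_eq_add_neg, ← mul_sub,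
      ← mul_sum, alpha_orth, sub_eq_zero, mul_ite, mul_zero]
  simp only [this, Fintype.expect_eq_sum_div_card, sum_ite_eq, mem_univ, if_true, ZMod.card]
  field_simp

lemma alpha_conj (F : ZMod p → ℝ) (r : ZMod p) : 𝔼 y, (F y : ℂ) * alphaC p (-(r * y)) =
    (starRingEnd ℂ) (𝔼 y, (F y : ℂ) * alphaC p (r * y)) := by
  simp only [map_expect, map_mul, AddChar.map_neg_eq_conj, Complex.conj_ofReal]

lemma alpha_parseval (F : ZMod p → ℝ) :
    ∑ r, ‖𝔼 x, (F x : ℂ) * alphaC p (r * x)‖ ^ 2 = 𝔼 x, F x ^ 2 := by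
  have := alpha_planch (fun x => (F x : ℂ)) fun x => F x
  simp only [alpha_conj, Complex.mul_conj', ← sq] at this
  exact_mod_cast this

lemma alpha_of_fourier {β : ZMod p → ℝ} {ε : ℝ}
    (h : ∀ r, ‖𝔼 d, (β d : ℂ) * alphaC p (r * d)‖ ≤ ε) (F G : ZMod p → ℝ) :
    |𝔼 x, 𝔼 y, F x * G y * β (y - x)| ≤ ε / 2 * (𝔼 x, F x ^ 2 + 𝔼 y, G y ^ 2) := by
  have e : ((𝔼 x, 𝔼 y, F x * G y * β (y - x) : ℝ) : ℂ) = ∑ r, (𝔼 d, (β d : ℂ) * alphaC p (r * d)) *
      ((𝔼 x, (F x : ℂ) * alphaC p (r * x)) * 𝔼 y, (G y : ℂ) * alphaC p (-(r * y))) := by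
    have e1 : ∀ x, 𝔼 y, (F x : ℂ) * G y * β (y - x) = ∑ r, (F x : ℂ) * alphaC p (r * x) *
        ((𝔼 d, (β d : ℂ) * alphaC p (r * d)) * 𝔼 y, (G y : ℂ) * alphaC p (-(r * y))) := fun x => by
      rw [← alpha_shift (fun y => (F x : ℂ) * G y * β (y - x)) x]
      simp only [mul_assoc, ← mul_sum, ← mul_expect, add_sub_cancel_right, mul_comm (G _ : ℂ) (β _),
        ← alpha_planch (fun d => (β d : ℂ)) fun d => G (d + x)]
      refine congrArg _ (sum_congr rfl fun r _ => ?_)
      rw [mul_left_comm, ← alpha_shift (fun y => (G y : ℂ) * alphaC p (-(r * y))) x,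
        mul_expect _ _ (alphaC p _)]
      refine congrArg _ (expect_congr rfl fun y _ => ?_)
      rw [mul_left_comm, ← AddChar.map_add_eq_mul]
      congr 2
      ring
    push_cast
    simp only [e1, expect_sum_comm, ← expect_mul]
    exact sum_congr rfl fun r _ => mul_left_comm _ _ _
  rw [← Real.norm_eq_abs, ← Complex.norm_real, e, ← alpha_parseval, ← alpha_parseval,
    ← sum_add_distrib, mul_sum]
  refine (norm_sum_le _ _).trans (sum_le_sum fun r _ => ?_)
  rw [norm_mul, norm_mul, alpha_conj, Complex.norm_conj]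
  refine (mul_le_mul_of_nonneg_right (h r) (by positivity)).trans ?_
  nlinarith [mul_nonneg ((norm_nonneg _).trans (h r)) (sq_nonneg
    (‖𝔼 x, (F x : ℂ) * alphaC p (r * x)‖ - ‖𝔼 x, (G x : ℂ) * alphaC p (r * x)‖))]

theorem alpha_small (hk : g.natDegree ≤ k) (hp : 2 * k < p)
    (hg : ∃ t : ℤ, ¬ (p : ℤ) ∣ (derivative g).eval t) :
    Small (alpha g p) ((4 + 2 * k) * (p : ℝ) ^ (-(1 / 2 ^ k : ℝ))) := by
  refine alpha_of_fourier (β := fun d => alpha g p d - 1) fun r => ?_
  have h1 := alpha_good hk hp hg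
  have h0 := alpha_pos p
  have h2 : (0 : ℝ) < (univ.filter fun t : ZMod p => aeval t (derivative g) ≠ 0).card := by linarith
  simp only [Complex.ofReal_sub, sub_mul, expect_sub_distrib, alpha_expect, Complex.ofReal_one,
    one_mul]
  rcases eq_or_ne r 0 with rfl | hr
  · simp only [zero_mul, AddChar.map_zero_eq_one, sum_const, nsmul_eq_mul, mul_one,
      Fintype.expect_const]
    rw [div_self (by exact_mod_cast h2.ne'), sub_self, norm_zero]
    positivity
  have h3 := alpha_expsum hk hp hg hr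
  have h4 : ‖∑ t : ZMod p with ¬ aeval t (derivative g) ≠ 0, alphaC p (r * aeval t g)‖ ≤ k :=
    (norm_sum_le _ _).trans (by simpa [alpha_norm] using alpha_bad hk hg)
  have h5 : 1 ≤ p * (p : ℝ) ^ (-(1 / 2 ^ k : ℝ)) := by
    rw [← div_le_iff₀' h0, one_div (p : ℝ), ← Real.rpow_neg_one]
    refine Real.rpow_le_rpow_of_exponent_le (by exact_mod_cast (Fact.out : p.Prime).one_le)
      (neg_le_neg (div_le_one_of_le₀ (one_le_pow₀ one_le_two) (by positivity)))
  rw [Fintype.expect_eq_sum_div_card, ZMod.card, norm_div, Complex.norm_natCast,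
    div_le_iff₀ h0] at h3
  rw [alpha_mean hr, sub_zero, norm_div, Complex.norm_natCast, div_le_iff₀ h2,
    eq_sub_of_add_eq (sum_filter_add_sum_filter_not univ (fun t : ZMod p =>
      aeval t (derivative g) ≠ 0) fun t => alphaC p (r * aeval t g))]
  refine (norm_sub_le_of_le h3 h4).trans ?_
  have h6 : 0 ≤ (2 + k) * (p : ℝ) ^ (-(1 / 2 ^ k : ℝ)) := by positivity
  nlinarith [mul_le_mul_of_nonneg_left h1 h6, mul_le_mul_of_nonneg_left h5 k.cast_nonneg]

theorem alpha_affine {g' : ℤ[X]} {L ρ Q : ℤ} (h : C L * g' = g.comp (C ρ + C Q * X))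
    (hL : ¬ (p : ℤ) ∣ L) (hQ : ¬ (p : ℤ) ∣ Q) (d : ZMod p) :
    alpha g' p d = alpha g p (L * d) := by
  rw [← ZMod.intCast_zmod_eq_zero_iff_dvd] at hL hQ
  have h1 : ∀ t : ZMod p, L * aeval t g' = aeval (ρ + Q * t) g := fun t => by
    simpa [aeval_comp] using congrArg (aeval t) h
  have h2 : ∀ t : ZMod p, aeval t (derivative g') ≠ 0 ↔
      aeval (ρ + Q * t) (derivative g) ≠ 0 := fun t => by
    have : L * aeval t (derivative g') = Q * aeval (ρ + Q * t) (derivative g) := by
      simpa [aeval_comp, derivative_comp] using congrArg (aeval t) (congrArg derivative h)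
    rw [← mul_ne_zero_iff_left hL, this, mul_ne_zero_iff_left hQ]
  have hb : Function.Bijective fun t : ZMod p => ρ + Q * t :=
    (Equiv.addLeft (ρ : ZMod p)).bijective.comp (mulLeft_bijective₀ _ hQ)
  unfold alpha
  congr 2
  · refine congrArg _ (card_bijective _ hb ?_)
    simp only [mem_filter, mem_univ, true_and, h2, ← h1, mul_right_inj' hL, implies_true]
  · refine card_bijective _ hb ?_
    simp only [mem_filter, mem_univ, true_and, h2, implies_true]

theorem alpha_ne_zero {s : ZMod p} (h : alpha g p s ≠ 0) :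
    ∃ t : ZMod p, aeval t (derivative g) ≠ 0 ∧ aeval t g = s := by
  by_contra h'
  exact h (by rw [alpha, filter_false_of_mem fun t _ ht => h' ⟨t, ht⟩]; simp)

/-- a density dominated by `alpha` is the image of a bounded weight -/
theorem exists_weight (hk : g.natDegree ≤ k) (hp : 2 * k < p)
    (hg : ∃ t : ℤ, ¬ (p : ℤ) ∣ (derivative g).eval t) {κ : ZMod p → ℝ} {B : ℝ} (hB : 0 ≤ B)
    (hκ : ∀ d, 0 ≤ κ d ∧ κ d ≤ B * alpha g p d) :
    ∃ ν : ZMod p → ℝ, (∀ t, |ν t| ≤ 2 * B) ∧ (∀ t, ν t ≠ 0 → aeval t (derivative g) ≠ 0) ∧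
      ∀ Φ : ZMod p → ℂ, 𝔼 t, (ν t : ℂ) * Φ (aeval t g) = 𝔼 d, (κ d : ℂ) * Φ d := by
  have h1 := alpha_good hk hp hg
  have h0 := alpha_pos p
  have h2 := fun d => (alpha_bdd hk hp hg d).1
  refine ⟨fun t => if aeval t (derivative g) ≠ 0 then p / (univ.filter fun t : ZMod p =>
    aeval t (derivative g) ≠ 0).card * (κ (aeval t g) / alpha g p (aeval t g)) else 0,
    fun t => ?_, fun t ht h => ht (if_neg (not_not.2 h)), fun Φ => ?_⟩
  · dsimp only
    split_ifs
    · rw [abs_of_nonneg (mul_nonneg (by positivity) (div_nonneg (hκ _).1 (h2 _)))]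
      exact mul_le_mul (div_le_of_le_mul₀ (by positivity) two_pos.le h1)
        (div_le_of_le_mul₀ (h2 _) hB (hκ _).2) (div_nonneg (hκ _).1 (h2 _)) two_pos.le
    · simpa using hB
  · have h3 : ∀ d, (κ d : ℂ) * Φ d = alpha g p d * ((κ d / alpha g p d : ℝ) * Φ d) := fun d => by
      rw [← mul_assoc, ← Complex.ofReal_mul]
      rcases eq_or_ne (alpha g p d) 0 with h | h
      · rw [h, zero_mul, le_antisymm (by simpa [h] using (hκ d).2) (hκ d).1]
      · rw [mul_div_cancel₀ _ h]
    have h4 : (p : ℂ) ≠ 0 := by exact_mod_cast h0.ne'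
    rw [expect_congr rfl fun d _ => h3 d, alpha_expect, Fintype.expect_eq_sum_div_card, ZMod.card,
      sum_filter, sum_div, sum_div]
    refine sum_congr rfl fun t _ => ?_
    dsimp only
    split_ifs
    · push_cast
      field_simp
    · simp

/-- Fourier coefficients of the two-point marginal of an admissible kernel -/
theorem marg_fourier {V : Type} [Fintype V] [DecidableEq V] {K k₀ cp : (V → ZMod p) → ℝ} {B κ : ℝ}
    (h : Adm K k₀ cp B κ) {u v : V} (huv : u ≠ v) {a : ℤ} (ha : ¬ (p : ℤ) ∣ a) :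
    ‖avg p fun d => (marg K u v d : ℂ) * ee (a * d / p)‖ ≤ 8 * κ := by
  have h4 : (p : ℂ) ≠ 0 := by exact_mod_cast (alpha_pos p).ne'
  have ha' : (-a : ZMod p) ≠ 0 := neg_ne_zero.2 ((ZMod.intCast_zmod_eq_zero_iff_dvd a p).not.2 ha)
  have e : avg p (fun d => (marg K u v d : ℂ) * ee (a * d / p)) =
      𝔼 x, (K x : ℂ) * alphaC p (a * (x v - x u)) := by
    simp only [← Int.cast_mul, alpha_ee]
    simp only [Int.cast_mul]
    rw [alpha_avg fun d => (marg K u v d : ℂ) * alphaC p (a * d)]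
    simp only [marg, Complex.ofReal_expect, expect_mul]
    rw [expect_comm]
    refine expect_congr rfl fun x _ => ?_
    simp only [Fintype.expect_eq_sum_div_card, mul_ite, apply_ite Complex.ofReal, ite_mul, mul_zero,
      Complex.ofReal_zero, zero_mul, sum_ite_eq, mem_univ, if_true, ZMod.card]
    push_cast
    field_simp
  have h1 : ‖𝔼 x, ((K x - k₀ x : ℝ) : ℂ) * alphaC p (a * (x v - x u))‖ ≤ κ := by
    refine (RCLike.norm_expect_le (K := ℂ)).trans ((expect_le_expect fun x _ => ?_).trans_eq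
      (?_ : 𝔼 x, κ * cp x = κ))
    · rw [norm_mul, alpha_norm, mul_one, Complex.norm_real]
      exact h.rest x
    · simpa [← mul_expect] using congrArg (κ * ·) (h.cp_marg u fun _ => 1)
  have h0 := (norm_nonneg _).trans h1
  have h2 : ∀ φ φ' : ℂ →L[ℝ] ℝ, (∀ z, |φ z| ≤ ‖z‖) → (∀ z, |φ' z| ≤ ‖z‖) →
      |𝔼 x, φ (alphaC p (-a * x u)) * φ' (alphaC p (a * x v)) * k₀ x| ≤ κ := fun φ φ' b b' => by
    have b2 : ∀ {φ : ℂ →L[ℝ] ℝ}, (∀ z, |φ z| ≤ ‖z‖) → ∀ t, φ (alphaC p t) ^ 2 ≤ 1 := fun b t =>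
      (sq_le_one_iff_abs_le_one _).2 ((b _).trans (alpha_norm t).le)
    refine (h.flat u (fun t => φ (alphaC p (-a * t))) (fun x => φ' (alphaC p (a * x v)))
      ((map_expect (φ.toLinearMap.restrictScalars ℚ≥0) (fun t => alphaC p (-a * t)) _).symm.trans
        (by rw [alpha_mean ha', map_zero]))
      fun x c => by rw [Function.update_of_ne huv.symm]).trans ?_
    have b3 := expect_le univ_nonempty fun t _ => b2 b (-a * t)
    have b4 := expect_le univ_nonempty fun (x : V → ZMod p) _ => b2 b' (a * x v)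
    nlinarith
  have h3 : ‖𝔼 x, (k₀ x : ℂ) * alphaC p (a * (x v - x u))‖ ≤ 4 * κ := by
    have a1 := h2 Complex.reCLM Complex.reCLM Complex.abs_re_le_norm Complex.abs_re_le_norm
    have a2 := h2 Complex.imCLM Complex.imCLM Complex.abs_im_le_norm Complex.abs_im_le_norm
    have a3 := h2 Complex.reCLM Complex.imCLM Complex.abs_re_le_norm Complex.abs_im_le_norm
    have a4 := h2 Complex.imCLM Complex.reCLM Complex.abs_im_le_norm Complex.abs_re_le_norm
    simp only [Complex.reCLM_apply, Complex.imCLM_apply] at a1 a2 a3 a4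
    have : ∀ x : V → ZMod p, (k₀ x : ℂ) * alphaC p (a * (x v - x u)) =
        alphaC p (-a * x u) * alphaC p (a * x v) * k₀ x := fun x => by
      rw [← AddChar.map_add_eq_mul, mul_comm]
      congr 2
      ring
    refine (Complex.norm_le_abs_re_add_abs_im _).trans ?_
    simp only [this, Complex.re_expect, Complex.im_expect, Complex.mul_re, Complex.mul_im,
      Complex.ofReal_re, Complex.ofReal_im, mul_zero, sub_zero, zero_add, sub_mul, add_mul,
      expect_sub_distrib, expect_add_distrib]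
    linarith [abs_sub _ _ |>.trans (add_le_add a1 a2), abs_add_le _ _ |>.trans (add_le_add a3 a4)]
  have := norm_add_le_of_le h1 h3
  simp only [← expect_add_distrib, ← add_mul, ← Complex.ofReal_add, sub_add_cancel] at this
  rw [e]
  linarith

end Vale.Agent.P042U
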