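import Vale.Agent.P042U.IntDefs

/-! Growth of a polynomial and the treatment of the small primes (task O1). -/

namespace Vale.Agent.P042U

open Finset Polynomial

/-- growth, monotonicity and convexity of `h` beyond `n₀` -/
structure Growth (h : ℤ[X]) (n₀ : ℕ) (B : ℤ) : Prop where
  n₀_ge : 1 ≤ n₀
  B_ge : 1 ≤ B
  lower : ∀ x : ℤ, n₀ ≤ x → x ^ h.natDegree ≤ 2 * h.eval x
  upper : ∀ x : ℤ, 1 ≤ x → h.eval x ≤ B * x ^ h.natDegree
  mono : ∀ x y : ℤ, n₀ ≤ x → x < y → h.eval x < h.eval y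
  lip : ∀ x y : ℤ, n₀ ≤ x → x ≤ y → y * (h.eval y - h.eval x) ≤ B * (y - x) * y ^ h.natDegree
  conv : ∀ x a : ℤ, n₀ ≤ x → 0 ≤ a →
    h.eval (x + a) - h.eval x ≤ h.eval (x + 2 * a) - h.eval (x + a)

lemma arch_pos (P : ℝ[X]) (hc : 0 < P.leadingCoeff) :
    ∀ᶠ x in Filter.atTop, 0 < P.eval x := by
  by_cases hdeg : P.degree ≤ 0
  · refine Filter.Eventually.of_forall fun x => ?_
    rwa [eq_C_of_degree_le_zero hdeg, ← natDegree_eq_zero_iff_degree_le_zero.mpr hdeg, eval_C]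
  · exact (P.tendsto_atTop_of_leadingCoeff_nonneg (not_le.1 hdeg) hc.le).eventually_gt_atTop 0

lemma arch_pos' (P : ℝ[X]) (k : ℕ) (hk : P.natDegree ≤ k) (hc : 0 < P.coeff k) :
    ∀ᶠ x in Filter.atTop, 0 < P.eval x := by
  have : P.natDegree = k := le_antisymm hk (le_natDegree_of_ne_zero hc.ne')
  exact arch_pos P (by rwa [leadingCoeff, this])

lemma arch_upper (h : ℤ[X]) (x : ℤ) (hx : 1 ≤ x) :
    h.eval x ≤ (∑ i ∈ range (h.natDegree + 1), |h.coeff i|) * x ^ h.natDegree := by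
  rw [eval_eq_sum_range, sum_mul]
  refine sum_le_sum fun i hi => ?_
  have h1 : x ^ i ≤ x ^ h.natDegree := pow_le_pow_right₀ hx (Nat.lt_succ_iff.1 (mem_range.1 hi))
  have h2 : 0 ≤ x ^ i := by positivity
  calc h.coeff i * x ^ i ≤ |h.coeff i| * x ^ i := by gcongr; exact le_abs_self _
    _ ≤ _ := by gcongr

lemma arch_lip (h : ℤ[X]) (x y : ℤ) (hx : 1 ≤ x) (hxy : x ≤ y) :
    y * (h.eval y - h.eval x) ≤
      (h.natDegree * ∑ i ∈ range (h.natDegree + 1), |h.coeff i|) * (y - x) * y ^ h.natDegree := by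
  rw [eval_eq_sum_range, eval_eq_sum_range, ← sum_sub_distrib, mul_sum, mul_sum, sum_mul, sum_mul]
  refine sum_le_sum fun i hi => ?_
  have hi' : i ≤ h.natDegree := Nat.lt_succ_iff.1 (mem_range.1 hi)
  have hy : 1 ≤ y := hx.trans hxy
  have h0 : 0 ≤ y ^ i - x ^ i := sub_nonneg.2 (pow_le_pow_left₀ (by linarith) hxy i)
  have h1 : y * (y ^ i - x ^ i) ≤ h.natDegree * (y - x) * y ^ h.natDegree := by
    rcases Nat.eq_zero_or_pos i with rfl | hpos
    · simp only [pow_zero, sub_self, mul_zero]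
      have : 0 ≤ y - x := by linarith
      positivity
    have h2 := abs_pow_sub_pow_le y x i
    rw [abs_of_nonneg h0, abs_of_nonneg (by linarith : 0 ≤ y - x),
      abs_of_nonneg (by linarith : 0 ≤ y), abs_of_nonneg (by linarith : 0 ≤ x),
      max_eq_left hxy] at h2
    have h3 : y * y ^ (i - 1) = y ^ i := by
      rw [← pow_succ']; congr 1; omega
    have h4 : y ^ i ≤ y ^ h.natDegree := pow_le_pow_right₀ hy hi'
    have h5 : (i : ℤ) ≤ h.natDegree := by exact_mod_cast hi'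
    have h6 : 0 ≤ y - x := by linarith
    calc y * (y ^ i - x ^ i) ≤ y * ((y - x) * i * y ^ (i - 1)) := by gcongr
      _ = i * (y - x) * y ^ i := by rw [← h3]; ring
      _ ≤ _ := by gcongr
  have h7 : 0 ≤ y * (y ^ i - x ^ i) := by positivity
  calc y * (h.coeff i * y ^ i - h.coeff i * x ^ i) = h.coeff i * (y * (y ^ i - x ^ i)) := by ring
    _ ≤ |h.coeff i| * (y * (y ^ i - x ^ i)) := by gcongr; exact le_abs_self _
    _ ≤ |h.coeff i| * (h.natDegree * (y - x) * y ^ h.natDegree) := by gcongr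
    _ = _ := by ring

theorem exists_growth (h : ℤ[X]) (hdeg : 2 ≤ h.natDegree) (hlc : 0 < h.leadingCoeff) :
    ∃ n₀ B, Growth h n₀ B := by
  set H : ℝ[X] := h.map (Int.castRingHom ℝ) with hH
  have hinj : Function.Injective (Int.castRingHom ℝ) := Int.cast_injective
  have hHd : H.natDegree = h.natDegree := natDegree_map_eq_of_injective hinj h
  have hHl : H.leadingCoeff = (h.leadingCoeff : ℝ) := leadingCoeff_map_of_injective hinj h
  have hlc' : (1 : ℝ) ≤ h.leadingCoeff := by exact_mod_cast hlc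
  have hev : ∀ x : ℤ, H.eval (x : ℝ) = ((h.eval x : ℤ) : ℝ) := fun x => by
    simp [hH, eval_intCast_map]
  have hk : (2 : ℝ) ≤ h.natDegree := by exact_mod_cast hdeg
  have e0 := arch_pos' (C 2 * H - X ^ h.natDegree) h.natDegree
    ((natDegree_sub_le _ _).trans (max_le ((natDegree_C_mul_le _ _).trans hHd.le)
      (natDegree_X_pow_le _)))
    (by
      rw [coeff_sub, coeff_C_mul, coeff_X_pow_self, ← hHd, coeff_natDegree, hHl]; linarith)
  have e1 := arch_pos (derivative H) (by rw [leadingCoeff_derivative, hHl, hHd]; positivity)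
  have e2 := arch_pos (derivative (derivative H)) (by
    rw [leadingCoeff_derivative, leadingCoeff_derivative, hHl, hHd, natDegree_derivative, hHd]
    have : (0 : ℝ) < ((h.natDegree - 1 : ℕ) : ℝ) := by exact_mod_cast (by omega)
    positivity)
  obtain ⟨x₀, hx₀⟩ := Filter.eventually_atTop.1 (e0.and (e1.and e2))
  obtain ⟨n₁, hn₁⟩ := exists_nat_ge x₀
  set M : ℤ := ∑ i ∈ range (h.natDegree + 1), |h.coeff i| with hM
  have hM1 : 1 ≤ M := by
    have : |h.coeff h.natDegree| ≤ M :=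
      single_le_sum (f := fun i => |h.coeff i|) (fun i _ => abs_nonneg _) (self_mem_range_succ _)
    have h2 : h.leadingCoeff ≤ |h.coeff h.natDegree| := le_abs_self _
    omega
  have hk' : (2 : ℤ) ≤ h.natDegree := by exact_mod_cast hdeg
  have hge : ∀ x : ℤ, ((n₁ + 1 : ℕ) : ℤ) ≤ x → x₀ ≤ (x : ℝ) := fun x hx => by
    have : ((n₁ + 1 : ℕ) : ℝ) ≤ (x : ℝ) := by exact_mod_cast hx
    push_cast at this; linarith
  have m1 : StrictMonoOn (fun t => H.eval t) (Set.Ici x₀) :=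
    strictMonoOn_of_deriv_pos (convex_Ici _) H.continuous.continuousOn fun t ht => by
      rw [Polynomial.deriv]; exact (hx₀ t (interior_subset ht)).2.1
  have m2 : StrictMonoOn (fun t => (derivative H).eval t) (Set.Ici x₀) :=
    strictMonoOn_of_deriv_pos (convex_Ici _) (derivative H).continuous.continuousOn fun t ht => by
      rw [Polynomial.deriv]; exact (hx₀ t (interior_subset ht)).2.2
  refine ⟨n₁ + 1, h.natDegree * M, by omega, by nlinarith, fun x hx => ?_, fun x hx => ?_,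
    fun x y hx hxy => ?_, fun x y hx hxy => ?_, fun x a hx ha => ?_⟩
  · have := (hx₀ x (hge x hx)).1
    rw [eval_sub, eval_mul, eval_C, eval_pow, eval_X, hev] at this
    have h2 : ((x ^ h.natDegree : ℤ) : ℝ) ≤ ((2 * h.eval x : ℤ) : ℝ) := by push_cast; linarith
    exact_mod_cast h2
  · refine (arch_upper h x hx).trans ?_
    have : 0 ≤ x ^ h.natDegree := by positivity
    gcongr
    nlinarith
  · have := m1 (hge x hx) (hge y (hx.trans hxy.le)) (by exact_mod_cast hxy : (x : ℝ) < y)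
    simp only [hev] at this
    exact_mod_cast this
  · exact arch_lip h x y (le_trans (by push_cast; omega) hx) hxy
  · have ha' : (0 : ℝ) ≤ a := by exact_mod_cast ha
    have hd : ∀ t : ℝ, HasDerivAt (fun t : ℝ => H.eval (t + a) - H.eval t)
        ((derivative H).eval (t + a) - (derivative H).eval t) t := fun t =>
      ((H.hasDerivAt (t + a)).comp_add_const t a).sub (H.hasDerivAt t)
    have m3 : MonotoneOn (fun t : ℝ => H.eval (t + a) - H.eval t) (Set.Ici x₀) :=
      monotoneOn_of_deriv_nonneg (convex_Ici _)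
        (fun t _ => (hd t).continuousAt.continuousWithinAt)
        (fun t _ => (hd t).differentiableAt.differentiableWithinAt) fun t ht => by
          rw [(hd t).deriv]
          have ht' : x₀ ≤ t := interior_subset ht
          exact sub_nonneg.2 (m2.monotoneOn ht' (by simp only [Set.mem_Ici]; linarith)
            (by linarith))
    have h1 := hge x hx
    have := m3 h1 (show x₀ ≤ (x : ℝ) + a by linarith) (by linarith)
    have e3 : (x : ℝ) + a + a = ((x + 2 * a : ℤ) : ℝ) := by push_cast; ring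
    have e4 : (x : ℝ) + a = ((x + a : ℤ) : ℝ) := by push_cast; ring
    simp only [e3] at this
    simp only [e4, hev] at this
    exact_mod_cast this

/-- the product of the primes up to `w`, to the power `e` -/
def Wm (w e : ℕ) : ℕ := primorial w ^ e

lemma arch_crt {ι : Type} [DecidableEq ι] (s : Finset ι) (m a : ι → ℤ)
    (hm : ∀ i ∈ s, ∀ j ∈ s, i ≠ j → IsCoprime (m i) (m j)) : ∃ x, ∀ i ∈ s, m i ∣ x - a i := by
  induction s using Finset.induction_on with
  | empty => exact ⟨0, by simp⟩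
  | insert j s hj ih =>
    obtain ⟨x, hx⟩ := ih fun i hi i' hi' => hm i (mem_insert_of_mem hi) i' (mem_insert_of_mem hi')
    obtain ⟨u, v, huv⟩ : IsCoprime (∏ i ∈ s, m i) (m j) :=
      IsCoprime.prod_left fun i hi => hm i (mem_insert_of_mem hi) j (mem_insert_self _ _)
        (fun h => hj (h ▸ hi))
    refine ⟨x + (∏ i ∈ s, m i) * (u * (a j - x)), fun i hi => ?_⟩
    rcases mem_insert.1 hi with rfl | hi
    · exact ⟨v * (x - a i), by linear_combination (a i - x) * huv⟩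
    · have : m i ∣ (∏ i ∈ s, m i) * (u * (a j - x)) := (dvd_prod_of_mem _ hi).mul_right _
      have h2 := (hx i hi).add this
      rwa [show x - a i + (∏ i ∈ s, m i) * (u * (a j - x)) =
        x + (∏ i ∈ s, m i) * (u * (a j - x)) - a i by ring] at h2

lemma arch_expand (g : ℤ[X]) (t a : ℤ) : ∃ R : ℤ[X], g.comp (C t + C a * X) =
    C (g.eval t) + C ((derivative g).eval t * a) * X + C (a ^ 2) * (X ^ 2 * R) := by
  obtain ⟨R, hR⟩ := (g.map (C : ℤ →+* ℤ[X])).binomExpansion (C t) (C a * X)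
  refine ⟨R, ?_⟩
  rw [derivative_map, eval_map, eval_map, eval_map, eval₂_hom, eval₂_hom] at hR
  rw [comp, hR]
  simp only [C_mul, C_pow]
  ring

/-- a residue class of differences on which `g` behaves linearly at the small primes and at the
primes of `q` -/
theorem exists_linear (g : ℤ[X]) (w e : ℕ)
    (hs : ∀ p : ℕ, p.Prime → p ≤ w → ∃ t : ℤ, ¬ (p : ℤ) ^ e ∣ (derivative g).eval t) :
    ∃ (c : ℤ) (E : ℕ), 1 ≤ E ∧ E ∣ Wm w e ∧ ∀ (P : Finset ℕ) (t : ℕ → ℤ) (c' : ℤ),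
      (∀ p ∈ P, p.Prime ∧ w < p ∧ ¬ (p : ℤ) ∣ (derivative g).eval (t p) ∧
        (p : ℤ) ∣ g.eval (t p) - c') → ((Wm w e * E : ℕ) : ℤ) ∣ c - c' →
      ∃ (t₁ : ℕ) (G : ℤ[X]), t₁ < Wm w e * ∏ p ∈ P, p ∧
        C ((Wm w e * E * ∏ p ∈ P, p : ℕ) : ℤ) * G =
          g.comp (C (t₁ : ℤ) + C ((Wm w e * ∏ p ∈ P, p : ℕ) : ℤ) * X) - C c' ∧
        ∀ p : ℕ, p.Prime → (p ≤ w ∨ p ∈ P) → ∀ s : ℤ, ¬ (p : ℤ) ∣ (derivative G).eval s ∧
          ∀ s' : ℤ, (p : ℤ) ∣ G.eval s - G.eval s' → (p : ℤ) ∣ s - s' := by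
  classical
  choose! τ hτ using hs
  have hcp : ∀ p q : ℕ, p.Prime → q.Prime → p ≠ q → IsCoprime (p : ℤ) (q : ℤ) :=
    fun p q hp hq hpq => Nat.isCoprime_iff_coprime.2 ((Nat.coprime_primes hp hq).2 hpq)
  obtain ⟨t₀, ht₀⟩ := arch_crt (Nat.primesLE w) (fun p => (p : ℤ) ^ e) τ
    fun p hp q hq hpq => (hcp p q (Nat.mem_primesLE.1 hp).2 (Nat.mem_primesLE.1 hq).2 hpq).pow
  set W := Wm w e with hW
  have hWpos : 0 < W := pow_pos (primorial_pos w) e
  have hnd : ∀ p : ℕ, p.Prime → p ≤ w → ¬ (p : ℤ) ^ e ∣ (derivative g).eval t₀ := by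
    intro p hp hpw hd
    refine hτ p hp hpw ?_
    have h1 := (ht₀ p (Nat.mem_primesLE.2 ⟨hpw, hp⟩)).trans
      (sub_dvd_eval_sub t₀ (τ p) (derivative g))
    simpa using hd.sub h1
  set E := Int.gcd ((derivative g).eval t₀) W with hE
  have hE1 : (E : ℤ) ∣ (derivative g).eval t₀ := Int.gcd_dvd_left _ _
  have hE2 : (E : ℤ) ∣ (W : ℤ) := Int.gcd_dvd_right _ _
  have hEpos : 0 < E := Int.gcd_pos_of_ne_zero_right _ (by exact_mod_cast hWpos.ne')
  obtain ⟨F, hF⟩ := hE2
  have hpF : ∀ p : ℕ, p.Prime → p ≤ w → (p : ℤ) ∣ F := by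
    intro p hp hpw
    by_contra hn
    have h1 : (p : ℤ) ^ e ∣ (W : ℤ) := by
      have : p ^ e ∣ W := pow_dvd_pow_of_dvd (hp.dvd_primorial_iff.2 hpw) e
      exact_mod_cast this
    have h2 : IsCoprime ((p : ℤ) ^ e) F :=
      ((Nat.prime_iff_prime_int.1 hp).irreducible.coprime_iff_not_dvd.2 hn).pow_left
    rw [hF] at h1
    exact hnd p hp hpw ((h2.dvd_of_dvd_mul_right h1).trans hE1)
  refine ⟨g.eval t₀, E, hEpos, Int.natCast_dvd_natCast.1 ⟨F, hF⟩, fun P t c' hP hc => ?_⟩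
  set Q := ∏ p ∈ P, p with hQ
  have hQpos : 0 < Q := prod_pos fun p hp => (hP p hp).1.pos
  have hWp : ∀ p ∈ P, IsCoprime (W : ℤ) (p : ℤ) := by
    intro p hp
    refine Nat.isCoprime_iff_coprime.2 (Nat.Coprime.pow_left e ?_)
    refine ((Nat.Prime.coprime_iff_not_dvd (hP p hp).1).2 fun hd => ?_).symm
    exact absurd ((hP p hp).1.dvd_primorial_iff.1 hd) (not_le.2 (hP p hp).2.1)
  obtain ⟨x, hx⟩ := arch_crt (insertNone P) (fun o => o.elim (W : ℤ) fun p => (p : ℤ))
    (fun o => o.elim t₀ t) (by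
      rintro (_ | p) hp (_ | q) hq hpq
      · exact absurd rfl hpq
      · exact hWp q (by simpa using hq)
      · exact (hWp p (by simpa using hp)).symm
      · exact hcp p q (hP p (by simpa using hp)).1 (hP q (by simpa using hq)).1
          fun h => hpq (by rw [h]))
  have hWQ : (0 : ℤ) < ((W * Q : ℕ) : ℤ) := by exact_mod_cast Nat.mul_pos hWpos hQpos
  obtain ⟨t₁, ht₁⟩ := Int.eq_ofNat_of_zero_le (Int.emod_nonneg x hWQ.ne')
  have hlt : t₁ < W * Q := by
    have := Int.emod_lt_of_pos x hWQ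
    rw [ht₁] at this; exact_mod_cast this
  have hxt : ((W * Q : ℕ) : ℤ) ∣ (t₁ : ℤ) - x := by
    rw [← ht₁]; exact (Int.mod_modEq x _).symm.dvd
  have hpQ : ∀ p ∈ P, (p : ℤ) ∣ (Q : ℤ) := fun p hp =>
    Int.natCast_dvd_natCast.2 (dvd_prod_of_mem (fun p => p) hp)
  have h1 : (W : ℤ) ∣ (t₁ : ℤ) - t₀ := by
    have a1 : (W : ℤ) ∣ x - t₀ := hx none (by simp)
    have a2 : (W : ℤ) ∣ (t₁ : ℤ) - x := (by push_cast; exact dvd_mul_right _ _ :
      (W : ℤ) ∣ ((W * Q : ℕ) : ℤ)).trans hxt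
    simpa using a2.add a1
  have h2 : ∀ p ∈ P, (p : ℤ) ∣ (t₁ : ℤ) - t p := by
    intro p hp
    have a1 : (p : ℤ) ∣ x - t p := hx (some p) (by simpa using hp)
    have a2 : (p : ℤ) ∣ (t₁ : ℤ) - x := (by push_cast; exact (hpQ p hp).mul_left _ :
      (p : ℤ) ∣ ((W * Q : ℕ) : ℤ)).trans hxt
    simpa using a2.add a1
  have h3 : (W : ℤ) ∣ (derivative g).eval (t₁ : ℤ) - (derivative g).eval t₀ :=
    h1.trans (sub_dvd_eval_sub _ _ _)
  obtain ⟨u, hu⟩ : (E : ℤ) ∣ (derivative g).eval (t₁ : ℤ) := by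
    simpa using ((Dvd.intro _ hF.symm).trans h3).add hE1
  obtain ⟨c₀, hc₀⟩ : ((W * E * Q : ℕ) : ℤ) ∣ g.eval (t₁ : ℤ) - c' := by
    have a1 : ((W * E : ℕ) : ℤ) ∣ g.eval (t₁ : ℤ) - c' := by
      obtain ⟨k, hk⟩ := h1
      obtain ⟨R, hR⟩ := g.binomExpansion t₀ (W * k)
      obtain ⟨u₀, hu₀⟩ := hE1
      have : ((W * E : ℕ) : ℤ) ∣ g.eval (t₁ : ℤ) - g.eval t₀ := by
        refine ⟨u₀ * k + R * F * k ^ 2, ?_⟩
        rw [show (t₁ : ℤ) = t₀ + W * k by linarith, hR, hu₀]
        push_cast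
        linear_combination (R * W * k ^ 2) * hF
      simpa using this.add hc
    have a2 : (Q : ℤ) ∣ g.eval (t₁ : ℤ) - c' := by
      rw [hQ, Nat.cast_prod]
      refine Finset.prod_dvd_of_coprime (fun p hp q hq hpq => ?_) fun p hp => ?_
      · exact hcp p q (hP p hp).1 (hP q hq).1 hpq
      · simpa using ((h2 p hp).trans (sub_dvd_eval_sub _ _ g)).add (hP p hp).2.2.2
    have a3 : IsCoprime ((W * E : ℕ) : ℤ) (Q : ℤ) := by
      have b1 : IsCoprime (W : ℤ) (Q : ℤ) := by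
        rw [hQ, Nat.cast_prod]; exact IsCoprime.prod_right hWp
      push_cast
      exact b1.mul_left (b1.of_isCoprime_of_dvd_left ⟨F, hF⟩)
    rw [Nat.cast_mul]
    exact a3.mul_dvd a1 a2
  obtain ⟨R, hR⟩ := arch_expand g t₁ ((W * Q : ℕ) : ℤ)
  refine ⟨t₁, C c₀ + C u * X + C (F * Q) * (X ^ 2 * R), hlt, ?_, fun p hp hpP s => ?_⟩
  · rw [hR, hu, show g.eval (t₁ : ℤ) = c' + ((W * E * Q : ℕ) : ℤ) * c₀ by linarith]
    have b1 : (((W * Q : ℕ) : ℤ)) ^ 2 = ((W * E * Q : ℕ) : ℤ) * (F * Q) := by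
      push_cast; linear_combination (W * Q ^ 2 : ℤ) * hF
    have b2 : (E : ℤ) * u * ((W * Q : ℕ) : ℤ) = ((W * E * Q : ℕ) : ℤ) * u := by push_cast; ring
    rw [b1, b2]
    simp only [C_mul, C_add]
    ring
  · have hp' := Nat.prime_iff_prime_int.1 hp
    have b1 : (p : ℤ) ∣ F * Q := by
      rcases hpP with h | h
      · exact (hpF p hp h).mul_right _
      · exact (hpQ p h).mul_left _
    have b2 : ¬ (p : ℤ) ∣ u := by
      intro hd
      rcases hpP with h | h
      · have d1 : (E : ℤ) * p ∣ (W : ℤ) := by rw [hF]; exact mul_dvd_mul_left _ (hpF p hp h)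
        have d2 : (E : ℤ) * p ∣ (derivative g).eval t₀ := by
          have d3 : (E : ℤ) * p ∣ (derivative g).eval (t₁ : ℤ) := by
            rw [hu]; exact mul_dvd_mul_left _ hd
          simpa using d3.sub (d1.trans h3)
        have d4 : (E : ℤ) * p ∣ (E : ℤ) * 1 := by
          rw [mul_one]; exact Int.dvd_coe_gcd d2 d1
        exact hp'.not_dvd_one ((mul_dvd_mul_iff_left (by exact_mod_cast hEpos.ne')).1 d4)
      · refine (hP p h).2.2.1 ?_
        have d3 : (p : ℤ) ∣ (derivative g).eval (t₁ : ℤ) := by rw [hu]; exact hd.mul_left _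
        simpa using d3.sub ((h2 p h).trans (sub_dvd_eval_sub _ _ (derivative g)))
    refine ⟨fun hd => b2 ?_, fun s' hd => ?_⟩
    · rw [derivative_add, derivative_add, derivative_C, derivative_C_mul, derivative_X,
        derivative_C_mul, eval_add, eval_add, eval_C_mul, eval_C_mul] at hd
      have := hd.sub (b1.mul_right ((derivative (X ^ 2 * R)).eval s))
      rwa [add_sub_cancel_right, eval_zero, eval_one, zero_add, mul_one] at this
    · refine (hp'.dvd_or_dvd (a := u) ?_).resolve_left b2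
      simp only [eval_add, eval_C_mul, eval_C, eval_X] at hd
      generalize (X ^ 2 * R).eval s = y at hd
      generalize (X ^ 2 * R).eval s' = y' at hd
      have := hd.sub (b1.mul_right (y - y'))
      rwa [show c₀ + u * s + F * Q * y - (c₀ + u * s' + F * Q * y') - F * Q * (y - y') =
        u * (s - s') by ring] at this

end Vale.Agent.P042U
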