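import Vale.Agent.P042U.Abel

/-! Averages of periodic functions. -/

namespace Vale.Agent.P042U

open Finset Polynomial Function
open scoped BigOperators

lemma sing_shift {f : ℤ → ℂ} {M : ℕ} (h : Periodic f M) (c : ℤ) :
    avg M (fun s => f (s + c)) = avg M f := by
  simp only [avg, add_comm _ c, abel_period h c]

lemma sing_mul {f : ℤ → ℂ} {M : ℕ} (h : Periodic f M) {N : ℕ} (hN : N ≠ 0) :
    avg (M * N) f = avg M f := by
  have h1 : ∀ n : ℕ, ∑ s ∈ range (M * n), f s = n * ∑ s ∈ range M, f s := by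
    intro n
    induction n with
    | zero => simp
    | succ n ih =>
      rw [mul_add, mul_one, sum_range_add, ih]
      simp only [Nat.cast_add]
      rw [abel_period h, Nat.cast_one, add_mul, one_mul]
  rw [avg, avg, h1, Nat.cast_mul, mul_comm (M : ℂ), mul_div_mul_left _ _ (Nat.cast_ne_zero.2 hN)]

lemma sing_period {f : ℤ → ℂ} {M N : ℕ} (h : Periodic f M) (h' : Periodic f N) (hM : M ≠ 0)
    (hN : N ≠ 0) : avg M f = avg N f := by
  rw [← sing_mul h hN, mul_comm, sing_mul h' hM]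

lemma sing_per_dvd {f : ℤ → ℂ} {M N : ℕ} (h : Periodic f M) (hd : M ∣ N) : Periodic f N := by
  obtain ⟨c, rfl⟩ := hd
  simpa [mul_comm] using h.nat_mul c

lemma sing_const {M : ℕ} (hM : M ≠ 0) (c : ℂ) : avg M (fun _ => c) = c := by
  rw [avg, sum_const, card_range, nsmul_eq_mul, mul_div_cancel_left₀ _ (Nat.cast_ne_zero.2 hM)]

lemma sing_const_mul (M : ℕ) (c : ℂ) (f : ℤ → ℂ) : avg M (fun s => c * f s) = c * avg M f := by
  rw [avg, avg, ← mul_sum, mul_div_assoc]

lemma sing_add (M : ℕ) (f g : ℤ → ℂ) : avg M (fun s => f s + g s) = avg M f + avg M g := by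
  rw [avg, avg, avg, sum_add_distrib, add_div]

lemma sing_avg_avg {f : ℤ → ℂ} {M : ℕ} (h : Periodic f M) {N : ℕ} (hN : N ≠ 0) (c : ℤ) :
    avg M f = avg M fun s => avg N fun t => f (s + c * t) := by
  have h1 : avg M (fun s => avg N fun t => f (s + c * t)) =
      avg N fun t => avg M fun s => f (s + c * t) := by
    simp only [avg, ← sum_div]
    rw [sum_comm, div_right_comm]
  rw [h1]
  simp only [sing_shift h, sing_const hN]

lemma sing_zmod {N : ℕ} [NeZero N] (Φ : ZMod N → ℂ) : avg N (fun s => Φ s) = 𝔼 x, Φ x := by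
  rw [avg, Fintype.expect_eq_sum_div_card, ZMod.card]
  congr 1
  refine sum_nbij' (fun s => (s : ZMod N)) ZMod.val (by simp) (fun x _ => by
    simpa using ZMod.val_lt x) (fun s hs => ZMod.val_cast_of_lt (mem_range.1 hs)) (by simp)
    (by simp)

lemma sing_lift {f : ℤ → ℂ} {N : ℕ} [NeZero N] (h : Periodic f N) (s : ℤ) :
    f ((s : ZMod N).val) = f s := by
  rw [ZMod.val_intCast, Int.emod_def, mul_comm]
  exact h.sub_int_mul_eq _

lemma sing_perm {f : ℤ → ℂ} {M N : ℕ} (h : Periodic f N) (hN : N ≠ 0) (hc : M.Coprime N) (s : ℤ) :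
    avg N (fun t => f (s + M * t)) = avg N f := by
  have : NeZero N := ⟨hN⟩
  have h1 := sing_zmod fun x : ZMod N => f x.val
  have h2 := sing_zmod fun x : ZMod N => f ((s : ZMod N) + M * x).val
  simp only [sing_lift h] at h1
  have h3 : ∀ t : ℤ, f ((s : ZMod N) + M * t).val = f (s + M * t) := fun t => by
    rw [← sing_lift h (s + M * t)]; push_cast; rfl
  simp only [h3] at h2
  rw [h1, h2]
  exact Fintype.expect_equiv (((ZMod.unitOfCoprime M hc).mulLeft).trans (Equiv.addLeft (s : ZMod N)))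
    _ _ fun x => rfl

lemma sing_coprime {f g : ℤ → ℂ} {M N : ℕ} (hf : Periodic f M) (hg : Periodic g N)
    (hN : N ≠ 0) (hc : M.Coprime N) : avg (M * N) (fun s => f s * g s) = avg M f * avg N g := by
  have h1 : Periodic (fun s => f s * g s) (M * N : ℕ) :=
    (sing_per_dvd hf (dvd_mul_right _ _)).mul (sing_per_dvd hg (dvd_mul_left _ _))
  rw [sing_avg_avg h1 hN M]
  have h2 : ∀ s t : ℤ, f (s + M * t) = f s := fun s t => by
    rw [mul_comm]; exact hf.int_mul t s
  simp only [h2, sing_const_mul, sing_perm hg hN hc]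
  simp only [mul_comm (f _), sing_const_mul, sing_mul hf hN]
  exact mul_comm _ _

lemma sing_prod {ι : Type*} (s : Finset ι) (m : ι → ℕ) (f : ι → ℤ → ℂ) (h0 : ∀ i ∈ s, m i ≠ 0)
    (hc : ∀ i ∈ s, ∀ j ∈ s, i ≠ j → (m i).Coprime (m j)) (hf : ∀ i ∈ s, Periodic (f i) (m i)) :
    avg (∏ i ∈ s, m i) (fun x => ∏ i ∈ s, f i x) = ∏ i ∈ s, avg (m i) (f i) := by
  classical
  induction s using Finset.induction_on with
  | empty => simp [sing_const]
  | insert a s ha ih =>
    simp only [prod_insert ha]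
    rw [sing_coprime (hf a (mem_insert_self _ _)) _
      (prod_ne_zero_iff.2 fun i hi => h0 i (mem_insert_of_mem hi))
      (Nat.Coprime.prod_right fun i hi => hc a (mem_insert_self _ _) i (mem_insert_of_mem hi)
        fun e => ha (e ▸ hi)),
      ih (fun i hi => h0 i (mem_insert_of_mem hi))
        (fun i hi j hj => hc i (mem_insert_of_mem hi) j (mem_insert_of_mem hj))
        fun i hi => hf i (mem_insert_of_mem hi)]
    intro x
    exact prod_congr rfl fun i hi =>
      sing_per_dvd (hf i (mem_insert_of_mem hi)) (dvd_prod_of_mem m hi) x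

lemma sing_norm_le {f : ℤ → ℂ} {g : ℤ → ℝ} (M : ℕ) (h : ∀ s, ‖f s‖ ≤ g s) :
    ‖avg M f‖ ≤ ‖avg M fun s => (g s : ℂ)‖ := by
  rw [avg, avg, norm_div, norm_div, ← Complex.ofReal_sum, Complex.norm_real]
  gcongr
  exact ((norm_sum_le _ _).trans (sum_le_sum fun (s : ℕ) _ => h s)).trans (le_abs_self _)

/-- the character `e(b x / m)` -/
noncomputable def singE (b : ℤ) (m : ℕ) (x : ℤ) : ℂ := ee (b * x / m)

lemma singE_add (b : ℤ) (m : ℕ) (x y : ℤ) : singE b m (x + y) = singE b m x * singE b m y := by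
  rw [singE, singE, singE, ← abel_ee_add, Int.cast_add, mul_add, add_div]

lemma singE_norm (b : ℤ) (m : ℕ) (x : ℤ) : ‖singE b m x‖ = 1 := abel_ee_norm _

lemma singE_dvd (b : ℤ) {m : ℕ} (hm : m ≠ 0) {x : ℤ} (h : (m : ℤ) ∣ x) : singE b m x = 1 := by
  obtain ⟨c, rfl⟩ := h
  rw [← abel_ee_int (b * c), singE]
  congr 1
  push_cast
  field_simp

lemma singE_congr (b : ℤ) {m : ℕ} (hm : m ≠ 0) {x y : ℤ} (h : (m : ℤ) ∣ x - y) :
    singE b m x = singE b m y := by
  rw [← sub_add_cancel x y, singE_add, singE_dvd b hm h, one_mul]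

lemma singE_per (b : ℤ) {m : ℕ} (hm : m ≠ 0) (P : ℤ[X]) :
    Periodic (fun s => singE b m (P.eval s)) m := fun s =>
  singE_congr b hm (by simpa using sub_dvd_eval_sub (s + m) s P)

lemma singE_mul (b : ℤ) (m : ℕ) {n : ℕ} (hn : n ≠ 0) (x : ℤ) :
    singE b (n * m) (n * x) = singE b m x := by
  rw [singE, singE]
  congr 1
  push_cast
  rw [mul_left_comm, mul_div_mul_left _ _ (Nat.cast_ne_zero.2 hn)]

lemma singE_geom {b : ℤ} {m : ℕ} (hm : m ≠ 0) {c : ℤ} (h : ¬ (m : ℤ) ∣ b * c) :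
    avg m (fun t => singE b m (t * c)) = 0 := by
  have h1 : Periodic (fun t => singE b m (t * c)) m := fun t =>
    singE_congr b hm (by rw [add_mul, add_sub_cancel_left]; exact dvd_mul_right _ _)
  have h2 := sing_shift h1 1
  simp only [add_mul, one_mul, singE_add, mul_comm _ (singE b m c), sing_const_mul] at h2
  by_contra h3
  have h4 : singE b m c = 1 := (mul_left_eq_self₀.1 h2).resolve_right h3
  obtain ⟨n, hn⟩ := Complex.exp_eq_one_iff.1 h4
  refine h ⟨n, ?_⟩
  have h5 : ((b * c / m : ℝ) : ℂ) = n :=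
    mul_left_cancel₀ Complex.two_pi_I_ne_zero (hn.trans (mul_comm _ _))
  rw [← Complex.ofReal_intCast, Complex.ofReal_inj, div_eq_iff (Nat.cast_ne_zero.2 hm)] at h5
  exact_mod_cast h5.trans (mul_comm _ _)

lemma sing_partial {q : ℕ} (hq : 1 ≤ q) {a : ℤ} (ha : IsCoprime a q) :
    ∃ b : ℕ → ℤ, (∀ p ∈ q.primeFactors, ¬ (p : ℤ) ∣ b p) ∧
      ∀ n : ℤ, singE a q n = ∏ p ∈ q.primeFactors, singE (b p) (p ^ q.factorization p) n := by
  rcases q.primeFactors.eq_empty_or_nonempty with h | h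
  · refine ⟨0, by simp [h], fun n => ?_⟩
    have h1 : q = 1 := by have := Nat.primeFactors_eq_empty.1 h; omega
    rw [h, prod_empty, h1]
    exact singE_dvd _ one_ne_zero (one_dvd _)
  obtain ⟨μ, hμ⟩ := (exists_sum_eq_one_iff_pairwise_coprime
    (s := fun p : ℕ => ((p ^ q.factorization p : ℕ) : ℤ)) h).2 fun i j hij =>
      Nat.isCoprime_iff_coprime.2 (Nat.pairwise_coprime_pow_primeFactors_factorization hij)
  have hq0 : q ≠ 0 := by omega
  refine ⟨fun p => a * μ p, fun p hp hd => ?_, fun n => ?_⟩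
  · have hpp := Nat.prime_iff_prime_int.1 (Nat.prime_of_mem_primeFactors hp)
    refine hpp.not_isUnit ?_
    rcases hpp.dvd_or_dvd hd with h1 | h1
    · exact ha.isUnit_of_dvd' h1 (Int.natCast_dvd_natCast.2 (Nat.dvd_of_mem_primeFactors hp))
    · refine isUnit_of_dvd_one (hμ ▸ dvd_sum fun i hi => ?_)
      by_cases e : i = p
      · subst e
        exact h1.mul_right _
      · refine Dvd.dvd.mul_left (Dvd.dvd.trans ?_ (dvd_prod_of_mem _
          (mem_sdiff.2 ⟨hp, by simpa using Ne.symm e⟩))) _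
        exact Int.natCast_dvd_natCast.2 (dvd_pow_self _ ((Nat.prime_of_mem_primeFactors
          hp).factorization_pos_of_dvd hq0 (Nat.dvd_of_mem_primeFactors hp)).ne')
  · have h1 : (a * n / q : ℝ) =
        ∑ p ∈ q.primeFactors, ((a * μ p : ℤ) : ℝ) * n / (p ^ q.factorization p : ℕ) := by
      have h2 := congrArg (Int.cast : ℤ → ℝ) hμ
      rw [Int.cast_one, Int.cast_sum] at h2
      rw [← mul_one (a * n / q : ℝ), ← h2, mul_sum]
      refine sum_congr rfl fun p hp => ?_
      have h3 : (q : ℝ) = (p ^ q.factorization p : ℕ) *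
          ((∏ j ∈ q.primeFactors \ {p}, ((j ^ q.factorization j : ℕ) : ℤ) : ℤ) : ℝ) := by
        have h4 := Nat.prod_primeFactors_pow_factorization hq0
        rw [prod_eq_mul_prod_sdiff_singleton_of_mem hp] at h4
        exact_mod_cast h4
      have h4 := mul_ne_zero_iff.1 (h3 ▸ (Nat.cast_ne_zero.2 hq0 : (q : ℝ) ≠ 0))
      rw [h3, Int.cast_mul, Int.cast_mul]
      generalize ((∏ j ∈ q.primeFactors \ {p}, ((j ^ q.factorization j : ℕ) : ℤ) : ℤ) : ℝ) = y at h4
      field_simp [h4.1, h4.2]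
    simp only [singE, ee]
    rw [h1, ← Complex.exp_sum, Complex.ofReal_sum, mul_sum]

/-- only the points where the derivative vanishes survive at higher prime powers -/
lemma sing_high {p : ℕ} (hp : p.Prime) {b : ℤ} (hb : ¬ (p : ℤ) ∣ b) (j : ℕ) (P : ℤ[X])
    {u : ℤ → ℂ} (hu : Periodic u p) :
    avg (p ^ (j + 3)) (fun s => u s * singE b (p ^ (j + 2)) (P.eval s)) =
      avg (p ^ (j + 3)) fun s => if (p : ℤ) ∣ (derivative P).eval s then
        u s * singE b (p ^ (j + 2)) (P.eval s) else 0 := by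
  have h0 : ∀ n, p ^ n ≠ 0 := fun n => pow_ne_zero n hp.ne_zero
  have h1 : Periodic (fun s => u s * singE b (p ^ (j + 2)) (P.eval s)) (p ^ (j + 3) : ℕ) :=
    (sing_per_dvd hu (dvd_pow_self _ (by omega))).mul
      (sing_per_dvd (singE_per b (h0 _) P) (pow_dvd_pow _ (by omega)))
  rw [sing_avg_avg h1 hp.ne_zero ((p ^ (j + 1) : ℕ) : ℤ)]
  congr 1
  funext s
  have h2 : ∀ t : ℤ, u (s + (p ^ (j + 1) : ℕ) * t) *
      singE b (p ^ (j + 2)) (P.eval (s + (p ^ (j + 1) : ℕ) * t)) =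
      u s * singE b (p ^ (j + 2)) (P.eval s) * singE b p (t * (derivative P).eval s) := by
    intro t
    obtain ⟨c, hc⟩ := P.binomExpansion s ((p ^ (j + 1) : ℕ) * t)
    have h3 : u (s + (p ^ (j + 1) : ℕ) * t) = u s := by
      rw [mul_comm]
      exact (sing_per_dvd hu (dvd_pow_self _ (by omega))).int_mul t s
    rw [h3, hc, singE_add, singE_add, singE_dvd b (h0 _) (x := c * _)
      ⟨c * t ^ 2 * p ^ j, by push_cast; ring⟩, mul_one, ← singE_mul b p (h0 (j + 1)), ← pow_succ,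
      mul_assoc]
    congr 3
    ring
  simp only [h2, sing_const_mul]
  split_ifs with h
  · simp only [singE_dvd b hp.ne_zero (h.mul_left _), sing_const hp.ne_zero, mul_one]
  · rw [singE_geom hp.ne_zero fun h' => ((Nat.prime_iff_prime_int.1 hp).dvd_or_dvd h').elim hb h,
      mul_zero]

lemma sing_aeval {p : ℕ} (P : ℤ[X]) (s : ℤ) : aeval (s : ZMod p) P = (P.eval s : ℤ) := by
  rw [← eq_intCast (algebraMap ℤ (ZMod p)), aeval_algebraMap_apply_eq_algebraMap_eval,
    eq_intCast]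

lemma sing_roots {p : ℕ} [Fact p.Prime] {P : ℤ[X]} {k : ℕ} (hk : P.natDegree ≤ k)
    (h : ∃ s : ℤ, ¬ (p : ℤ) ∣ P.eval s) :
    ‖avg p fun s => ((if (p : ℤ) ∣ P.eval s then 1 else 0 : ℝ) : ℂ)‖ ≤ k / p := by
  classical
  have h1 := sing_zmod fun x : ZMod p => ((if aeval x P = 0 then 1 else 0 : ℝ) : ℂ)
  simp only [sing_aeval, ZMod.intCast_zmod_eq_zero_iff_dvd] at h1
  rw [h1, Fintype.expect_eq_sum_div_card, ZMod.card, ← Complex.ofReal_sum, sum_boole, norm_div,
    Complex.norm_real, Complex.norm_natCast, Real.norm_natCast]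
  obtain ⟨s, hs⟩ := h
  have h2 : P.map (algebraMap ℤ (ZMod p)) ≠ 0 := fun h0 => hs (by
    rw [← ZMod.intCast_zmod_eq_zero_iff_dvd, ← sing_aeval, ← eval_map_algebraMap, h0, eval_zero])
  gcongr
  refine (card_le_card (t := (P.map (algebraMap ℤ (ZMod p))).roots.toFinset) fun x hx => ?_).trans
    ((Multiset.toFinset_card_le _).trans ((card_roots' _).trans (natDegree_map_le.trans hk)))
  rw [Multiset.mem_toFinset, mem_roots h2, IsRoot, eval_map_algebraMap]
  exact (mem_filter.1 hx).2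

end Vale.Agent.P042U
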