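import Vale.Agent.P042U.Alpha
import Vale.Agent.P042U.SingAux

/-! Comparison of the singular series (task K2). -/

namespace Vale.Agent.P042U

open Finset Polynomial
open scoped BigOperators

/-- the local hypotheses of the bilinear estimate -/
structure Loc (k : ℕ) (B γ : ℝ) (w D : ℕ) (I : Finset (PI w D)) (G : ℤ[X])
    (ν κ : ∀ p : PI w D, Om w D p → ℝ) : Prop where
  k_le : 2 * (k : ℝ) ≤ B
  k_ge : 1 ≤ k
  γ_pos : 0 < γ
  γ_le : γ ≤ 1 / 2 ^ k
  w_ge : 3 * B ≤ (w : ℝ) ^ (γ / 2)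
  w_le : w ≤ D
  deg : G.natDegree ≤ k
  primes : ∀ p : ℕ, p.Prime → (∀ s : ℤ, ¬ (p : ℤ) ∣ (derivative G).eval s ∧
      ∀ s' : ℤ, (p : ℤ) ∣ G.eval s - G.eval s' → (p : ℤ) ∣ s - s') ∨
    ((2 * k < p ∧ ∃ s : ℤ, ¬ (p : ℤ) ∣ (derivative G).eval s) ∧ (D < p ∨ ∃ i ∈ I, i.1 = p))
  ν_le : ∀ i ∈ I, ∀ t, |ν i t| ≤ B
  κ_le : ∀ i ∈ I, ∀ t, |κ i t| ≤ B
  supp : ∀ i ∈ I, ∀ t, ν i t ≠ 0 → aeval t (derivative G) ≠ 0
  img : ∀ i ∈ I, ∀ Φ : Om w D i → ℂ, 𝔼 t, (ν i t : ℂ) * Φ (aeval t G) = 𝔼 d, (κ i d : ℂ) * Φ d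
  mean : ∀ i ∈ I, 𝔼 d, κ i d = 1
  four : ∀ i ∈ I, ∀ a : ℤ, ¬ (i.1 : ℤ) ∣ a →
    ‖avg i.1 fun d => (κ i d : ℂ) * ee (a * d / i.1)‖ ≤ B * (i.1 : ℝ) ^ (-γ)

/-- the local factor without weight -/
noncomputable def singO (b : ℤ) (p j : ℕ) (P : ℤ[X]) : ℂ :=
  avg (p ^ (j + 1)) fun s => singE b (p ^ j) (P.eval s)

/-- the local factor with weight `u` -/
noncomputable def singT (b : ℤ) (p j : ℕ) (P : ℤ[X]) (u : ZMod p → ℝ) : ℂ :=
  avg (p ^ (j + 1)) fun s => (u s : ℂ) * singE b (p ^ j) (P.eval s)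

lemma singT_sub (b : ℤ) (p j : ℕ) (P : ℤ[X]) (u : ZMod p → ℝ) :
    singT b p j P (fun t => u t - 1) + singO b p j P = singT b p j P u := by
  rw [singT, singO, singT, ← sing_add]
  congr 1
  funext s
  push_cast
  ring

lemma singT_one (b : ℤ) (p j : ℕ) (P : ℤ[X]) : singT b p j P (fun _ => 1) = singO b p j P := by
  simp [singT, singO]

lemma sing_cast_per {p : ℕ} (u : ZMod p → ℂ) : Function.Periodic (fun s : ℤ => u s) p :=
  fun s => by simp

section Local

variable {p : ℕ} [hp : Fact p.Prime] {b : ℤ}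

lemma singT_zero (P : ℤ[X]) (u : ZMod p → ℝ) : singT b p 0 P u = 𝔼 t, (u t : ℂ) := by
  rw [singT, ← sing_zmod]
  simp only [pow_zero, zero_add, pow_one, singE_dvd b one_ne_zero (one_dvd _), mul_one]

lemma singT_low (P : ℤ[X]) (u : ZMod p → ℝ) :
    singT b p 1 P u = avg p fun s => (u s : ℂ) * singE b p (P.eval s) := by
  rw [singT, pow_one, pow_succ, pow_one]
  exact sing_mul ((sing_cast_per fun t => (u t : ℂ)).mul (singE_per b hp.out.ne_zero P))
    hp.out.ne_zero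

lemma singT_low' (P : ℤ[X]) (u : ZMod p → ℝ) :
    singT b p 1 P u = 𝔼 t, (u t : ℂ) * singE b p (aeval t P).val := by
  rw [singT_low, ← sing_zmod]
  congr 1
  funext s
  rw [sing_aeval]
  congr 1
  simpa using (sing_lift (singE_per b hp.out.ne_zero X) (P.eval s)).symm

lemma singT_high (hb : ¬ (p : ℤ) ∣ b) (j : ℕ) {P : ℤ[X]} {u : ZMod p → ℝ}
    (h : ∀ s : ℤ, u s ≠ 0 → ¬ (p : ℤ) ∣ (derivative P).eval s) : singT b p (j + 2) P u = 0 := by
  rw [singT, sing_high hp.out hb j P (sing_cast_per fun t => (u t : ℂ))]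
  refine Eq.trans (congrArg _ (funext fun s => ?_))
    (sing_const (pow_ne_zero (j + 3) hp.out.ne_zero) 0)
  split_ifs with h1
  · rw [not_not.1 fun h2 => h s h2 h1, Complex.ofReal_zero, zero_mul]
  · rfl

lemma sing_not_dvd_one (s : ℤ) : ¬ (p : ℤ) ∣ (derivative (X : ℤ[X])).eval s := by
  rw [derivative_X, eval_one]
  exact (Nat.prime_iff_prime_int.1 hp.out).not_dvd_one

lemma singO_X (hb : ¬ (p : ℤ) ∣ b) (j : ℕ) : singO b p (j + 1) X = 0 := by
  rw [← singT_one]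
  rcases j with _ | j
  · rw [singT_low]
    simpa using singE_geom hp.out.ne_zero (c := 1) (by simpa using hb)
  · exact singT_high hb j fun s _ => sing_not_dvd_one s

lemma singO_special (hb : ¬ (p : ℤ) ∣ b) (j : ℕ) {P : ℤ[X]}
    (h : ∀ s : ℤ, ¬ (p : ℤ) ∣ (derivative P).eval s ∧
      ∀ s' : ℤ, (p : ℤ) ∣ P.eval s - P.eval s' → (p : ℤ) ∣ s - s') : singO b p (j + 1) P = 0 := by
  rcases j with _ | j
  · rw [← singO_X hb 0, ← singT_one, ← singT_one, singT_low', singT_low']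
    have h1 : Function.Injective fun t : ZMod p => aeval t P := by
      intro x y e
      obtain ⟨x, rfl⟩ := ZMod.intCast_surjective x
      obtain ⟨y, rfl⟩ := ZMod.intCast_surjective y
      simp only [sing_aeval] at e
      rw [ZMod.intCast_eq_intCast_iff_dvd_sub] at e ⊢
      exact (h y).2 x e
    exact Fintype.expect_bijective _ (Finite.injective_iff_bijective.1 h1) _ _ fun x => by simp
  · rw [← singT_one]
    exact singT_high hb j fun s _ => (h s).1

lemma singO_large (hb : ¬ (p : ℤ) ∣ b) (j : ℕ) {P : ℤ[X]} {k : ℕ} (hk : P.natDegree ≤ k)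
    (hp' : 2 * k < p) (h : ∃ s : ℤ, ¬ (p : ℤ) ∣ (derivative P).eval s) {B γ : ℝ}
    (h1 : 2 * (k : ℝ) ≤ B) (h2 : 1 ≤ k) (h3 : γ ≤ 1 / 2 ^ k) :
    ‖singO b p (j + 1) P‖ ≤ B * (p : ℝ) ^ (-γ) := by
  have hp1 : (1 : ℝ) ≤ p := by exact_mod_cast hp.out.one_le
  have hk1 : (1 : ℝ) ≤ k := by exact_mod_cast h2
  rcases j with _ | j
  · rw [← singT_one, singT_low]
    simp only [Complex.ofReal_one, one_mul]
    refine (expsum_prime hk hp' h hb).trans (mul_le_mul (by linarith)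
      (Real.rpow_le_rpow_of_exponent_le hp1 (by linarith)) (by positivity) (by linarith))
  · have h4 := sing_high hp.out hb j P (u := fun _ => 1) fun _ => rfl
    simp only [one_mul] at h4
    rw [singO, h4]
    refine (sing_norm_le (g := fun s => if (p : ℤ) ∣ (derivative P).eval s then 1 else 0) _
      fun s => ?_).trans ?_
    · split_ifs
      · exact (singE_norm _ _ _).le
      · exact norm_zero.le
    · rw [pow_succ', sing_mul _ (pow_ne_zero _ hp.out.ne_zero)]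
      · refine (sing_roots (((natDegree_derivative_le _).trans (Nat.sub_le _ _)).trans hk) h).trans ?_
        have h5 : γ ≤ 1 := h3.trans (div_le_one_of_le₀ (one_le_pow₀ one_le_two) (by positivity))
        rw [div_eq_mul_inv, ← Real.rpow_neg_one]
        exact mul_le_mul (by linarith) (Real.rpow_le_rpow_of_exponent_le hp1 (by linarith))
          (by positivity) (by linarith)
      · intro s
        simp only [← ZMod.intCast_zmod_eq_zero_iff_dvd, ← sing_aeval]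
        simp

end Local

variable {k : ℕ} {B γ : ℝ} {w D : ℕ} {I : Finset (PI w D)} {G : ℤ[X]}
  {ν κ : ∀ p : PI w D, Om w D p → ℝ}

lemma sing_tot (h : Loc k B γ w D I G ν κ) {i : PI w D} (hi : i ∈ I) {b : ℤ}
    (hb : ¬ (i.1 : ℤ) ∣ b) (j : ℕ) : singT b i.1 (j + 1) G (ν i) = singT b i.1 (j + 1) X (κ i) ∧
      ‖singT b i.1 (j + 1) X (κ i)‖ ≤ B * (i.1 : ℝ) ^ (-γ) := by
  rcases j with _ | j
  · refine ⟨?_, ?_⟩
    · rw [singT_low', singT_low']
      simpa only [aeval_X] using h.img i hi fun x => singE b i.1 x.val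
    · rw [singT_low]
      simpa only [eval_X, singE] using h.four i hi b hb
  · rw [singT_high hb j (P := X) fun s _ => sing_not_dvd_one s, singT_high hb j fun s hs => ?_,
      norm_zero]
    · exact ⟨rfl, mul_nonneg ((abs_nonneg _).trans (h.κ_le i hi 0)) (by positivity)⟩
    · rw [← ZMod.intCast_zmod_eq_zero_iff_dvd, ← sing_aeval]
      exact h.supp i hi _ hs

lemma sing_out (h : Loc k B γ w D I G ν κ) {p : ℕ} (hp : p.Prime) {b : ℤ} (hb : ¬ (p : ℤ) ∣ b)
    (j : ℕ) : ‖singO b p (j + 1) G‖ ≤ B * (p : ℝ) ^ (-γ) ∧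
      (singO b p (j + 1) G = 0 ∨ D < p ∨ ∃ i ∈ I, i.1 = p) := by
  have := Fact.mk hp
  rcases h.primes p hp with h1 | ⟨⟨h1, h2⟩, h3⟩
  · rw [singO_special hb j h1, norm_zero]
    exact ⟨mul_nonneg (le_trans (by positivity) h.k_le) (by positivity), Or.inl rfl⟩
  · exact ⟨singO_large hb j h.deg h1 h2 h.k_le h.k_ge h.γ_le, Or.inr h3⟩

lemma sing_num (h : Loc k B γ w D I G ν κ) {p : ℕ} (hp : w < p) :
    3 * (B * (p : ℝ) ^ (-γ)) ≤ (p : ℝ) ^ (-(γ / 2)) := by
  have h0 : (0 : ℝ) < p := by exact_mod_cast Nat.zero_lt_of_lt hp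
  have h1 : 3 * B ≤ (p : ℝ) ^ (γ / 2) := h.w_ge.trans (Real.rpow_le_rpow (Nat.cast_nonneg _)
    (by exact_mod_cast hp.le) (by linarith [h.γ_pos]))
  rw [← mul_assoc, show -(γ / 2) = γ / 2 + -γ by ring, Real.rpow_add h0]
  exact mul_le_mul_of_nonneg_right h1 (by positivity)

lemma sing_sz (T : Finset (PI w D)) : sz (Om w D) T = ∏ p ∈ T, p.1 :=
  prod_congr rfl fun p _ => card_Om p

/-- the underlying prime -/
def singV (i : PI w D) : ℕ := i.1

lemma sing_fact {q : ℕ} (hq : 1 ≤ q) {a : ℤ} {b : ℕ → ℤ}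
    (hb : ∀ n : ℤ, singE a q n = ∏ p ∈ q.primeFactors, singE (b p) (p ^ q.factorization p) n)
    (P : ℤ[X]) (u : ∀ p : PI w D, Om w D p → ℝ) {T : Finset (PI w D)} (hT : T ⊆ I) :
    avg (q * sz (Om w D) T) (fun s => ((∏ i ∈ T, (u i s - 1) : ℝ) : ℂ) * singE a q (P.eval s)) =
      (∏ p ∈ q.primeFactors \ I.image singV, singO (b p) p (q.factorization p) P) *
        ((∏ i ∈ T, singT (b i.1) i.1 (q.factorization i.1) P fun t => u i t - 1) *
          ∏ i ∈ I \ T, singO (b i.1) i.1 (q.factorization i.1) P) := by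
  have hpr : ∀ i : PI w D, i.1.Prime := fun i => Fact.out
  set U := I.image singV ∪ q.primeFactors \ I.image singV with hU
  have hUp : ∀ p ∈ U, p.Prime := fun p hp => by
    rcases mem_union.1 hp with h | h
    · obtain ⟨i, -, rfl⟩ := mem_image.1 h
      exact hpr i
    · exact Nat.prime_of_mem_primeFactors (mem_sdiff.1 h).1
  let f : ℕ → ℤ → ℂ := fun p s => (∏ i ∈ T with singV i = p, ((u i s - 1 : ℝ) : ℂ)) *
    singE (b p) (p ^ q.factorization p) (P.eval s)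
  have hf : ∀ p ∈ U, Function.Periodic (f p) (p ^ (q.factorization p + 1) : ℕ) := fun p hp =>
    (sing_per_dvd (M := p) (fun s => prod_congr rfl fun i hi => by
      rw [← (mem_filter.1 hi).2]; simp [singV]) (dvd_pow_self _ (by omega))).mul
      (sing_per_dvd (singE_per _ (pow_ne_zero _ (hUp p hp).ne_zero) P) (pow_dvd_pow _ (by omega)))
  have h1 : (fun s : ℤ => ((∏ i ∈ T, (u i s - 1) : ℝ) : ℂ) * singE a q (P.eval s)) =
      fun s => ∏ p ∈ U, f p s := by
    funext s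
    rw [prod_mul_distrib, prod_fiberwise_of_maps_to (t := U)
      (fun i hi => mem_union_left _ (mem_image_of_mem _ (hT hi))), Complex.ofReal_prod, hb]
    congr 1
    refine prod_subset (by rw [hU, union_sdiff_self_eq_union]; exact subset_union_right)
      fun p _ hp => ?_
    rw [← Nat.support_factorization, Finsupp.notMem_support_iff] at hp
    rw [hp, pow_zero]
    exact singE_dvd _ one_ne_zero (one_dvd _)
  have h0 : ∀ p ∈ U, p ^ (q.factorization p + 1) ≠ 0 := fun p hp =>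
    pow_ne_zero _ (hUp p hp).ne_zero
  have hq0 : q ≠ 0 := by omega
  rw [sing_period (N := ∏ p ∈ U, p ^ (q.factorization p + 1)) ?_ ?_ ?_ (prod_ne_zero_iff.2 h0), h1,
    sing_prod U _ f h0 (fun i hi j hj hij =>
      Nat.Coprime.pow _ _ ((Nat.coprime_primes (hUp i hi) (hUp j hj)).2 hij)) hf,
    prod_union disjoint_sdiff, mul_comm, prod_image (g := singV) fun i _ j _ e => Subtype.ext e,
    ← prod_sdiff hT, mul_comm (∏ i ∈ I \ T, _)]
  · congr 1
    · refine prod_congr rfl fun p hp => ?_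
      have : T.filter (fun i => singV i = p) = ∅ := filter_eq_empty_iff.2 fun i hi e =>
        (mem_sdiff.1 hp).2 (e ▸ mem_image_of_mem _ (hT hi))
      simp only [f, this, prod_empty, one_mul, singO]
    · congr 1
      · refine prod_congr rfl fun i hi => ?_
        have : T.filter (fun j => singV j = singV i) = {i} := by
          ext j
          rw [mem_filter, mem_singleton]
          exact ⟨fun h => Subtype.ext h.2, fun h => by rw [h]; exact ⟨hi, rfl⟩⟩
        simp only [f, this, prod_singleton, singT]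
        rfl
      · refine prod_congr rfl fun i hi => ?_
        have : T.filter (fun j => singV j = singV i) = ∅ := filter_eq_empty_iff.2 fun j hj e =>
          (mem_sdiff.1 hi).2 ((Subtype.ext e : j = i) ▸ hj)
        simp only [f, this, prod_empty, one_mul, singO]
        rfl
  · intro s
    refine congrArg₂ _ (congrArg _ (prod_congr rfl fun i hi => ?_))
      (sing_per_dvd (singE_per a hq0 P) (dvd_mul_right q _) s)
    have : ((q * sz (Om w D) T : ℕ) : ZMod i.1) = 0 := by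
      rw [ZMod.natCast_eq_zero_iff, sing_sz]
      exact (dvd_prod_of_mem (fun p : PI w D => p.1) hi).mul_left _
    rw [Int.cast_add, Int.cast_natCast, this, add_zero]
  · rw [h1]
    exact fun s => prod_congr rfl fun p hp => sing_per_dvd (hf p hp)
      (dvd_prod_of_mem (fun p => p ^ (q.factorization p + 1)) hp) s
  · rw [sing_sz]
    exact mul_ne_zero hq0 (prod_ne_zero_iff.2 fun i _ => (hpr i).ne_zero)

lemma sing_complete {x y : PI w D → ℂ} {J : Finset (PI w D)} (h : ∀ i ∈ I, i ∉ J → x i = 0)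
    (hJ : sz (Om w D) J ≤ D) :
    ∑ T ∈ low (Om w D) I D, (∏ i ∈ T, x i) * ∏ i ∈ I \ T, y i = ∏ i ∈ I, (x i + y i) := by
  rw [prod_add]
  refine sum_subset (filter_subset _ _) fun T hT hT' => ?_
  obtain ⟨i, hi, hi'⟩ : ∃ i ∈ T, i ∉ J := by
    by_contra! h1
    refine hT' (mem_filter.2 ⟨hT, Nat.cast_le.2 (le_trans ?_ hJ)⟩)
    rw [sing_sz, sing_sz]
    exact prod_le_prod_of_subset_of_one_le' h1 fun i _ _ => (Fact.out : i.1.Prime).one_le
  rw [prod_eq_zero hi (h i (mem_powerset.1 hT hi) hi'), zero_mul]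

lemma sing_small (hγ : 0 < γ) (hD : 1 ≤ D) {x y : PI w D → ℂ} {J : Finset (PI w D)} (hJ : J ⊆ I)
    (h1 : ∀ i ∈ I, i ∉ J → x i = 0 ∧ y i = 1)
    (h2 : ∀ i ∈ J, ‖x i‖ + ‖y i‖ ≤ (i.1 : ℝ) ^ (-(γ / 2))) {Q : Finset ℕ} {O : ℕ → ℂ}
    (h3 : ∀ p ∈ Q, ‖O p‖ ≤ (D : ℝ) ^ (-(γ / 2))) (h4 : Q.Nonempty ∨ D < sz (Om w D) J) :
    ‖∑ T ∈ low (Om w D) I D, (∏ p ∈ Q, O p) * ((∏ i ∈ T, x i) * ∏ i ∈ I \ T, y i)‖ ≤
      (D : ℝ) ^ (-(γ / 2)) := by
  have hD1 : (1 : ℝ) ≤ D := by exact_mod_cast hD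
  have hle : ∀ {z : ℝ}, 1 ≤ z → z ^ (-(γ / 2)) ≤ 1 := fun hz =>
    Real.rpow_le_one_of_one_le_of_nonpos hz (by linarith)
  have h5 : ‖∑ T ∈ low (Om w D) I D, (∏ i ∈ T, x i) * ∏ i ∈ I \ T, y i‖ ≤
      (sz (Om w D) J : ℝ) ^ (-(γ / 2)) := by
    calc _ ≤ ∑ T ∈ I.powerset, (∏ i ∈ T, ‖x i‖) * ∏ i ∈ I \ T, ‖y i‖ := by
          refine (norm_sum_le _ _).trans ?_
          simp only [norm_mul, norm_prod]
          exact sum_le_sum_of_subset_of_nonneg (filter_subset _ _) fun _ _ _ => by positivity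
      _ = ∏ i ∈ J, (‖x i‖ + ‖y i‖) := by
          rw [← prod_add]
          exact (prod_subset hJ fun i hi hi' => by simp [h1 i hi hi']).symm
      _ ≤ ∏ i ∈ J, (i.1 : ℝ) ^ (-(γ / 2)) := prod_le_prod (fun _ _ => by positivity) h2
      _ = _ := by rw [Real.finsetProd_rpow _ _ fun _ _ => Nat.cast_nonneg _, sing_sz, Nat.cast_prod]
  have h6 : ∀ S ⊆ Q, ‖∏ p ∈ S, O p‖ ≤ 1 := fun S hS => by
    rw [norm_prod]
    exact prod_le_one (fun _ _ => norm_nonneg _) fun p hp => (h3 p (hS hp)).trans (hle hD1)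
  rw [← mul_sum, norm_mul]
  rcases h4 with ⟨p, hp⟩ | h4
  · rw [← mul_prod_erase _ _ hp, norm_mul, mul_assoc]
    refine (mul_le_of_le_one_right (norm_nonneg _) (mul_le_one₀ (h6 _ (erase_subset _ _))
      (norm_nonneg _) (h5.trans (hle ?_)))).trans (h3 p hp)
    rw [sing_sz]
    exact_mod_cast one_le_prod' fun (i : PI w D) _ => (Fact.out : i.1.Prime).one_le
  · refine (mul_le_of_le_one_left (norm_nonneg _) (h6 _ subset_rfl)).trans (h5.trans ?_)
    exact Real.rpow_le_rpow_of_nonpos (by linarith) (by exact_mod_cast h4.le) (by linarith)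

theorem sing_cmp {k : ℕ} {B γ : ℝ} {w D : ℕ} {I : Finset (PI w D)} {G : ℤ[X]}
    {ν κ : ∀ p : PI w D, Om w D p → ℝ} (h : Loc k B γ w D I G ν κ) {q : ℕ} (hq : 1 ≤ q) {a : ℤ}
    (ha : IsCoprime a q) :
    ‖∑ T ∈ low (Om w D) I D, (avg (q * sz (Om w D) T) (fun s =>
        ((∏ i ∈ T, (ν i s - 1) : ℝ) : ℂ) * ee (a * (G.eval s : ℤ) / q)) -
      avg (q * sz (Om w D) T) fun d => ((∏ i ∈ T, (κ i d - 1) : ℝ) : ℂ) * ee (a * d / q))‖ ≤
      2 * (D : ℝ) ^ (-(γ / 2)) := by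
  obtain ⟨b, hb, hb'⟩ := sing_partial hq ha
  have hq0 : q ≠ 0 := by omega
  have hB : 0 < B := lt_of_lt_of_le (by have := h.k_ge; positivity) h.k_le
  have hD : 1 ≤ D := by
    refine le_trans (Nat.pos_of_ne_zero ?_) h.w_le
    rintro rfl
    have := h.w_ge
    rw [Nat.cast_zero, Real.zero_rpow (by linarith [h.γ_pos])] at this
    linarith
  have e1 : ∀ T ∈ low (Om w D) I D, _ := fun T hT =>
    sing_fact hq hb' G ν (mem_powerset.1 (mem_filter.1 hT).1)
  have e2 : ∀ T ∈ low (Om w D) I D, _ := fun T hT =>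
    sing_fact hq hb' X κ (mem_powerset.1 (mem_filter.1 hT).1)
  simp only [eval_X] at e2
  simp only [singE] at e1 e2
  rw [sum_sub_distrib, sum_congr rfl e1, sum_congr rfl e2]
  set J := I.filter fun i => i.1 ∣ q with hJ
  have hv : ∀ p ∈ q.primeFactors, ∃ j, q.factorization p = j + 1 := fun p hp =>
    Nat.exists_eq_succ_of_ne_zero (Finsupp.mem_support_iff.1 hp)
  have hm : ∀ i ∈ J, i.1 ∈ q.primeFactors := fun i hi =>
    Nat.mem_primeFactors.2 ⟨Fact.out, (mem_filter.1 hi).2, hq0⟩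
  have hz : ∀ i ∈ I, i ∉ J → ∀ (P : ℤ[X]) (u : Om w D i → ℝ), 𝔼 t, (u t : ℂ) = 1 →
      singT (b i.1) i.1 (q.factorization i.1) P (fun t => u t - 1) = 0 ∧
        singO (b i.1) i.1 (q.factorization i.1) P = 1 := by
    intro i hi hi' P u hu
    have h1 : q.factorization i.1 = 0 :=
      Nat.factorization_eq_zero_of_not_dvd fun h => hi' (mem_filter.2 ⟨hi, h⟩)
    have h2 : singO (b i.1) i.1 0 P = 1 := by rw [← singT_one, singT_zero]; simp
    have h3 := singT_sub (b i.1) i.1 0 P u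
    rw [h2, singT_zero P u, hu, add_eq_right] at h3
    rw [h1]
    exact ⟨h3, h2⟩
  have mκ : ∀ i ∈ I, 𝔼 t, (κ i t : ℂ) = 1 := fun i hi => by
    rw [← Complex.ofReal_expect, h.mean i hi, Complex.ofReal_one]
  have mν : ∀ i ∈ I, 𝔼 t, (ν i t : ℂ) = 1 := fun i hi => by
    simpa only [mul_one, mκ i hi] using h.img i hi fun _ => 1
  by_cases hc : (q.primeFactors \ I.image singV).Nonempty ∨ D < sz (Om w D) J
  · rw [two_mul]
    refine (norm_sub_le _ _).trans (add_le_add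
      (sing_small h.γ_pos hD (filter_subset _ _) (fun i hi hi' => hz i hi hi' _ _ (mν i hi))
        (fun i hi => ?_) (fun p hp => ?_) hc)
      (sing_small h.γ_pos hD (filter_subset _ _) (fun i hi hi' => hz i hi hi' _ _ (mκ i hi))
        (fun i hi => ?_) (fun p hp => ?_) hc))
    · obtain ⟨j, hj⟩ := hv _ (hm i hi)
      obtain ⟨h1, h2⟩ := sing_tot h (mem_filter.1 hi).1 (hb _ (hm i hi)) j
      have h3 := (sing_out h Fact.out (hb _ (hm i hi)) j).1
      have h4 := sing_num h (mem_Ioc.1 (mem_filter.1 i.2).1).1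
      rw [hj, eq_sub_of_add_eq (singT_sub _ _ _ G (ν i)), h1]
      linarith [norm_sub_le (singT (b i.1) i.1 (j + 1) X (κ i)) (singO (b i.1) i.1 (j + 1) G)]
    · obtain ⟨hp1, hp2⟩ := mem_sdiff.1 hp
      obtain ⟨j, hj⟩ := hv _ hp1
      obtain ⟨h1, h2 | h2 | ⟨i, hi, rfl⟩⟩ :=
        sing_out h (Nat.prime_of_mem_primeFactors hp1) (hb _ hp1) j
      · rw [hj, h2, norm_zero]; positivity
      · have h3 := sing_num h (h.w_le.trans_lt h2)
        have h4 : (p : ℝ) ^ (-(γ / 2)) ≤ (D : ℝ) ^ (-(γ / 2)) :=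
          Real.rpow_le_rpow_of_nonpos (by exact_mod_cast hD) (by exact_mod_cast h2.le)
            (by linarith [h.γ_pos])
        rw [hj]
        linarith [norm_nonneg (singO (b p) p (j + 1) G)]
      · exact (hp2 (mem_image_of_mem _ hi)).elim
    · obtain ⟨j, hj⟩ := hv _ (hm i hi)
      have h2 := (sing_tot h (mem_filter.1 hi).1 (hb _ (hm i hi)) j).2
      have h4 := sing_num h (mem_Ioc.1 (mem_filter.1 i.2).1).1
      rw [hj, eq_sub_of_add_eq (singT_sub _ _ _ X (κ i)), singO_X (hb _ (hm i hi)), sub_zero,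
        norm_zero]
      linarith [norm_nonneg (singT (b i.1) i.1 (j + 1) X (κ i))]
    · obtain ⟨hp1, -⟩ := mem_sdiff.1 hp
      obtain ⟨j, hj⟩ := hv _ hp1
      have := Fact.mk (Nat.prime_of_mem_primeFactors hp1)
      rw [hj, singO_X (hb _ hp1), norm_zero]
      positivity
  · rw [not_or, not_nonempty_iff_eq_empty, not_lt] at hc
    simp only [hc.1, prod_empty, one_mul]
    rw [sing_complete (fun i hi hi' => (hz i hi hi' _ _ (mν i hi)).1) hc.2,
      sing_complete (fun i hi hi' => (hz i hi hi' _ _ (mκ i hi)).1) hc.2,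
      prod_congr rfl fun i hi => ?_, sub_self, norm_zero]
    · positivity
    by_cases hi' : i ∈ J
    · obtain ⟨j, hj⟩ := hv _ (hm i hi')
      rw [singT_sub, singT_sub, hj, (sing_tot h hi (hb _ (hm i hi')) j).1]
    · rw [(hz i hi hi' _ _ (mν i hi)).1, (hz i hi hi' _ _ (mν i hi)).2,
        (hz i hi hi' _ _ (mκ i hi)).1, (hz i hi hi' _ _ (mκ i hi)).2]

end Vale.Agent.P042U
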