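import Vale.Agent.P042U.Model

/-! Efron-Stein components, Bessel inequality, moments of the square function (task C). -/

namespace Vale.Agent.P042U

open Finset
open scoped BigOperators

theorem sq_swap {A : Type} [Fintype A] [Nonempty A] (σ : A → A → A)
    (h : ∀ x y, σ (σ x y) (σ y x) = x) (Φ : A → ℝ) : 𝔼 x, Φ x = 𝔼 x, 𝔼 y, Φ (σ x y) := by
  have e : Function.Involutive fun p : A × A => (σ p.1 p.2, σ p.2 p.1) := fun p =>
    Prod.ext (h _ _) (h _ _)
  rw [← expect_product', univ_product_univ, Fintype.expect_bijective _ e.bijective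
    (fun p => Φ (σ p.1 p.2)) (fun p => Φ p.1) fun _ => rfl, ← univ_product_univ,
    expect_product' _ _ fun x _ => Φ x]
  simp only [Fintype.expect_const]

theorem sq_ind {A : Type} [Fintype A] [DecidableEq A] [Nonempty A] (a : A) (f : A → ℝ) :
    𝔼 b, (if a = b then (Fintype.card A : ℝ) else 0) * f b = f a := expect_boole_mul f a

theorem sq_ind1 {A : Type} [Fintype A] [DecidableEq A] [Nonempty A] (a : A) (c : ℝ) :
    𝔼 b, ((if a = b then (Fintype.card A : ℝ) else 0) + c) = 1 + c := by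
  rw [expect_add_distrib, Fintype.expect_const]
  simpa only [mul_one] using congrArg (· + c) (sq_ind a fun _ => 1)

theorem sq_ind2 {A : Type} [Fintype A] [DecidableEq A] [Nonempty A] (a : A) (c : ℝ) :
    𝔼 b, ((if b = a then (Fintype.card A : ℝ) else 0) + c) = 1 + c := by
  simpa only [eq_comm] using sq_ind1 a c

variable {ι : Type} [Fintype ι] [DecidableEq ι] {Ω : ι → Type} [∀ i, Fintype (Ω i)]
  [∀ i, DecidableEq (Ω i)] [∀ i, AddCommGroup (Ω i)]

theorem expect_piecewise (S : Finset ι) (Φ : (∀ i, Ω i) → ℝ) :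
    𝔼 x, Φ x = 𝔼 x, 𝔼 y, Φ (S.piecewise x y) :=
  sq_swap (fun x y => S.piecewise x y) (fun x y => funext fun i => by
    by_cases h : i ∈ S <;> simp [h]) Φ

theorem expect_prod_coord (f : ∀ i, Ω i → ℝ) :
    𝔼 x : ∀ i, Ω i, ∏ i, f i (x i) = ∏ i, 𝔼 a, f i a := by
  simp only [Fintype.expect_eq_sum_div_card]
  rw [prod_div_distrib, prod_univ_sum, Fintype.piFinset_univ, Fintype.card_pi, Nat.cast_prod]

theorem sq_prod_on (T : Finset ι) (f : ∀ i, Ω i → ℝ) :
    𝔼 x : ∀ i, Ω i, ∏ i ∈ T, f i (x i) = ∏ i ∈ T, 𝔼 a, f i a := by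
  simp only [← Fintype.prod_ite_mem T]
  rw [expect_prod_coord fun i a => if i ∈ T then f i a else 1]
  refine prod_congr rfl fun i _ => ?_
  split_ifs
  exacts [rfl, Fintype.expect_const _]

theorem sq_update (i : ι) (Φ : (∀ i, Ω i) → ℝ) :
    𝔼 x, Φ x = 𝔼 x, 𝔼 a, Φ (Function.update x i a) := by
  rw [expect_piecewise {i}, expect_comm]
  refine expect_congr rfl fun y _ => ?_
  classical
  have := sq_prod_on (Ω := Ω) {i} (Function.update (fun _ _ => 0) i
    fun a => Φ (Function.update y i a))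
  simpa only [prod_singleton, Function.update_self, piecewise_singleton] using this

theorem sq_indep {S T : Finset ι} (h : Disjoint S T) {A B : (∀ i, Ω i) → ℝ} (hA : DepOn S A)
    (hB : DepOn T B) : 𝔼 x, A x * B x = (𝔼 x, A x) * 𝔼 x, B x := by
  rw [expect_piecewise S, Fintype.expect_mul_expect]
  refine expect_congr rfl fun x _ => expect_congr rfl fun y _ => ?_
  rw [hA _ x fun i hi => piecewise_eq_of_mem _ _ _ hi,
    hB _ y fun i hi => piecewise_eq_of_notMem _ _ _ (disjoint_right.1 h hi)]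

theorem ES_dep (T : Finset ι) (μ : (∀ i, Ω i) → ℝ) : DepOn T (ES T μ) := fun y y' h =>
  expect_congr rfl fun x _ => congrArg _ (prod_congr rfl fun i hi => by rw [h i hi])

theorem ES_zero {T : Finset ι} (μ : (∀ i, Ω i) → ℝ) {i : ι} (hi : i ∈ T) (y : ∀ i, Ω i) :
    𝔼 a, ES T μ (Function.update y i a) = 0 := by
  unfold ES
  rw [expect_comm]
  refine expect_eq_zero fun x _ => ?_
  have : ∀ a, cc T x (Function.update y i a) =
      ((if x i = a then (Fintype.card (Ω i) : ℝ) else 0) + -1) * cc (T.erase i) x y := fun a => by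
    rw [cc, ← mul_prod_erase _ _ hi, Function.update_self]
    exact congrArg _ (prod_congr rfl fun j hj => by
      rw [Function.update_of_ne (ne_of_mem_erase hj)])
  simp only [this]
  rw [← mul_expect, ← expect_mul, sq_ind1, add_neg_cancel, zero_mul, mul_zero]

theorem ES_empty (μ : (∀ i, Ω i) → ℝ) (y : ∀ i, Ω i) : ES ∅ μ y = 𝔼 x, μ x := by
  simp [ES, cc]

theorem ES_one {T : Finset ι} (hT : T.Nonempty) (y : ∀ i, Ω i) : ES T (fun _ => 1) y = 0 := by
  obtain ⟨i, hi⟩ := hT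
  simp only [ES, one_mul, cc]
  rw [sq_prod_on T fun i a => (if a = y i then (Fintype.card (Ω i) : ℝ) else 0) - 1]
  exact prod_eq_zero hi ((sq_ind2 _ (-1)).trans (add_neg_cancel _))

theorem ES_piecewise (T S : Finset ι) (μ : (∀ i, Ω i) → ℝ) (z y : ∀ i, Ω i) :
    ES T μ (S.piecewise z y) = ES (T \ S) (fun x => μ x * cc (T ∩ S) x z) y := by
  refine expect_congr rfl fun x _ => ?_
  rw [mul_assoc, cc, ← prod_inter_mul_prod_sdiff T S]
  congr 2 <;> refine prod_congr rfl fun i hi => ?_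
  · rw [piecewise_eq_of_mem _ _ _ (mem_inter.1 hi).2]
  · rw [piecewise_eq_of_notMem _ _ _ (mem_sdiff.1 hi).2]

theorem dl_eq_sum (S : Finset ι) (x z : ∀ i, Ω i) : dl S x z = ∑ d ∈ S.powerset, cc d x z := by
  simp only [dl, cc, ← prod_add_one, sub_add_cancel]

theorem sq_sz_pos (T : Finset ι) : 0 < sz Ω T := prod_pos fun _ _ => Fintype.card_pos

theorem sq_sz_mono {S T : Finset ι} (h : S ⊆ T) : sz Ω S ≤ sz Ω T :=
  prod_le_prod_of_subset_of_one_le' h fun _ _ _ => Fintype.card_pos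

theorem sq_sz_union (S T : Finset ι) : (sz Ω (S ∪ T) : ℝ) ≤ sz Ω S * sz Ω T := by
  have h : sz Ω (S ∪ T) * sz Ω (S ∩ T) = sz Ω S * sz Ω T := prod_union_inter
  exact_mod_cast (Nat.le_mul_of_pos_right _ (sq_sz_pos _)).trans_eq h

theorem card_low (hinj : Function.Injective (sz Ω)) (I : Finset ι) {R : ℝ} (hR : 0 ≤ R) :
    ((low Ω I R).card : ℝ) ≤ R := by
  have := card_le_card_of_injOn (s := low Ω I R) (t := Icc 1 ⌊R⌋₊) (sz Ω)
    (fun T hT => mem_coe.2 (mem_Icc.2 ⟨sq_sz_pos T, Nat.le_floor (mem_filter.1 hT).2⟩)) hinj.injOn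
  rw [Nat.card_Icc, Nat.add_sub_cancel] at this
  exact le_trans (by exact_mod_cast this) (Nat.floor_le hR)

theorem PR.one (I : Finset ι) {δ : ℝ} (hδ : 0 ≤ δ) (Y : ℝ) :
    PR (Ω := Ω) (fun _ => 1) I δ Y :=
  ⟨fun _ => zero_le_one, fun T _ _ Ψ _ => by
    simpa using mul_nonneg hδ (expect_nonneg fun _ _ => abs_nonneg _)⟩

/-- the majorant of `cc d · z` -/
def sqW (d : Finset ι) (z x : ∀ i, Ω i) : ℝ :=
  ∏ i ∈ d, ((if x i = z i then (Fintype.card (Ω i) : ℝ) else 0) + 1)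

theorem sqW_nonneg (d : Finset ι) (z x : ∀ i, Ω i) : 0 ≤ sqW d z x :=
  prod_nonneg fun _ _ => by positivity

theorem sqW_dep (d : Finset ι) (z : ∀ i, Ω i) : DepOn d (sqW d z) := fun _ _ h =>
  prod_congr rfl fun i hi => by rw [h i hi]

theorem sqW_mean (d : Finset ι) (z : ∀ i, Ω i) : 𝔼 x, sqW d z x = 2 ^ d.card := by
  unfold sqW
  rw [sq_prod_on d fun i a => (if a = z i then (Fintype.card (Ω i) : ℝ) else 0) + 1]
  simp only [sq_ind2, prod_const, one_add_one_eq_two]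

theorem sq_abs_cc (d : Finset ι) (x z : ∀ i, Ω i) : |cc d x z| ≤ sqW d z x := by
  rw [cc, abs_prod]
  refine prod_le_prod (fun _ _ => abs_nonneg _) fun i _ => (abs_sub _ _).trans_eq ?_
  rw [abs_one, abs_of_nonneg (by positivity)]

/-- the majorant of `μ * cc d · z / 2 ^ |d|` -/
theorem PR.fibre {ν : (∀ i, Ω i) → ℝ} {I : Finset ι} {δ Y Y' : ℝ} (h : PR ν I δ Y)
    {d J : Finset ι} (hd : d ⊆ I) (hJ : J ⊆ I) (hdJ : Disjoint d J) (hY : Y' * sz Ω d ≤ Y)
    (z : ∀ i, Ω i) :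
    PR (fun x => ν x * (∏ i ∈ d, ((if x i = z i then (Fintype.card (Ω i) : ℝ) else 0) + 1)) /
      2 ^ d.card) J δ Y' := by
  refine ⟨fun x => div_nonneg (mul_nonneg (h.nonneg x) (sqW_nonneg d z x)) (by positivity),
    fun T hT hs Ψ hΨ => ?_⟩
  have k : ∀ Φ : (∀ i, Ω i) → ℝ, DepOn T Φ → 𝔼 x, sqW d z x * (Φ x / 2 ^ d.card) = 𝔼 x, Φ x :=
    fun Φ hΦ => by
      rw [sq_indep (hdJ.mono_right hT) (sqW_dep d z) fun x y h => by rw [hΦ x y h], sqW_mean,
        ← expect_div, mul_div_cancel₀ _ (by positivity)]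
  have := h.equi (T ∪ d) (union_subset (hT.trans hJ) hd) ((sq_sz_union T d).trans
    ((mul_le_mul_of_nonneg_right hs (Nat.cast_nonneg _)).trans hY))
    (fun x => sqW d z x * (Ψ x / 2 ^ d.card)) fun x y h => by
      simp only [hΨ x y fun i hi => h i (mem_union_left _ hi),
        sqW_dep d z x y fun i hi => h i (mem_union_right _ hi)]
  simp only [abs_mul, abs_div, abs_of_nonneg (sqW_nonneg d z _), abs_pow, abs_two] at this
  rw [k Ψ hΨ, k (fun x => |Ψ x|) fun x y h => by simp only [hΨ x y h]] at this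
  convert this using 4 with x
  unfold sqW
  ring

theorem abs_ES_le {μ ν : (∀ i, Ω i) → ℝ} {I : Finset ι} {δ Y : ℝ} (hμ : ∀ x, |μ x| ≤ ν x)
    (h : PR ν I δ Y) (hδ : δ ≤ 1) {T : Finset ι} (hT : T ⊆ I) (hY : (sz Ω T : ℝ) ≤ Y)
    (y : ∀ i, Ω i) : |ES T μ y| ≤ 2 * 2 ^ T.card := by
  have h1 := (abs_le.1 (h.equi T hT hY _ (sqW_dep T y))).2
  simp only [abs_of_nonneg (sqW_nonneg T y _), sqW_mean] at h1
  have h2 : |ES T μ y| ≤ 𝔼 x, ν x * sqW T y x :=
    (abs_expect_le _ _).trans (expect_le_expect fun x _ => (abs_mul _ _).trans_le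
      (mul_le_mul (hμ x) (sq_abs_cc T x y) (abs_nonneg _) (h.nonneg x)))
  have : (0 : ℝ) < 2 ^ T.card := by positivity
  nlinarith

theorem sq_cc_cc (T T' : Finset ι) (x z : ∀ i, Ω i) :
    𝔼 y, cc T x y * cc T' z y = if T = T' then cc T x z else 0 := by
  simp only [cc, ← Fintype.prod_ite_mem T, ← Fintype.prod_ite_mem T', ← prod_mul_distrib]
  rw [expect_prod_coord fun i a =>
    (if i ∈ T then (if x i = a then (Fintype.card (Ω i) : ℝ) else 0) - 1 else 1) *
    (if i ∈ T' then (if z i = a then (Fintype.card (Ω i) : ℝ) else 0) - 1 else 1)]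
  split_ifs with h
  · subst h
    refine prod_congr rfl fun i _ => ?_
    by_cases h1 : i ∈ T <;> simp only [h1, if_true, if_false]
    · rw [expect_congr rfl fun _ _ => sub_mul _ _ _, expect_sub_distrib, sq_ind]
      simp only [one_mul, eq_comm (a := z i)]
      exact sub_eq_self.2 ((sq_ind2 _ (-1)).trans (add_neg_cancel _))
    · simp
  · obtain ⟨i, hi⟩ := not_forall.1 (mt Finset.ext h)
    refine prod_eq_zero (mem_univ i) ?_
    by_cases h1 : i ∈ T <;> by_cases h2 : i ∈ T' <;> simp only [h1, h2] at hi <;>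
      simp only [h1, h2, if_true, if_false, mul_one, one_mul]
    · exact (hi trivial).elim
    · exact (sq_ind1 _ (-1)).trans (add_neg_cancel _)
    · exact (sq_ind1 _ (-1)).trans (add_neg_cancel _)
    · exact (hi trivial).elim

theorem sq_ES_ES (T T' : Finset ι) (μ : (∀ i, Ω i) → ℝ) :
    𝔼 y, ES T μ y * ES T' μ y = if T = T' then 𝔼 y, μ y * ES T μ y else 0 := by
  simp only [ES, Fintype.expect_mul_expect, mul_mul_mul_comm (μ _)]
  rw [expect_comm]
  simp only [expect_comm univ univ fun y z => μ _ * μ z * (cc T _ y * cc T' z y), ← mul_expect,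
    sq_cc_cc]
  split_ifs
  · rw [expect_comm]
    simp only [mul_expect]
    exact expect_congr rfl fun x _ => expect_congr rfl fun z _ => by ring
  · simp

theorem bessel (hinj : Function.Injective (sz Ω)) {μ ν : (∀ i, Ω i) → ℝ} {I : Finset ι}
    {δ Y R : ℝ} (hμ : ∀ x, |μ x| ≤ ν x) (h : PR ν I δ Y) (hR : 1 ≤ R) (hY : R ^ 2 ≤ Y)
    (hδ0 : 0 ≤ δ) (hδ : δ * R ≤ 1) : ∑ T ∈ low Ω I R, 𝔼 y, ES T μ y ^ 2 ≤ 4 := by
  set L := low Ω I R with hL
  set X := ∑ T ∈ L, 𝔼 y, ES T μ y ^ 2 with hX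
  have hX0 : 0 ≤ X := sum_nonneg fun _ _ => expect_nonneg fun _ _ => sq_nonneg _
  have e : ∀ T, 𝔼 y, ES T μ y ^ 2 = 𝔼 y, μ y * ES T μ y := fun T => by
    simp only [sq, sq_ES_ES, if_true]
  have h1 : 𝔼 x, ν x ≤ 2 := by
    have := (abs_le.1 (h.equi ∅ (empty_subset _) (by simp only [sz, prod_empty]; push_cast; nlinarith)
      (fun _ => 1) fun _ _ _ => rfl)).2
    simp only [mul_one, Fintype.expect_const, abs_one] at this
    nlinarith
  have h2 : X ≤ 𝔼 x, ν x + (𝔼 x, ν x * (∑ T ∈ L, ES T μ x) ^ 2) / 4 := by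
    simp only [hX, e]
    rw [← expect_sum_comm, expect_div, ← expect_add_distrib]
    refine expect_le_expect fun x _ => ?_
    rw [← mul_sum]
    generalize ∑ T ∈ L, ES T μ x = a
    have k1 := (le_abs_self _).trans ((abs_mul _ a).trans_le
      (mul_le_mul_of_nonneg_right (hμ x) (abs_nonneg _)))
    have k2 := mul_nonneg (h.nonneg x) (sq_nonneg (|a| - 2))
    rw [← sq_abs a]
    nlinarith
  have h3 : ∀ T ∈ L, ∀ T' ∈ L, 𝔼 x, ν x * (ES T μ x * ES T' μ x) ≤
      (if T = T' then 𝔼 y, ES T μ y ^ 2 else 0) +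
        δ / 2 * (𝔼 y, ES T μ y ^ 2) + δ / 2 * 𝔼 y, ES T' μ y ^ 2 := by
    intro T hT T' hT'
    simp only [hL, low, mem_filter, mem_powerset] at hT hT'
    have k1 := (abs_le.1 (h.equi (T ∪ T') (union_subset hT.1 hT'.1) ((sq_sz_union T T').trans
      ((mul_le_mul hT.2 hT'.2 (Nat.cast_nonneg _) (by linarith)).trans (by rwa [← sq])))
      (fun x => ES T μ x * ES T' μ x) fun x y h => by
        simp only [ES_dep T μ x y fun i hi => h i (mem_union_left _ hi),
          ES_dep T' μ x y fun i hi => h i (mem_union_right _ hi)])).2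
    have k2 : 𝔼 x, |ES T μ x * ES T' μ x| ≤ (𝔼 y, ES T μ y ^ 2 + 𝔼 y, ES T' μ y ^ 2) / 2 := by
      rw [← expect_add_distrib, expect_div]
      refine expect_le_expect fun x _ => abs_le.2 ⟨?_, ?_⟩
      · nlinarith [sq_nonneg (ES T μ x + ES T' μ x)]
      · nlinarith [sq_nonneg (ES T μ x - ES T' μ x)]
    rw [sq_ES_ES, ← e] at k1
    nlinarith [mul_le_mul_of_nonneg_left k2 hδ0]
  have h4 : 𝔼 x, ν x * (∑ T ∈ L, ES T μ x) ^ 2 ≤ X + δ * L.card * X := by
    simp only [sq, sum_mul_sum]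
    simp only [mul_sum, expect_sum_comm]
    refine (sum_le_sum fun T hT => sum_le_sum (h3 T hT)).trans_eq ?_
    simp only [sum_add_distrib, sum_ite_eq, sum_const, nsmul_eq_mul, ← mul_sum, ← hX]
    rw [sum_congr rfl fun T hT => if_pos hT, ← hX]
    ring
  have h5 : δ * L.card ≤ 1 :=
    (mul_le_mul_of_nonneg_left (card_low hinj I (by linarith)) hδ0).trans hδ
  nlinarith

theorem sq_cond (hinj : Function.Injective (sz Ω)) {μ ν : (∀ i, Ω i) → ℝ} {I : Finset ι}
    {δ Y R : ℝ} (hμ : ∀ x, |μ x| ≤ ν x) (h : PR ν I δ Y) (hR : 1 ≤ R) (hY : R ^ 3 ≤ Y)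
    (hδ0 : 0 ≤ δ) (hδ : δ * R ≤ 1) {l : ℝ} (hl0 : 0 ≤ l) (hl : 4 * l ≤ 1) (M : Finset ι)
    (z : ∀ i, Ω i) :
    ∑ T ∈ low Ω I R, l ^ T.card * 𝔼 y, ES T μ (M.piecewise z y) ^ 2 ≤ 4 * 2 ^ M.card := by
  let F : Finset ι × Finset ι → ℝ := fun p =>
    l ^ p.1.card * 𝔼 y, ES p.2 (fun x => μ x * cc p.1 x z) y ^ 2
  have F0 : ∀ p, 0 ≤ F p := fun p =>
    mul_nonneg (pow_nonneg hl0 _) (expect_nonneg fun _ _ => sq_nonneg _)
  calc _ ≤ ∑ T ∈ low Ω I R, F (T ∩ M, T \ M) := sum_le_sum fun T _ => by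
        simp only [F, ES_piecewise]
        exact mul_le_mul_of_nonneg_right (pow_le_pow_of_le_one hl0 (by linarith)
          (card_le_card inter_subset_left)) (expect_nonneg fun _ _ => sq_nonneg _)
    _ ≤ ∑ p ∈ low Ω (I ∩ M) R ×ˢ low Ω (I \ M) R, F p := by
        refine (sum_image (g := fun T => (T ∩ M, T \ M)) fun T _ T' _ e => ?_).symm.trans_le
          (sum_le_sum_of_subset_of_nonneg (fun p hp => ?_) fun p _ _ => F0 p)
        · rw [← sdiff_union_inter T M, ← sdiff_union_inter T' M, (Prod.mk.inj e).1,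
            (Prod.mk.inj e).2]
        · obtain ⟨T, hT, rfl⟩ := mem_image.1 hp
          simp only [low, mem_filter, mem_powerset, mem_product] at hT ⊢
          exact ⟨⟨inter_subset_inter_right hT.1,
            (Nat.cast_le.2 (sq_sz_mono inter_subset_left)).trans hT.2⟩, sdiff_subset_sdiff hT.1
            Subset.rfl, (Nat.cast_le.2 (sq_sz_mono sdiff_subset)).trans hT.2⟩
    _ ≤ ∑ d ∈ low Ω (I ∩ M) R, 4 * ∏ _i ∈ d, (4 * l) := by
        rw [sum_product]
        refine sum_le_sum fun d hd => ?_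
        simp only [low, mem_filter, mem_powerset] at hd
        have k := bessel hinj (μ := fun x => μ x * cc d x z / 2 ^ d.card) (fun x => by
            rw [abs_div, abs_mul, abs_pow, abs_two]
            exact div_le_div_of_nonneg_right (mul_le_mul (hμ x) (sq_abs_cc d x z) (abs_nonneg _)
              (h.nonneg x)) (by positivity))
          (h.fibre (hd.1.trans inter_subset_left) (sdiff_subset (t := M))
            (disjoint_sdiff.mono_left (hd.1.trans inter_subset_right)) (Y' := R ^ 2)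
            ((mul_le_mul_of_nonneg_left hd.2 (sq_nonneg _)).trans (by rwa [← pow_succ])) z)
          hR le_rfl hδ0 hδ
        simp only [ES, div_mul_eq_mul_div, ← expect_div, div_pow, ← sum_div] at k
        simp only [F, ← mul_sum, prod_const, ES]
        rw [div_le_iff₀ (by positivity)] at k
        refine (mul_le_mul_of_nonneg_left k (pow_nonneg hl0 _)).trans_eq ?_
        rw [← pow_mul, mul_comm d.card, pow_mul, mul_pow]
        ring
    _ ≤ ∑ d ∈ M.powerset, 4 * ∏ _i ∈ d, (4 * l) :=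
        sum_le_sum_of_subset_of_nonneg ((filter_subset _ _).trans
          (powerset_mono.2 inter_subset_right)) fun _ _ _ => by positivity
    _ ≤ _ := by
        rw [← mul_sum, ← prod_add_one, prod_const]
        gcongr
        linarith

theorem sq_moment (hinj : Function.Injective (sz Ω)) {μ ν : (∀ i, Ω i) → ℝ} {I : Finset ι}
    {δ Y R : ℝ} (hμ : ∀ x, |μ x| ≤ ν x) (h : PR ν I δ Y) (hR : 1 ≤ R) (hY : R ^ 3 ≤ Y)
    (hδ0 : 0 ≤ δ) (hδ : δ * R ≤ 1) (j : ℕ) {l : ℝ} (hl0 : 0 ≤ l) (hl : 4 * 2 ^ j * l ≤ 1) :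
    𝔼 y, (∑ T ∈ low Ω I R, l ^ T.card * ES T μ y ^ 2) ^ j ≤ 4 ^ j := by
  suffices H : ∀ (M : Finset ι) (W : (∀ i, Ω i) → ℝ), (∀ y, 0 ≤ W y) → DepOn M W →
      𝔼 y, W y * (∑ T ∈ low Ω I R, l ^ T.card * ES T μ y ^ 2) ^ j ≤
        4 ^ j * (2 ^ j) ^ M.card * 𝔼 y, W y by
    simpa using H ∅ (fun _ => 1) (fun _ => zero_le_one) fun _ _ _ => rfl
  induction j with
  | zero => intro M W _ _; simp
  | succ j ih =>
  intro M W h0 hW
  have p2 : (0 : ℝ) < 2 ^ j := by positivity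
  have hl' : 4 * (2 ^ j * l) ≤ 1 := by
    rw [pow_succ] at hl
    nlinarith [mul_nonneg p2.le hl0]
  calc _ = ∑ T ∈ low Ω I R, l ^ T.card * 𝔼 y, W y * ES T μ y ^ 2 *
          (∑ T ∈ low Ω I R, l ^ T.card * ES T μ y ^ 2) ^ j := by
        simp only [mul_expect, ← expect_sum_comm]
        refine expect_congr rfl fun y _ => ?_
        rw [pow_succ', sum_mul, mul_sum]
        exact sum_congr rfl fun T _ => by ring
    _ ≤ ∑ T ∈ low Ω I R, 4 ^ j * (2 ^ j) ^ M.card *
          ((2 ^ j * l) ^ T.card * 𝔼 y, W y * ES T μ y ^ 2) := sum_le_sum fun T _ => by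
        have k0 : ∀ y, 0 ≤ W y * ES T μ y ^ 2 := fun y => mul_nonneg (h0 y) (sq_nonneg _)
        refine (mul_le_mul_of_nonneg_left (ih (by rwa [mul_assoc]) (M ∪ T) _ k0 fun x y h => by
          simp only [hW x y fun i hi => h i (mem_union_left _ hi),
            ES_dep T μ x y fun i hi => h i (mem_union_right _ hi)]) (pow_nonneg hl0 _)).trans ?_
        have k1 := pow_le_pow_right₀ (one_le_pow₀ (M₀ := ℝ) one_le_two (n := j)) (card_union_le M T)
        have k2 := expect_nonneg (s := univ) fun y _ => k0 y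
        calc _ ≤ l ^ T.card * (4 ^ j * (2 ^ j) ^ (M.card + T.card) *
              𝔼 y, W y * ES T μ y ^ 2) := by gcongr
          _ = _ := by rw [mul_pow, pow_add]; ring
    _ = 4 ^ j * (2 ^ j) ^ M.card * 𝔼 z, W z *
          ∑ T ∈ low Ω I R, (2 ^ j * l) ^ T.card * 𝔼 y, ES T μ (M.piecewise z y) ^ 2 := by
        rw [← mul_sum]
        congr 1
        simp only [mul_sum, expect_sum_comm]
        refine sum_congr rfl fun T _ => ?_
        rw [expect_piecewise M, mul_expect]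
        refine expect_congr rfl fun z _ => ?_
        simp only [hW (M.piecewise z _) z fun i hi => piecewise_eq_of_mem _ _ _ hi, ← mul_expect]
        ring
    _ ≤ 4 ^ j * (2 ^ j) ^ M.card * 𝔼 z, W z * (4 * 2 ^ M.card) :=
        mul_le_mul_of_nonneg_left (expect_le_expect fun z _ => mul_le_mul_of_nonneg_left
          (sq_cond hinj hμ h hR hY hδ0 hδ (mul_nonneg p2.le hl0) hl' M z) (h0 z)) (by positivity)
    _ = _ := by rw [← expect_mul, pow_succ, pow_succ, mul_pow]; ring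

end Vale.Agent.P042U
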