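import Vale.Agent.P042U.BilA
import Vale.Agent.P042U.Sing
import Vale.Agent.P042U.Sq

/-! The bilinear estimate by the circle method. -/

namespace Vale.Agent.P042U

open Finset Polynomial
open scoped BigOperators

variable {k : ℕ} {B γ : ℝ} {w D : ℕ} {I : Finset (PI w D)} {G : ℤ[X]}
  {ν κ : ∀ p : PI w D, Om w D p → ℝ}

lemma Loc.w_big (h : Loc k B γ w D I G ν κ) : 2 ≤ B ∧ 3 * B ≤ w := by
  have h1 : (1 : ℝ) ≤ k := by exact_mod_cast h.k_ge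
  have h2 : 2 ≤ B := by linarith [h.k_le]
  have h3 : γ / 2 ≤ 1 := by
    have : (1 : ℝ) / 2 ^ k ≤ 1 := by
      rw [div_le_one (by positivity)]; exact one_le_pow₀ one_le_two
    linarith [h.γ_le]
  refine ⟨h2, h.w_ge.trans ?_⟩
  rcases Nat.eq_zero_or_pos w with rfl | hw
  · rw [Nat.cast_zero, Real.zero_rpow (by linarith [h.γ_pos])]
  · exact Real.rpow_le_self_of_one_le (by exact_mod_cast hw) h3

/-- the weight attached to a set of primes -/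
noncomputable def wT (ν : ∀ p : PI w D, Om w D p → ℝ) (T : Finset (PI w D)) (s : ℤ) : ℂ :=
  ((∏ i ∈ T, (ν i s - 1) : ℝ) : ℂ)

lemma wT_per (T : Finset (PI w D)) (s t : ℤ) : wT ν T (s + sz (Om w D) T * t) = wT ν T s := by
  unfold wT
  congr 1
  refine prod_congr rfl fun i hi => ?_
  have : ((sz (Om w D) T : ℕ) : ZMod i.1) = 0 := by
    rw [ZMod.natCast_eq_zero_iff, push_sz]; exact dvd_prod_of_mem _ hi
  push_cast
  rw [this, zero_mul, add_zero]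

lemma wT_le (hB : 2 ≤ B) (hw : 3 * B ≤ w) (hν : ∀ i ∈ I, ∀ t, |ν i t| ≤ B)
    {T : Finset (PI w D)} (hT : T ∈ low (Om w D) I D) (s : ℤ) : ‖wT ν T s‖ ≤ D := by
  obtain ⟨h1, h2⟩ := mem_filter.1 hT
  refine le_trans ?_ h2
  rw [wT, Complex.norm_real, Real.norm_eq_abs, abs_prod, push_sz, Nat.cast_prod]
  refine prod_le_prod (fun _ _ => abs_nonneg _) fun i hi => ?_
  have h3 := hν i (mem_powerset.1 h1 hi) s
  have h4 : (w : ℝ) ≤ i.1 := by exact_mod_cast (mem_Ioc.1 (mem_filter.1 i.2).1).1.le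
  have h5 := abs_sub (ν i s) 1
  rw [abs_one] at h5
  linarith

lemma bil_ee_per {q : ℕ} (hq : 1 ≤ q) (a : ℤ) {x y : ℤ} (h : (q : ℤ) ∣ x - y) :
    ee (a * x / q) = ee (a * y / q) := by
  obtain ⟨c, hc⟩ := h
  have h0 : (q : ℝ) ≠ 0 := Nat.cast_ne_zero.2 (by omega)
  have : (a * x / q : ℝ) = a * y / q + (a * c : ℤ) := by
    rw [eq_add_of_sub_eq hc]; push_cast; field_simp; ring
  rw [this, abel_ee_add, abel_ee_int, mul_one]

lemma bil_coprime {θ σ Q : ℝ} {q : ℕ} (hq : 1 ≤ q) (hQ : (q : ℝ) ≤ Q) {a : ℤ}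
    (h : |q * θ - a| ≤ σ) : ∃ (q' : ℕ) (a' : ℤ), 1 ≤ q' ∧ (q' : ℝ) ≤ Q ∧ IsCoprime a' q' ∧
      |θ - a' / q'| ≤ σ := by
  have h1 : (1 : ℝ) ≤ q := by exact_mod_cast hq
  set r : ℚ := (a : ℚ) / q with hr
  have h2 : (r.den : ℤ) ∣ q := by
    have := Rat.den_dvd a q
    rwa [Rat.divInt_eq_div, Int.cast_natCast] at this
  refine ⟨r.den, r.num, r.den_pos, le_trans ?_ hQ, ?_, ?_⟩
  · exact_mod_cast Int.le_of_dvd (by exact_mod_cast hq) h2
  · rw [Int.isCoprime_iff_gcd_eq_one]; exact r.reduced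
  · have h3 : (r.num : ℝ) / r.den = a / q := by
      rw [← Rat.cast_def, hr]; push_cast; rfl
    have h4 : q * θ - a = q * (θ - a / q) := by field_simp
    rw [h3]
    rw [h4, abs_mul, abs_of_nonneg (by linarith)] at h
    nlinarith [abs_nonneg (θ - a / q)]

/-- the difference of the two exponential sums -/
noncomputable def bilD (G : ℤ[X]) (ν κ : ∀ p : PI w D, Om w D p → ℝ) (S₁ S : ℕ) (θ : ℝ)
    (T : Finset (PI w D)) : ℂ :=
  ∑ d ∈ Ico (G.eval (S₁ + (0 : ℕ) : ℤ)) (G.eval (S₁ + S : ℤ)), wT κ T d * ee (θ * d) -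
    ∑ s ∈ range S, wT ν T (S₁ + s) * ee (θ * (G.eval (S₁ + s : ℤ) : ℤ)) *
      ((G.eval (S₁ + (s + 1 : ℕ) : ℤ) - G.eval (S₁ + s : ℤ) : ℤ) : ℂ)

lemma bil_major (h : Loc k B γ w D I G ν κ) {S₁ S : ℕ} {Δ X : ℝ}
    (hg : Cvx (fun s => G.eval (S₁ + s : ℤ)) S Δ X) {θ Q₁ Q₂ : ℝ} (hQ : 1 ≤ Q₂) {q : ℕ}
    (hq : 1 ≤ q) (hq1 : (q : ℝ) ≤ Q₁) {a : ℤ} (ha : IsCoprime a q) (hθ : |θ - a / q| ≤ Q₂ / X) :
    ‖∑ T ∈ low (Om w D) I D, bilD G ν κ S₁ S θ T‖ ≤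
      2 * (D : ℝ) ^ (-(γ / 2)) * X + 41 * Q₁ * Q₂ * D ^ 3 * Δ := by
  obtain ⟨hB, hw⟩ := h.w_big
  have hX : 0 < X := lt_of_lt_of_le (by exact_mod_cast hg.pos) hg.le_len
  have hΔ := hg.one_le
  obtain ⟨β, rfl⟩ : ∃ β, θ = a / q + β := ⟨θ - a / q, by ring⟩
  rw [add_sub_cancel_left, le_div_iff₀ hX] at hθ
  set J := ∑ d ∈ Ico (G.eval (S₁ + (0 : ℕ) : ℤ)) (G.eval (S₁ + S : ℤ)), ee (β * d) with hJ
  set A : Finset (PI w D) → ℂ := fun T =>
    avg (q * sz (Om w D) T) (fun d => wT κ T d * ee (a * d / q)) -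
    avg (q * sz (Om w D) T) (fun s => wT ν T s * ee (a * (G.eval s : ℤ) / q)) with hA
  have h1 : ∀ T ∈ low (Om w D) I D,
      ‖bilD G ν κ S₁ S (a / q + β) T - A T * J‖ ≤ 41 * Q₁ * Q₂ * D ^ 2 * Δ := fun T hT => by
    have h2 := hg.major (M := q * sz (Om w D) T) (B := D)
      (ψ := fun d => wT κ T d * ee (a * d / q))
      (ψ' := fun s => wT ν T s * ee (a * (G.eval s : ℤ) / q))
      (Nat.mul_pos hq (push_sz_pos T)) (fun s => ?_) (fun s => ?_) (fun s => ?_) (fun s => ?_)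
      S₁ hθ hQ
    · refine (le_of_eq ?_).trans (h2.trans ?_)
      · rw [bilD]
        congr 3
        · refine sum_congr rfl fun d _ => ?_
          rw [mul_assoc, ← abel_ee_add]; congr 2; ring
        · refine sum_congr rfl fun s _ => ?_
          rw [show ((a : ℝ) / q + β) * (G.eval (S₁ + s : ℤ) : ℤ) =
            a * (G.eval (S₁ + s : ℤ) : ℤ) / q + β * (G.eval (S₁ + s : ℤ) : ℤ) by ring, abel_ee_add]
          ring
      · have h3 : (sz (Om w D) T : ℝ) ≤ D := (mem_filter.1 hT).2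
        have h4 : ((q * sz (Om w D) T : ℕ) : ℝ) ≤ Q₁ * D := by
          push_cast; exact mul_le_mul hq1 h3 (Nat.cast_nonneg _) ((Nat.cast_nonneg _).trans hq1)
        calc _ ≤ 41 * (Q₁ * D) * D * Q₂ * Δ := by gcongr
          _ = _ := by ring
    · rw [Nat.cast_mul, bil_ee_per hq a (y := s) (by simp), mul_comm (q : ℤ), wT_per]
    · rw [Nat.cast_mul, bil_ee_per hq a (y := G.eval s)
        (Dvd.dvd.trans (by simp) (sub_dvd_eval_sub _ _ G)), mul_comm (q : ℤ), wT_per]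
    · rw [norm_mul, abel_ee_norm, mul_one]; exact wT_le hB hw h.κ_le hT s
    · rw [norm_mul, abel_ee_norm, mul_one]; exact wT_le hB hw h.ν_le hT s
  have h2 : ‖∑ T ∈ low (Om w D) I D, A T‖ ≤ 2 * (D : ℝ) ^ (-(γ / 2)) := by
    rw [← norm_neg, ← sum_neg_distrib]
    simp only [hA, neg_sub]
    exact sing_cmp h hq ha
  have h3 : ‖J‖ ≤ X := by
    refine (norm_sum_le _ _).trans (le_trans (le_of_eq ?_) hg.len)
    simp only [abel_ee_norm, sum_const, Int.card_Ico, nsmul_eq_mul, mul_one]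
    rw [← Int.cast_natCast, Int.toNat_of_nonneg (sub_nonneg.2 (hg.strictMono.monotone S.zero_le))]
  have h4 : ∑ T ∈ low (Om w D) I D, bilD G ν κ S₁ S (a / q + β) T =
      (∑ T ∈ low (Om w D) I D, A T) * J +
        ∑ T ∈ low (Om w D) I D, (bilD G ν κ S₁ S (a / q + β) T - A T * J) := by
    rw [sum_mul, ← sum_add_distrib]
    exact sum_congr rfl fun T _ => by ring
  rw [h4]
  refine (norm_add_le _ _).trans (add_le_add ?_ ((norm_sum_le _ _).trans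
    ((sum_le_card_nsmul _ _ _ h1).trans ?_)))
  · rw [norm_mul]; exact mul_le_mul h2 h3 (norm_nonneg _) (by positivity)
  · have h5 := card_low (sz_inj (w := w) (D := D)) I (R := D) (Nat.cast_nonneg _)
    have h6 : 0 ≤ Q₁ := (Nat.cast_nonneg _).trans hq1
    rw [nsmul_eq_mul]
    calc _ ≤ D * (41 * Q₁ * Q₂ * D ^ 2 * Δ) := by gcongr
      _ = _ := by ring

lemma bil_minor (h : Loc k B γ w D I G ν κ) {S₁ S : ℕ} {Δ X : ℝ}
    (hg : Cvx (fun s => G.eval (S₁ + s : ℤ)) S Δ X) {θ σ Z : ℝ} (hσ : 0 < σ)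
    (hθ : ∀ q : ℕ, 1 ≤ q → (q : ℝ) ≤ D → ∀ a : ℤ, σ ≤ |q * θ - a|)
    (hZ : ∀ M : ℕ, 1 ≤ M → (M : ℝ) ≤ D → ∀ (a : ℤ) (n : ℕ), n ≤ S →
      ‖∑ s ∈ range n, ee (θ * (G.eval (a + M * s : ℤ) : ℤ))‖ ≤ Z) :
    ‖∑ T ∈ low (Om w D) I D, bilD G ν κ S₁ S θ T‖ ≤ D ^ 3 / σ + 2 * D ^ 3 * Z * Δ := by
  obtain ⟨hB, hw⟩ := h.w_big
  have hΔ := hg.one_le
  have hD : (1 : ℝ) ≤ D := by
    have : (w : ℝ) ≤ D := by exact_mod_cast h.w_le
    linarith
  have hZ0 : 0 ≤ Z := (norm_nonneg _).trans (hZ 1 le_rfl (by simpa using hD) 0 0 S.zero_le)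
  have h1 : ∀ T ∈ low (Om w D) I D, ‖bilD G ν κ S₁ S θ T‖ ≤ D ^ 2 / σ + 2 * D ^ 2 * Z * Δ :=
    fun T hT => by
    have h3 : (sz (Om w D) T : ℝ) ≤ D := (mem_filter.1 hT).2
    refine (norm_sub_le _ _).trans (add_le_add ?_ ?_)
    · refine (periodic_geom (push_sz_pos T) (fun s => by simpa using wT_per T s 1)
        (wT_le hB hw h.κ_le hT) hσ (hθ _ (push_sz_pos T) h3) _ _).trans ?_
      rw [sq]; gcongr
    · have h4 := hg.abel (β := 0) (Q := 0) _ (bil_minor2 (push_sz_pos T) (wT_per T)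
        (wT_le hB hw h.ν_le hT) (hZ _ (push_sz_pos T) h3) S₁) (by simp)
      simp only [zero_mul, abel_ee_zero, mul_one, mul_zero, add_zero] at h4
      refine h4.trans ?_
      calc _ ≤ D * D * Z * Δ * 2 := by gcongr
        _ = _ := by ring
  refine (norm_sum_le _ _).trans ((sum_le_card_nsmul _ _ _ h1).trans ?_)
  have h5 := card_low (sz_inj (w := w) (D := D)) I (R := D) (Nat.cast_nonneg _)
  rw [nsmul_eq_mul]
  calc _ ≤ D * (D ^ 2 / σ + 2 * D ^ 2 * Z * Δ) := by gcongr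
    _ = _ := by ring

lemma bil_sup {c : ℕ} (hW : IW k c) (h : Loc k B γ w D I G ν κ) {S₁ S : ℕ} {L₀ L₁ Δ X : ℝ}
    (hg : Cvx (fun s => G.eval (S₁ + s : ℤ)) S Δ X) (h1 : 1 ≤ G.coeff k)
    (h2 : (G.coeff k : ℝ) ≤ L₀) (h3 : 1 ≤ L₁) (h4 : Δ * S ≤ L₁ * X) (h5 : X ≤ L₀ * S ^ k)
    (h6 : (L₀ * D) ^ (8 * c + 5 * k + 50) ≤ S) (θ : ℝ) :
    ‖∑ T ∈ low (Om w D) I D, bilD G ν κ S₁ S θ T‖ ≤ 43 * L₁ * X * (D : ℝ) ^ (-(γ / 2)) := by
  obtain ⟨hB, hw⟩ := h.w_big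
  have hΔ := hg.one_le
  have hS : (1 : ℝ) ≤ S := by exact_mod_cast hg.pos
  have hX : 0 < X := by linarith [hg.le_len]
  have hD : (2 : ℝ) ≤ D := by
    have : (w : ℝ) ≤ D := by exact_mod_cast h.w_le
    linarith
  have hD1 : (1 : ℝ) ≤ D := by linarith
  have hL : 1 ≤ L₀ := le_trans (by exact_mod_cast h1) h2
  have hk := h.k_ge
  have hγ : 1 / (D : ℝ) ≤ (D : ℝ) ^ (-(γ / 2)) := by
    rw [one_div, ← Real.rpow_neg_one]
    refine Real.rpow_le_rpow_of_exponent_le hD1 ?_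
    have : (1 : ℝ) / 2 ^ k ≤ 1 := by
      rw [div_le_one (by positivity)]; exact one_le_pow₀ one_le_two
    linarith [h.γ_le]
  have hu : (2 : ℝ) ≤ D ^ 4 := hD.trans (le_self_pow₀ hD1 (by norm_num))
  have hpow : ∀ i j : ℕ, i ≤ 8 * c + 5 * k + 50 → j ≤ 8 * c + 5 * k + 50 →
      L₀ ^ i * (D : ℝ) ^ j ≤ S := fun i j hi hj => by
    refine le_trans ?_ h6
    rw [mul_pow]
    exact mul_le_mul (pow_le_pow_right₀ hL hi) (pow_le_pow_right₀ hD1 hj) (by positivity)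
      (by positivity)
  have hQ : (D : ℝ) ^ 4 ≤ (D ^ 4) ^ (c + k) * L₀ :=
    (le_self_pow₀ (by linarith) (by omega)).trans (le_mul_of_one_le_right (by positivity) hL)
  have hE : L₁ * X * (1 / D) ≤ L₁ * X * (D : ℝ) ^ (-(γ / 2)) := by gcongr
  have hF : X * (D : ℝ) ^ (-(γ / 2)) ≤ L₁ * X * (D : ℝ) ^ (-(γ / 2)) := by
    rw [mul_assoc]; exact le_mul_of_one_le_left (by positivity) h3
  by_cases hm : ∃ q : ℕ, 1 ≤ q ∧ (q : ℝ) ≤ ((D : ℝ) ^ 4) ^ c * L₀ * D ^ k ∧ ∃ a : ℤ,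
      |q * θ - a| ≤ ((D : ℝ) ^ 4) ^ (c + k) * L₀ / X
  · obtain ⟨q, hq, hq1, a, ha⟩ := hm
    obtain ⟨q, a, hq, hq1, hc, ha⟩ := bil_coprime hq hq1 ha
    refine (bil_major h hg (by linarith) hq hq1 hc ha).trans ?_
    have h7 := hpow 2 (8 * c + 5 * k + 4) (by omega) (by omega)
    have h8 : ((D : ℝ) ^ 4) ^ c * L₀ * D ^ k * ((D ^ 4) ^ (c + k) * L₀) * D ^ 3 * Δ ≤
        L₁ * X * (1 / D) := by
      rw [mul_one_div, le_div_iff₀ (by linarith)]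
      refine le_trans (le_of_eq ?_) ((mul_le_mul_of_nonneg_left h7 (by linarith : 0 ≤ Δ)).trans h4)
      ring
    nlinarith
  · push Not at hm
    have h7 : ((D : ℝ) ^ 4) ^ (c + 1) ≤ S := by
      have := hpow 0 (4 * (c + 1)) (by omega) (by omega)
      rwa [pow_zero, one_mul, pow_mul] at this
    refine (bil_minor h hg (σ := ((D : ℝ) ^ 4) ^ (c + k) * L₀ / X) (Z := S / D ^ 4) (by positivity)
      (fun q hq hq1 a => (hm q hq (hq1.trans ?_) a).le) fun M hM hM1 a n hn =>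
      bil_minor1 hW h.deg h1 h2 h5 hX hu h7 hM hM1 hm a hn).trans ?_
    · exact (le_self_pow₀ hD1 (by omega)).trans (le_mul_of_one_le_left (by positivity)
        (one_le_mul_of_one_le_of_one_le (one_le_pow₀ (by linarith)) hL))
    · have h8 : (D : ℝ) ^ 3 / ((D ^ 4) ^ (c + k) * L₀ / X) ≤ L₁ * X * (1 / D) := by
        calc _ ≤ (D : ℝ) ^ 3 / (D ^ 4 / X) := by gcongr
          _ = 1 * X * (1 / D) := by field_simp
          _ ≤ _ := by gcongr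
      have h9 : (D : ℝ) ^ 3 * (S / D ^ 4) * Δ ≤ L₁ * X * (1 / D) := by
        calc _ = Δ * S * (1 / D) := by field_simp
          _ ≤ _ := by gcongr
      have h10 : 0 ≤ L₁ * X * (D : ℝ) ^ (-(γ / 2)) := by positivity
      nlinarith

theorem bilinear (k : ℕ) : ∃ K : ℕ, ∀ (B γ : ℝ) (w D : ℕ) (I : Finset (PI w D)) (G : ℤ[X])
    (ν κ : ∀ p : PI w D, Om w D p → ℝ) (L₀ L₁ X Δ : ℝ) (S₁ S n : ℕ) (F F' : ℕ → ℝ),
    Loc k B γ w D I G ν κ → 1 ≤ G.coeff k → (G.coeff k : ℝ) ≤ L₀ → 1 ≤ L₁ →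
    (∀ s : ℕ, S₁ ≤ s → G.eval (s : ℤ) < G.eval (s + 1 : ℤ) ∧
      G.eval (s + 1 : ℤ) - G.eval (s : ℤ) ≤ G.eval (s + 2 : ℤ) - G.eval (s + 1 : ℤ)) →
    (∀ s : ℕ, S₁ ≤ s → s < S₁ + S → ((G.eval (s + 1 : ℤ) - G.eval (s : ℤ) : ℤ) : ℝ) ≤ Δ) →
    ((G.eval (S₁ + S : ℤ) - G.eval (S₁ : ℤ) : ℤ) : ℝ) ≤ X → Δ * S ≤ L₁ * X → X ≤ L₀ * S ^ k →
    (L₀ * D) ^ K ≤ S → (n : ℝ) ≤ X → (∀ x, |F x| ≤ 1) → (∀ y, |F' y| ≤ 1) →
    (∀ x < n, ∀ y < n, F x * F' y ≠ 0 → G.eval (S₁ : ℤ) ≤ (y : ℤ) - x ∧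
      (y : ℤ) - x < G.eval (S₁ + S : ℤ) ∧ ∀ s : ℕ, S₁ ≤ s → (y : ℤ) - x ≠ G.eval (s : ℤ)) →
    |∑ x ∈ range n, ∑ y ∈ range n, F x * F' y * ker κ I D (red w D (y - x))| ≤
      K * L₁ * X ^ 2 * (D : ℝ) ^ (-(γ / 2)) := by
  rcases Nat.eq_zero_or_pos k with rfl | hk
  · exact ⟨0, fun B γ w D I G ν κ L₀ L₁ X Δ S₁ S n F F' h => absurd h.k_ge (by omega)⟩
  obtain ⟨c, hW⟩ := inverse_weyl k hk
  refine ⟨8 * c + 5 * k + 50, fun B γ w D I G ν κ L₀ L₁ X Δ S₁ S n F F' h h1 h2 h3 h4 h5 h6 h7 h8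
    h9 hn hF hF' hs => ?_⟩
  obtain ⟨hB, hw⟩ := h.w_big
  have hD : (1 : ℝ) ≤ D := by
    have : (w : ℝ) ≤ D := by exact_mod_cast h.w_le
    linarith
  have hL : 1 ≤ L₀ := le_trans (by exact_mod_cast h1) h2
  have hg : Cvx (fun s => G.eval (S₁ + s : ℤ)) S Δ X := by
    refine ⟨fun s => ?_, fun s => ?_, fun s hs => ?_, by simpa using h6, ?_⟩
    · simpa [add_assoc] using (h4 (S₁ + s) (by omega)).1
    · simpa [add_assoc] using (h4 (S₁ + s) (by omega)).2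
    · simpa [add_assoc] using h5 (S₁ + s) (by omega) (by omega)
    · exact_mod_cast (one_le_pow₀ (one_le_mul_of_one_le_of_one_le hL hD)).trans h9
  have hX : 0 < X := lt_of_lt_of_le (by exact_mod_cast hg.pos) hg.le_len
  set E : ℤ → ℝ := fun d => ker κ I D (red w D d) - ∑ s ∈ range S,
    if G.eval (S₁ + s : ℤ) = d then (∑ T ∈ low (Om w D) I D,
      ∏ i ∈ T, (ν i ((S₁ + s : ℤ) : ZMod i.1) - 1)) *
      ((G.eval (S₁ + (s + 1 : ℕ) : ℤ) - G.eval (S₁ + s : ℤ) : ℤ) : ℝ) else 0 with hE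
  have h10 := bil_of_fourier E (G.eval (S₁ + (0 : ℕ) : ℤ)) (G.eval (S₁ + S : ℤ))
    (Z := 43 * L₁ * X * (D : ℝ) ^ (-(γ / 2))) (fun θ => ?_) n F F' hF hF' fun x hx y hy hxy =>
      by simpa using ⟨(hs x hx y hy hxy).1, (hs x hx y hy hxy).2.1⟩
  · refine (le_of_eq ?_).trans (h10.trans ?_)
    · congr 1
      refine sum_congr rfl fun x hx => sum_congr rfl fun y hy => ?_
      by_cases hxy : F x * F' y = 0
      · rw [hxy, zero_mul, zero_mul]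
      · have h11 := (hs x (mem_range.1 hx) y (mem_range.1 hy) hxy).2.2
        rw [hE]
        simp only
        rw [sum_eq_zero fun s _ => if_neg fun e => h11 (S₁ + s) (by omega)
          (by rw [← e]; push_cast; rfl), sub_zero]
    · have h11 : (43 : ℝ) ≤ (8 * c + 5 * k + 50 : ℕ) := by exact_mod_cast (by omega)
      calc _ ≤ (8 * c + 5 * k + 50 : ℕ) * L₁ * X * (D : ℝ) ^ (-(γ / 2)) * X := by gcongr
        _ = _ := by ring
  · refine (le_of_eq ?_).trans (bil_sup hW h hg h1 h2 h3 h7 h8 h9 θ)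
    congr 1
    simp only [hE, bilD, sum_sub_distrib, Complex.ofReal_sub, sub_mul]
    congr 1
    · rw [sum_comm]
      refine sum_congr rfl fun d _ => ?_
      rw [← sum_mul, ker, Complex.ofReal_sum]
      rfl
    · rw [sum_comm (s := low _ _ _)]
      simp only [Complex.ofReal_sum, sum_mul]
      rw [sum_comm]
      refine sum_congr rfl fun s hs => ?_
      rw [sum_eq_single (G.eval (S₁ + s : ℤ)) (fun d _ hd => by simp [hd.symm]) fun hd => ?_]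
      · rw [if_pos rfl, Complex.ofReal_sum, sum_mul]
        refine sum_congr rfl fun T _ => ?_
        rw [wT]; push_cast; ring
      · exact absurd (mem_Ico.2 ⟨hg.strictMono.monotone s.zero_le,
          hg.strictMono (mem_range.1 hs)⟩) hd

end Vale.Agent.P042U
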