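import Vale.Agent.P042U.Arch
import Vale.Agent.P042U.Bil

/-! The bilinear hypothesis of the model theorem (task O2). -/

namespace Vale.Agent.P042U

open Finset Polynomial
open scoped BigOperators

lemma arcs_affine {p : ℕ} [Fact p.Prime] {M : Type} [AddCommMonoid M] [Module ℚ≥0 M]
    (f : ZMod p → M) (b : ZMod p) {a : ZMod p} (ha : a ≠ 0) : 𝔼 t, f (b + a * t) = 𝔼 t, f t :=
  Fintype.expect_equiv ((Equiv.mulLeft₀ a ha).trans (Equiv.addLeft b)) _ _ fun _ => rfl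

lemma arcs_avg {p : ℕ} [Fact p.Prime] (F : ZMod p → ℝ) (a : ℤ) :
    (avg p fun d => (F d : ℂ) * ee (a * d / p)) =
      𝔼 t, (F t : ℂ) * ZMod.stdAddChar ((a : ZMod p) * t) := by
  rw [avg, Fintype.expect_eq_sum_div_card, ZMod.card]
  congr 1
  refine sum_nbij' (fun s => (s : ZMod p)) (fun t => t.val) (fun _ _ => mem_univ _)
    (fun t _ => mem_range.2 (ZMod.val_lt t)) (fun s hs => ZMod.val_cast_of_lt (mem_range.1 hs))
    (fun t _ => ZMod.natCast_zmod_val t) fun s _ => ?_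
  have : (a : ZMod p) * (s : ZMod p) = ((a * s : ℤ) : ZMod p) := by push_cast; rfl
  rw [this, ZMod.stdAddChar_coe, ee]
  simp only [Int.cast_natCast]
  congr 2
  push_cast
  ring

lemma arcs_four {p : ℕ} [Fact p.Prime] (F : ZMod p → ℝ) {β : ℝ}
    (hF : ∀ b : ℤ, ¬ (p : ℤ) ∣ b → ‖avg p fun t => (F t : ℂ) * ee (b * t / p)‖ ≤ β)
    (c : ZMod p) {m : ZMod p} (hm : m ≠ 0) {a : ℤ} (ha : ¬ (p : ℤ) ∣ a) :
    ‖avg p fun d => (F (c + m * d) : ℂ) * ee (a * d / p)‖ ≤ β := by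
  have ha' : (a : ZMod p) ≠ 0 := fun h => ha ((ZMod.intCast_zmod_eq_zero_iff_dvd _ _).1 h)
  obtain ⟨b, hb⟩ := ZMod.intCast_surjective ((a : ZMod p) * m⁻¹)
  have hb' : ¬ (p : ℤ) ∣ b := fun h => by
    have := (ZMod.intCast_zmod_eq_zero_iff_dvd _ _).2 h
    rw [hb] at this
    exact mul_ne_zero ha' (inv_ne_zero hm) this
  have h1 := hF b hb'
  rw [arcs_avg, ← arcs_affine _ c hm] at h1
  rw [arcs_avg (fun t => F (c + m * t))]
  have h2 : 𝔼 t, (F (c + m * t) : ℂ) * ZMod.stdAddChar ((b : ZMod p) * (c + m * t)) =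
      ZMod.stdAddChar ((b : ZMod p) * c) *
        𝔼 t, (F (c + m * t) : ℂ) * ZMod.stdAddChar ((a : ZMod p) * t) := by
    rw [mul_expect]
    refine expect_congr rfl fun t _ => ?_
    have : (b : ZMod p) * (c + m * t) = b * c + a * t := by rw [hb]; field_simp
    rw [this, AddChar.map_add_eq_mul]; ring
  rwa [h2, norm_mul, AddChar.norm_apply, one_mul] at h1

lemma arcs_aeval {p : ℕ} (g : ℤ[X]) (t : ℤ) :
    aeval (t : ZMod p) g = ((g.eval t : ℤ) : ZMod p) :=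
  aeval_algebraMap_apply_eq_algebraMap_eval (A := ZMod p) t g

lemma arcs_supp {p : ℕ} [Fact p.Prime] {g G : ℤ[X]} {M Q t₁ : ℤ}
    (hder : C M * G = C Q * g.comp (C t₁ + C Q * X)) (hQ : (Q : ZMod p) ≠ 0) {t : ZMod p}
    (ht : aeval ((t₁ : ZMod p) + (Q : ZMod p) * t) g ≠ 0) : aeval t G ≠ 0 := by
  intro h0
  have h1 := congrArg (aeval t) hder
  simp only [map_mul, aeval_comp, map_add, aeval_X, eq_intCast, map_intCast, h0, mul_zero] at h1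
  exact mul_ne_zero hQ ht h1.symm

lemma arcs_img {p : ℕ} [Fact p.Prime] {g G : ℤ[X]} {M Q t₁ c' : ℤ} {ν κ : ZMod p → ℝ}
    (hid : C M * G = g.comp (C t₁ + C Q * X) - C c') (hM : (M : ZMod p) ≠ 0)
    (hQ : (Q : ZMod p) ≠ 0)
    (h : ∀ Φ : ZMod p → ℂ, 𝔼 t, (ν t : ℂ) * Φ (aeval t g) = 𝔼 d, (κ d : ℂ) * Φ d)
    (Φ : ZMod p → ℂ) :
    𝔼 t, (ν ((t₁ : ZMod p) + (Q : ZMod p) * t) : ℂ) * Φ (aeval t G) =
      𝔼 d, (κ ((c' : ZMod p) + (M : ZMod p) * d) : ℂ) * Φ d := by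
  have h1 := h fun u => Φ ((u - c') * (M : ZMod p)⁻¹)
  have h3 := arcs_affine (fun t => (ν t : ℂ) * Φ ((aeval t g - c') * (M : ZMod p)⁻¹)) t₁ hQ
  have h4 := arcs_affine (fun d => (κ d : ℂ) * Φ ((d - c') * (M : ZMod p)⁻¹)) c' hM
  refine Eq.trans (expect_congr rfl fun t _ => ?_)
    ((h3.trans (h1.trans h4.symm)).trans (expect_congr rfl fun t _ => ?_))
  · have h2 := congrArg (aeval t) hid
    simp only [map_mul, aeval_comp, map_add, map_sub, aeval_X, eq_intCast, map_intCast] at h2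
    rw [← h2, mul_comm (M : ZMod p), mul_inv_cancel_right₀ hM]
  · rw [add_sub_cancel_left, mul_comm (M : ZMod p), mul_inv_cancel_right₀ hM]

/-- the local hypotheses hold for the rescaled polynomial -/
lemma arcs_loc {k w D : ℕ} {B γ : ℝ} {g G : ℤ[X]} {S : Finset (PI w D)} {M Q t₁ c' : ℤ}
    {κ : ∀ p : PI w D, Om w D p → ℝ} (hk : 1 ≤ k) (hB : 1 ≤ B) (hγ : 0 < γ) (hγ' : γ ≤ 1 / 2 ^ k)
    (hw : 2 * k ≤ w) (hw' : 6 * k * B ≤ (w : ℝ) ^ (γ / 2)) (hD : w ≤ D) (hg : g.natDegree ≤ k)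
    (hG : G.natDegree ≤ k) (hid : C M * G = g.comp (C t₁ + C Q * X) - C c')
    (hlarge : ∀ p : ℕ, p.Prime → w < p → ∃ t : ℤ, ¬ (p : ℤ) ∣ (derivative g).eval t)
    (hM : ∀ p : ℕ, p.Prime → w < p → (∀ i ∈ S, i.1 ≠ p) → ¬ (p : ℤ) ∣ M ∧ ¬ (p : ℤ) ∣ Q)
    (hlin : ∀ p : ℕ, p.Prime → (p ≤ w ∨ ∃ i ∈ S, i.1 = p) → ∀ s : ℤ,
      ¬ (p : ℤ) ∣ (derivative G).eval s ∧ ∀ s' : ℤ, (p : ℤ) ∣ G.eval s - G.eval s' → (p : ℤ) ∣ s - s')
    (hκ : ∀ p t, 0 ≤ κ p t ∧ κ p t ≤ B * alpha g p.1 t) (hmean : ∀ p, 𝔼 t, κ p t = 1)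
    (hfour : ∀ (p : PI w D) (b : ℤ), ¬ (p.1 : ℤ) ∣ b →
      ‖avg p.1 fun t => (κ p t : ℂ) * ee (b * t / p.1)‖ ≤ B * (p.1 : ℝ) ^ (-γ)) :
    ∃ ν, Loc k (2 * k * B) γ w D Sᶜ G ν fun p d => κ p ((c' : ZMod p.1) + (M : ZMod p.1) * d) := by
  have hk' : (1 : ℝ) ≤ k := by exact_mod_cast hk
  have hpw : ∀ p : PI w D, p.1.Prime ∧ w < p.1 := fun p =>
    ⟨(mem_filter.1 p.2).2, (mem_Ioc.1 (mem_filter.1 p.2).1).1⟩
  have hex := fun p : PI w D => exists_weight (p := p.1) hg (hw.trans_lt (hpw p).2)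
    (hlarge p.1 (hpw p).1 (hpw p).2) (by linarith : 0 ≤ B) (hκ p)
  choose ν hν₁ hν₂ hν₃ using hex
  have hder : C M * derivative G = C Q * (derivative g).comp (C t₁ + C Q * X) := by
    have := congrArg derivative hid
    rwa [derivative_C_mul, derivative_sub, derivative_C, sub_zero, derivative_comp, derivative_add,
      derivative_C, derivative_C_mul, derivative_X, zero_add, mul_one] at this
  have hne : ∀ i ∈ Sᶜ, (M : ZMod i.1) ≠ 0 ∧ (Q : ZMod i.1) ≠ 0 := by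
    intro i hi
    have := hM i.1 (hpw i).1 (hpw i).2 fun j hj hji => (mem_compl.1 hi) (Subtype.ext hji ▸ hj)
    exact ⟨fun h => this.1 ((ZMod.intCast_zmod_eq_zero_iff_dvd _ _).1 h),
      fun h => this.2 ((ZMod.intCast_zmod_eq_zero_iff_dvd _ _).1 h)⟩
  refine ⟨fun p s => ν p ((t₁ : ZMod p.1) + (Q : ZMod p.1) * s), by nlinarith, hk, hγ, hγ',
    by linarith, hD, hG, fun p hp => ?_, fun i _ t => (hν₁ i _).trans (by nlinarith),
    fun i _ t => ?_, fun i hi t ht => ?_, fun i hi Φ => ?_, fun i hi => ?_, fun i hi a ha => ?_⟩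
  · by_cases h : p ≤ w ∨ ∃ i ∈ S, i.1 = p
    · exact Or.inl (hlin p hp h)
    push Not at h
    obtain ⟨-, hQ⟩ := hM p hp h.1 h.2
    obtain ⟨t, ht⟩ := hlarge p hp h.1
    refine Or.inr ⟨⟨hw.trans_lt h.1, ?_⟩, ?_⟩
    · obtain ⟨u, v, huv⟩ := (Nat.prime_iff_prime_int.1 hp).irreducible.coprime_iff_not_dvd.2 hQ
      refine ⟨v * (t - t₁), fun hd => ht ?_⟩
      have h1 := congrArg (eval (v * (t - t₁))) hder
      rw [eval_C_mul, eval_C_mul, eval_comp, eval_add, eval_C, eval_C_mul, eval_X] at h1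
      have h2 := ((Nat.prime_iff_prime_int.1 hp).dvd_or_dvd (h1 ▸ hd.mul_left M)).resolve_left hQ
      have h3 : (p : ℤ) ∣ t - (t₁ + Q * (v * (t - t₁))) :=
        ⟨u * (t - t₁), by linear_combination (t₁ - t) * huv⟩
      simpa using (h3.trans (sub_dvd_eval_sub _ _ (derivative g))).add h2
    · by_cases hpD : D < p
      · exact Or.inl hpD
      · refine Or.inr ⟨⟨p, mem_filter.2 ⟨mem_Ioc.2 ⟨h.1, not_lt.1 hpD⟩, hp⟩⟩,
          mem_compl.2 fun hi => h.2 _ hi rfl, rfl⟩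
  · have h1 := alpha_bdd (p := i.1) hg (hw.trans_lt (hpw i).2) (hlarge i.1 (hpw i).1 (hpw i).2)
      ((c' : ZMod i.1) + (M : ZMod i.1) * t)
    have h2 := hκ i ((c' : ZMod i.1) + (M : ZMod i.1) * t)
    rw [abs_of_nonneg h2.1]
    nlinarith [h1.2, h2.2]
  · exact arcs_supp hder (hne i hi).2 (hν₂ i _ ht)
  · exact arcs_img hid (hne i hi).1 (hne i hi).2 (hν₃ i) Φ
  · exact (arcs_affine (κ i) _ (hne i hi).1).trans (hmean i)
  · refine (arcs_four (κ i) (hfour i) _ (hne i hi).1 ha).trans ?_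
    have : 0 ≤ (i.1 : ℝ) ^ (-γ) := by positivity
    gcongr
    nlinarith

lemma arcs_y {A b : ℕ} (hA : b < A) {s : ℤ} (hs : 0 ≤ s) : s ≤ b + A * s := by
  have hA' : (b : ℤ) + 1 ≤ A := by exact_mod_cast hA
  have hb : (0 : ℤ) ≤ b := by positivity
  nlinarith

lemma arcs_up {h : ℤ[X]} {n₀ : ℕ} {Bh : ℤ} (hg : Growth h n₀ Bh) {A b : ℕ} (hA : b < A) {s t : ℤ}
    (hs : 1 ≤ s) (ht : s + 1 ≤ t) : h.eval (b + A * s) ≤ Bh * (A * t) ^ h.natDegree := by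
  have hA' : (b : ℤ) + 1 ≤ A := by exact_mod_cast hA
  have hb : (0 : ℤ) ≤ b := by positivity
  have hB := hg.B_ge
  refine (hg.upper _ (hs.trans (arcs_y hA (by linarith)))).trans ?_
  have h1 : b + A * s ≤ A * t := by nlinarith
  have h2 : 0 ≤ b + A * s := by positivity
  gcongr

lemma arcs_inc {h : ℤ[X]} {n₀ : ℕ} {Bh : ℤ} (hg : Growth h n₀ Bh) {A b k : ℕ} (hA : b < A)
    (hk : h.natDegree = k + 1) {s t : ℤ} (hs : n₀ ≤ s) (ht : s + 1 ≤ t) :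
    h.eval (b + A * (s + 1)) - h.eval (b + A * s) ≤ Bh * A * (b + A * t) ^ k := by
  have hA' : (0 : ℤ) ≤ A := by positivity
  have hB := hg.B_ge
  have hn₀ : (1 : ℤ) ≤ n₀ := by exact_mod_cast hg.n₀_ge
  have h1 := hg.lip (b + A * s) (b + A * (s + 1)) (hs.trans (arcs_y hA (by linarith)))
    (by linarith)
  have h2 : (0 : ℤ) < b + A * (s + 1) := by linarith [arcs_y hA (s := s + 1) (by linarith)]
  have h3 : (b + A * (s + 1) : ℤ) ≤ b + A * t := by gcongr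
  rw [hk, pow_succ', show (b : ℤ) + A * (s + 1) - (b + A * s) = A by ring,
    show Bh * A * ((b + A * (s + 1)) * (b + A * (s + 1)) ^ k) =
      (b + A * (s + 1)) * (Bh * A * (b + A * (s + 1)) ^ k) by ring] at h1
  refine (le_of_mul_le_mul_left h1 h2).trans ?_
  gcongr

lemma arcs_arch₀ {h : ℤ[X]} {n₀ : ℕ} {Bh : ℤ} (hg : Growth h n₀ Bh) (hdeg : 2 ≤ h.natDegree)
    {A b N T : ℕ} (hA : b < A) (hT : 4 * Bh ≤ T)
    (hn : Bh * (A * (n₀ + 1 + T)) ^ h.natDegree < N) :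
    ∃ (S : ℕ) (Δ : ℤ), T ≤ S ∧ (N : ℤ) ≤ h.eval ((b : ℤ) + A * (n₀ + S)) ∧
      h.eval ((b : ℤ) + A * (n₀ + S)) ≤ 2 * N ∧
      (∀ s : ℤ, n₀ ≤ s → s + 1 ≤ n₀ + S → h.eval (b + A * (s + 1)) - h.eval (b + A * s) ≤ Δ) ∧
      Δ * S ≤ 2 * Bh * (2 * N) := by
  classical
  obtain ⟨k, hk⟩ : ∃ k, h.natDegree = k + 1 := ⟨h.natDegree - 1, by omega⟩
  have hB := hg.B_ge
  have hn₀ : (1 : ℤ) ≤ n₀ := by exact_mod_cast hg.n₀_ge
  have hex : ∃ S : ℕ, (N : ℤ) ≤ h.eval ((b : ℤ) + A * (n₀ + S)) := by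
    refine ⟨2 * N, ?_⟩
    have h0 : (0 : ℤ) ≤ N := by positivity
    have h2 := arcs_y hA (s := n₀ + (2 * N : ℕ)) (by positivity)
    have h1 := hg.lower ((b : ℤ) + A * (n₀ + (2 * N : ℕ))) (by push_cast at h2 ⊢; linarith)
    have h3 := le_self_pow₀ (a := (b : ℤ) + A * (n₀ + (2 * N : ℕ))) (n := h.natDegree)
      (by push_cast at h2 ⊢; linarith) (by omega)
    push_cast at h1 h2 h3 ⊢
    linarith
  obtain ⟨S, hS1, hmin⟩ : ∃ S : ℕ, (N : ℤ) ≤ h.eval ((b : ℤ) + A * (n₀ + S)) ∧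
      ∀ m : ℕ, m < S → h.eval ((b : ℤ) + A * (n₀ + m)) < N :=
    ⟨Nat.find hex, Nat.find_spec hex, fun m hm => not_le.1 (Nat.find_min hex hm)⟩
  have hTS : T ≤ S := by
    by_contra hc
    have h1 : (S : ℤ) < T := by exact_mod_cast not_le.1 hc
    have := arcs_up hg hA (s := n₀ + S) (t := n₀ + 1 + T)
      (by linarith [(by positivity : (0 : ℤ) ≤ S)]) (by linarith)
    linarith
  have hTS' : 4 * Bh ≤ (S : ℤ) := hT.trans (by exact_mod_cast hTS)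
  have hS2 : h.eval ((b : ℤ) + A * (n₀ + S - 1)) < N := by
    have := hmin (S - 1) (by omega)
    rwa [Nat.cast_sub (by omega), Nat.cast_one, ← add_sub_assoc] at this
  have hinc := arcs_inc hg hA hk (s := n₀ + S - 1) (t := n₀ + S) (by linarith) (by linarith)
  rw [sub_add_cancel] at hinc
  refine ⟨S, Bh * A * ((b : ℤ) + A * (n₀ + S)) ^ k, hTS, hS1, ?_⟩
  have hy1 : (A : ℤ) * S ≤ b + A * (n₀ + S) := by
    have : (0 : ℤ) ≤ b + A * n₀ := by positivity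
    linarith
  have hy0 : (n₀ : ℤ) ≤ b + A * (n₀ + S) := by linarith [arcs_y hA (s := n₀ + S) (by linarith)]
  have hlow := hg.lower _ hy0
  rw [hk, pow_succ'] at hlow
  have hfin : ∀ s : ℤ, n₀ ≤ s → s + 1 ≤ n₀ + S → h.eval (b + A * (s + 1)) - h.eval (b + A * s) ≤
      Bh * A * ((b : ℤ) + A * (n₀ + S)) ^ k := fun s hs hs' => arcs_inc hg hA hk hs hs'
  generalize h.eval ((b : ℤ) + A * (n₀ + S)) = H at *
  generalize (b : ℤ) + A * (n₀ + S) = y at *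
  have h2 : 0 ≤ y ^ k := pow_nonneg (by linarith) _
  have hyk : A * y ^ k * S ≤ 2 * H := by
    calc A * y ^ k * S = (A * S) * y ^ k := by ring
      _ ≤ y * y ^ k := by gcongr
      _ ≤ _ := hlow
  have hH : H ≤ 2 * N := by
    have h3 : A * y ^ k * (4 * Bh) ≤ A * y ^ k * S := by gcongr
    linarith
  refine ⟨hH, hfin, ?_⟩
  calc Bh * A * y ^ k * S = Bh * (A * y ^ k * S) := by ring
    _ ≤ Bh * (2 * (2 * N)) := mul_le_mul_of_nonneg_left (by linarith) (by linarith)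
    _ = _ := by ring

/-- the range of summation and the size of the increments -/
lemma arcs_arch {h G : ℤ[X]} {n₀ : ℕ} {Bh : ℤ} (hg : Growth h n₀ Bh) (hdeg : 2 ≤ h.natDegree)
    {lam Lm A b n T : ℕ} {c' : ℤ} (hlam : 1 ≤ lam) (hLm : 1 ≤ Lm) (hA : b < A)
    (hid : ∀ s : ℤ, lam * (Lm * G.eval s + c') = h.eval (b + A * s)) (hT : 4 * Bh ≤ T)
    (hn : Bh * (A * (n₀ + 1 + T)) ^ h.natDegree < n) :
    ∃ (S : ℕ) (Δ : ℝ), T ≤ S ∧
      (∀ s : ℕ, n₀ ≤ s → G.eval (s : ℤ) < G.eval (s + 1 : ℤ) ∧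
        G.eval (s + 1 : ℤ) - G.eval (s : ℤ) ≤ G.eval (s + 2 : ℤ) - G.eval (s + 1 : ℤ)) ∧
      (∀ s : ℕ, n₀ ≤ s → s < n₀ + S → ((G.eval (s + 1 : ℤ) - G.eval (s : ℤ) : ℤ) : ℝ) ≤ Δ) ∧
      ((G.eval (n₀ + S : ℤ) - G.eval (n₀ : ℤ) : ℤ) : ℝ) ≤ 2 * n / Lm ∧
      Δ * S ≤ 2 * Bh * (2 * n / Lm) ∧ (n : ℤ) ≤ Bh * (A * (n₀ + 2)) ^ h.natDegree * S ^ h.natDegree ∧
      (n : ℤ) ≤ Lm * G.eval (n₀ + S : ℤ) + c' ∧
      Lm * G.eval (n₀ : ℤ) + c' ≤ Bh * (A * (n₀ + 1)) ^ h.natDegree := by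
  have hB := hg.B_ge
  have hn₀ : (1 : ℤ) ≤ n₀ := by exact_mod_cast hg.n₀_ge
  have hlam' : (1 : ℤ) ≤ lam := by exact_mod_cast hlam
  have hLm' : (1 : ℤ) ≤ Lm := by exact_mod_cast hLm
  have hA' : (0 : ℤ) < A := by exact_mod_cast (by omega : 0 < A)
  have hn' : (n : ℤ) ≤ lam * n := le_mul_of_one_le_left (by positivity) hlam'
  obtain ⟨S, Δ, hTS, hS1, hH, hinc, hΔ⟩ := arcs_arch₀ hg hdeg (N := lam * n) hA hT
    (by push_cast; linarith)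
  push_cast at hS1 hH hΔ
  have hS : (1 : ℤ) ≤ S := by
    have : (T : ℤ) ≤ S := by exact_mod_cast hTS
    linarith
  have hy' : ∀ s : ℤ, n₀ ≤ s → (n₀ : ℤ) ≤ b + A * s := fun s hs =>
    hs.trans (arcs_y hA (by linarith))
  have hdiff : ∀ s t : ℤ, lam * Lm * (G.eval t - G.eval s) =
      h.eval (b + A * t) - h.eval (b + A * s) := fun s t => by rw [← hid, ← hid]; ring
  have hm : (0 : ℤ) < lam * Lm := by positivity
  have hmR : (0 : ℝ) < lam * Lm := by exact_mod_cast hm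
  have hLR : (0 : ℝ) < Lm := by exact_mod_cast hLm
  have hlR : (0 : ℝ) < lam := by exact_mod_cast hlam
  have h0 : 0 ≤ h.eval ((b : ℤ) + A * n₀) := by
    have h1 := hg.lower _ (hy' n₀ le_rfl)
    have h2 : 0 ≤ ((b : ℤ) + A * n₀) ^ h.natDegree := by positivity
    linarith
  refine ⟨S, (Δ : ℝ) / (lam * Lm), hTS, fun s hs => ⟨?_, ?_⟩, fun s hs hs' => ?_,
    ?_, ?_, ?_, ?_, ?_⟩
  · have hs' : (n₀ : ℤ) ≤ s := by exact_mod_cast hs
    have h1 := hg.mono (b + A * s) (b + A * (s + 1)) (hy' s hs') (by linarith)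
    have h2 := hdiff s (s + 1)
    exact sub_pos.1 ((mul_pos_iff_of_pos_left hm).1 (by linarith))
  · have hs' : (n₀ : ℤ) ≤ s := by exact_mod_cast hs
    have h1 := hg.conv (b + A * s) A (hy' s hs') (by positivity)
    have h2 := hdiff s (s + 1)
    have h3 := hdiff (s + 1) (s + 2)
    rw [show (b : ℤ) + A * s + A = b + A * (s + 1) by ring,
      show (b : ℤ) + A * s + 2 * A = b + A * (s + 2) by ring] at h1
    exact le_of_mul_le_mul_left (by linarith) hm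
  · have h1 := hinc s (by exact_mod_cast hs) (by exact_mod_cast hs')
    rw [← hdiff] at h1
    rw [le_div_iff₀ hmR]
    have h2 : (G.eval (s + 1 : ℤ) - G.eval (s : ℤ)) * (lam * Lm) ≤ Δ := by linarith
    exact_mod_cast h2
  · rw [le_div_iff₀ hLR]
    have h1 := hdiff n₀ (n₀ + S)
    have h2 : lam * ((G.eval (n₀ + S : ℤ) - G.eval (n₀ : ℤ)) * Lm) ≤ lam * (2 * n) := by linarith
    exact_mod_cast le_of_mul_le_mul_left h2 (by linarith)
  · have h2 : (Δ : ℝ) * S ≤ 2 * Bh * (2 * (lam * n)) := by exact_mod_cast hΔ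
    rw [div_mul_eq_mul_div, div_le_iff₀ hmR]
    refine h2.trans (le_of_eq ?_)
    field_simp
  · have h2 : (n₀ + 1 : ℤ) * 1 ≤ (n₀ + 1) * S := by gcongr
    have h1 := arcs_up hg hA (s := n₀ + S) (t := (n₀ + 2) * S) (by linarith) (by linarith)
    rw [mul_assoc, ← mul_pow, mul_assoc]
    linarith
  · have h1 := hid (n₀ + S)
    exact le_of_mul_le_mul_left (by linarith) (by linarith : (0 : ℤ) < lam)
  · have h1 := hid n₀
    have h2 := arcs_up hg hA hn₀ le_rfl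
    have h3 : 0 ≤ Lm * G.eval (n₀ : ℤ) + c' :=
      le_of_mul_le_mul_left (by linarith) (by linarith : (0 : ℤ) < lam)
    linarith [le_mul_of_one_le_left h3 hlam']

/-- the function `φ` transported along `u` -/
noncomputable def arcsT (l : ℕ) (u : ℕ → ℕ) (φ : ℕ → ℝ) (x : ℕ) : ℝ :=
  ∑ s ∈ range l, if u s = x then φ s else 0

lemma arcsT_sum {l n : ℕ} {u : ℕ → ℕ} {φ : ℕ → ℝ} (hu : ∀ s < l, u s < n) (Ψ : ℕ → ℝ) :
    ∑ x ∈ range n, arcsT l u φ x * Ψ x = ∑ s ∈ range l, φ s * Ψ (u s) := by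
  simp only [arcsT, sum_mul, ite_mul, zero_mul]
  rw [sum_comm]
  refine sum_congr rfl fun s hs => ?_
  rw [sum_ite_eq, if_pos (mem_range.2 (hu s (mem_range.1 hs)))]

lemma arcsT_ne {l x : ℕ} {u : ℕ → ℕ} {φ : ℕ → ℝ} (h : arcsT l u φ x ≠ 0) :
    ∃ s < l, φ s ≠ 0 ∧ u s = x := by
  obtain ⟨s, hs, h1⟩ := exists_ne_zero_of_sum_ne_zero h
  by_cases h2 : u s = x
  · exact ⟨s, mem_range.1 hs, by simpa [h2] using h1, h2⟩
  · simp [h2] at h1

lemma arcsT_abs {l : ℕ} {u : ℕ → ℕ} {φ : ℕ → ℝ} (h1 : ∀ s, |φ s| ≤ 1)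
    (h2 : ∀ s s', φ s ≠ 0 → φ s' ≠ 0 → u s = u s' → s = s') (x : ℕ) : |arcsT l u φ x| ≤ 1 := by
  by_cases h : arcsT l u φ x = 0
  · simp [h]
  obtain ⟨s, hs, h3, rfl⟩ := arcsT_ne h
  rw [arcsT, sum_eq_single_of_mem s (mem_range.2 hs), if_pos rfl]
  · exact h1 s
  · intro s' _ hne
    split_ifs with h4
    · by_contra h5
      exact hne (h2 s' s h5 h3 h4)
    · rfl

lemma arcs_deg {h G : ℤ[X]} (hdeg : 1 ≤ h.natDegree) {m A b c : ℤ} (hm : m ≠ 0) (hA : A ≠ 0)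
    (hid : C m * G = h.comp (C b + C A * X) - C c) :
    G.natDegree ≤ h.natDegree ∧ m * G.coeff h.natDegree = h.leadingCoeff * A ^ h.natDegree := by
  have h1 : (C b + C A * X).natDegree = 1 := by rw [add_comm]; exact natDegree_linear hA
  have h2 : (C b + C A * X).leadingCoeff = A := by rw [add_comm]; exact leadingCoeff_linear hA
  have h3 : (h.comp (C b + C A * X)).natDegree = h.natDegree := by rw [natDegree_comp, h1, mul_one]
  constructor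
  · rw [← natDegree_C_mul hm, hid, natDegree_sub_C, h3]
  · rw [← coeff_C_mul, hid, coeff_sub, coeff_C_of_ne_zero (by omega), sub_zero]
    have h4 := leadingCoeff_comp (p := h) (q := C b + C A * X) (by omega)
    rwa [h2, leadingCoeff, h3] at h4

lemma arcs_size {Z j M k B n₀ A n : ℕ} (hZ : 2 ≤ Z) (hB : 4 * B ≤ Z ^ j) (hn₀ : n₀ + 1 ≤ Z ^ j)
    (hM : j ≤ M) (hA : A ≤ Z ^ 3) (hn : Z ^ (j + (M + 4) * k + 2) ≤ n) :
    4 * (B * (A * (n₀ + 1 + Z ^ M)) ^ k) < n := by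
  have h1 : Z ^ j ≤ Z ^ M := Nat.pow_le_pow_right (by omega) hM
  have h2 : n₀ + 1 + Z ^ M ≤ Z ^ M * Z := by nlinarith
  have h3 : A * (n₀ + 1 + Z ^ M) ≤ Z ^ (M + 4) :=
    (Nat.mul_le_mul hA h2).trans (le_of_eq (by ring))
  calc 4 * (B * (A * (n₀ + 1 + Z ^ M)) ^ k) = 4 * B * (A * (n₀ + 1 + Z ^ M)) ^ k := by ring
    _ ≤ Z ^ j * (Z ^ (M + 4)) ^ k := by gcongr
    _ = Z ^ (j + (M + 4) * k) := by rw [← pow_mul, ← pow_add]
    _ < Z ^ (j + (M + 4) * k + 2) := Nat.pow_lt_pow_right (by omega) (by omega)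
    _ ≤ n := hn

/-- the bilinear estimate with the archimedean hypotheses discharged -/
lemma arcs_core {h : ℤ[X]} (hdeg : 2 ≤ h.natDegree) (hlc : 0 < h.leadingCoeff) :
    ∃ K : ℕ, ∀ (B γ : ℝ) (w D : ℕ) (I : Finset (PI w D)) (G : ℤ[X])
      (ν κ : ∀ p : PI w D, Om w D p → ℝ) (lam Lm A b Z n : ℕ) (c' : ℤ) (F F' : ℕ → ℝ),
      Loc h.natDegree B γ w D I G ν κ → 1 ≤ lam → 1 ≤ Lm → b < A →
      C ((lam : ℤ) * Lm) * G = h.comp (C (b : ℤ) + C (A : ℤ) * X) - C (lam * c') →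
      2 ≤ Z → D ≤ Z → A ≤ Z ^ 3 → Lm ≤ Z ^ 2 → Z ^ K ≤ n → (∀ x, |F x| ≤ 1) → (∀ y, |F' y| ≤ 1) →
      (∀ x y : ℕ, F x * F' y ≠ 0 → ((n / 4 : ℕ) : ℤ) ≤ Lm * ((y : ℤ) - x) + c' ∧
        Lm * ((y : ℤ) - x) + c' < n ∧ ∀ s : ℕ, 1 ≤ s → (y : ℤ) - x ≠ G.eval (s : ℤ)) →
      |∑ x ∈ range (n / Lm + 1), ∑ y ∈ range (n / Lm + 1),
        F x * F' y * ker κ I D (red w D (y - x))| ≤
        K * ((n : ℝ) / Lm) ^ 2 * (D : ℝ) ^ (-(γ / 2)) := by
  obtain ⟨n₀, Bh, hg⟩ := exists_growth h hdeg hlc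
  obtain ⟨K₀, hK₀⟩ := bilinear h.natDegree
  obtain ⟨Bn, rfl⟩ := Int.eq_ofNat_of_zero_le (zero_le_one.trans hg.B_ge)
  obtain ⟨lc, hlc'⟩ := Int.eq_ofNat_of_zero_le hlc.le
  obtain ⟨j, hj⟩ : ∃ j, 4 * Bn + (n₀ + 1) + 2 * (Bn * (n₀ + 2) ^ h.natDegree) + lc ≤ 2 ^ j :=
    ⟨_, Nat.lt_two_pow_self.le⟩
  set k := h.natDegree with hk
  set M := (j + 3 * k + 1) * K₀ + j with hM
  refine ⟨j + (M + 4) * k + 2 + 8 * K₀ * Bn, ?_⟩
  intro B γ w D I G ν κ lam Lm A b Z n c' F F' hloc hlam hLm hA hid hZ hD hAZ hLZ hn hF hF' hs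
  have hZj : 2 ^ j ≤ Z ^ j := Nat.pow_le_pow_left hZ j
  have hn1 : Z ^ (j + (M + 4) * k + 2) ≤ n := (Nat.pow_le_pow_right (by omega) (by omega)).trans hn
  have hsz := arcs_size (B := Bn) (n₀ := n₀) hZ (by omega) (by omega) (by omega : j ≤ M) hAZ hn1
  have hZM : Z ^ j ≤ Z ^ M := Nat.pow_le_pow_right (by omega) (by omega)
  have hlam' : (1 : ℤ) ≤ lam := by exact_mod_cast hlam
  have hLm' : (1 : ℤ) ≤ Lm := by exact_mod_cast hLm
  have hA' : (0 : ℤ) < A := by exact_mod_cast (by omega : 0 < A)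
  obtain ⟨S, Δ, hTS, e1, e2, e3, e4, e5, e6, e7⟩ := arcs_arch hg hdeg (G := G) (n := n) (c' := c')
    (T := Z ^ M) hlam hLm hA (fun s => by
      have := congrArg (eval s) hid
      rw [eval_C_mul, eval_sub, eval_comp, eval_add, eval_C, eval_C_mul, eval_X, eval_C] at this
      linarith) (by exact_mod_cast (by omega : 4 * Bn ≤ Z ^ M))
    (by exact_mod_cast (by omega : Bn * (A * (n₀ + 1 + Z ^ M)) ^ k < n))
  obtain ⟨-, hco⟩ := arcs_deg (by omega) (by positivity) hA'.ne' hid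
  rw [← hk, hlc'] at hco
  have hAk : A ^ k ≤ Z ^ (3 * k) := by rw [pow_mul]; gcongr
  have hlc0 : (0 : ℤ) < lc := hlc' ▸ hlc
  have hc1 : 1 ≤ G.coeff k :=
    (mul_pos_iff_of_pos_left (by positivity : (0 : ℤ) < lam * Lm)).1 (by rw [hco]; positivity)
  have hc2 : G.coeff k ≤ (Z ^ (j + 3 * k) : ℕ) := by
    have h1 : lc * A ^ k ≤ Z ^ (j + 3 * k) := by rw [pow_add]; exact Nat.mul_le_mul (by omega) hAk
    have h2 : (lc : ℤ) * A ^ k ≤ (Z ^ (j + 3 * k) : ℕ) := by exact_mod_cast h1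
    have h3 : (1 : ℤ) ≤ lam * Lm := one_le_mul_of_one_le_of_one_le hlam' hLm'
    linarith [le_mul_of_one_le_left (by linarith : 0 ≤ G.coeff k) h3]
  have hLR : (1 : ℝ) ≤ Lm := by exact_mod_cast hLm
  have hBR : (1 : ℝ) ≤ Bn := by exact_mod_cast hg.B_ge
  have hLn : Lm ≤ n := hLZ.trans ((Nat.pow_le_pow_right (by omega) (by omega)).trans hn1)
  have key := hK₀ B γ w D I G ν κ (Z ^ (j + 3 * k) : ℕ) (2 * Bn) (2 * n / Lm) Δ n₀ S (n / Lm + 1)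
    F F' hloc hc1 (by exact_mod_cast hc2) (by linarith) e1 e2 e3 (by exact_mod_cast e4) ?_ ?_ ?_
    hF hF' ?_
  · refine key.trans ?_
    have : (0 : ℝ) ≤ (D : ℝ) ^ (-(γ / 2)) := by positivity
    refine mul_le_mul_of_nonneg_right ?_ this
    have h1 : ((8 * K₀ * Bn : ℕ) : ℝ) ≤ (j + (M + 4) * k + 2 + 8 * K₀ * Bn : ℕ) := by
      exact_mod_cast Nat.le_add_left _ _
    calc (K₀ : ℝ) * (2 * Bn) * (2 * n / Lm) ^ 2 = (8 * K₀ * Bn : ℕ) * ((n : ℝ) / Lm) ^ 2 := by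
          push_cast; ring
      _ ≤ _ := by gcongr
  · have h1 : n ≤ Bn * (A * (n₀ + 2)) ^ k * S ^ k := by exact_mod_cast e5
    have h2 : 2 * n ≤ Z ^ (j + 3 * k) * S ^ k := by
      calc 2 * n ≤ 2 * (Bn * (A * (n₀ + 2)) ^ k * S ^ k) := by omega
        _ = 2 * (Bn * (n₀ + 2) ^ k) * A ^ k * S ^ k := by rw [mul_pow]; ring
        _ ≤ Z ^ j * Z ^ (3 * k) * S ^ k := by gcongr; omega
        _ = _ := by rw [pow_add]
    have h3 : (2 * n : ℝ) ≤ (Z ^ (j + 3 * k) : ℕ) * (S : ℝ) ^ k := by exact_mod_cast h2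
    exact (div_le_self (by positivity) hLR).trans h3
  · have h1 : (Z ^ (j + 3 * k) * D) ^ K₀ ≤ S := by
      calc (Z ^ (j + 3 * k) * D) ^ K₀ ≤ (Z ^ (j + 3 * k) * Z) ^ K₀ := by gcongr
        _ = Z ^ ((j + 3 * k + 1) * K₀) := by rw [← pow_succ, ← pow_mul]
        _ ≤ Z ^ M := Nat.pow_le_pow_right (by omega) (by omega)
        _ ≤ S := hTS
    exact_mod_cast h1
  · have h1 : ((n / Lm : ℕ) : ℝ) ≤ n / Lm := Nat.cast_div_le
    have h2 : (1 : ℝ) ≤ n / Lm := (one_le_div (by linarith)).2 (by exact_mod_cast hLn)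
    push_cast
    rw [mul_div_assoc]
    linarith
  · intro x _ y _ hxy
    obtain ⟨a1, a2, a3⟩ := hs x y hxy
    refine ⟨?_, ?_, fun s hs => a3 s (hg.n₀_ge.trans hs)⟩
    · have h1 : Bn * (A * (n₀ + 1)) ^ k ≤ n / 4 := by
        have : Bn * (A * (n₀ + 1)) ^ k ≤ Bn * (A * (n₀ + 1 + Z ^ M)) ^ k :=
          Nat.mul_le_mul_left _ (Nat.pow_le_pow_left (Nat.mul_le_mul_left _ (by omega)) _)
        omega
      have h2 : (Bn : ℤ) * (A * (n₀ + 1)) ^ k ≤ (n / 4 : ℕ) := by exact_mod_cast h1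
      exact le_of_mul_le_mul_left (by linarith) (by linarith : (0 : ℤ) < Lm)
    · exact lt_of_mul_lt_mul_left (by linarith) (by linarith : (0 : ℤ) ≤ Lm)

open Classical in
/-- the restriction of `f` to the terms of the progression lying over `z` -/
noncomputable def arcsR {w D : ℕ} (S : Finset (PI w D)) (z : ∀ p, Om w D p) (a L : ℕ) (f : ℕ → ℝ)
    (s : ℕ) : ℝ :=
  if ∀ i ∈ S, red w D (a + L * s) i = z i then f s else 0

lemma arcs_dl {w D : ℕ} (S : Finset (PI w D)) (z : ∀ p, Om w D p) (a L : ℕ) (f : ℕ → ℝ) (s : ℕ) :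
    f s * dl S (red w D (a + L * s)) z = sz (Om w D) S * arcsR S z a L f s := by
  classical
  rw [dl, prod_ite_zero, arcsR, sz]
  split_ifs
  · push_cast; ring
  · simp

lemma arcs_form {w D : ℕ} (S : Finset (PI w D)) (z z' : ∀ p, Om w D p) (a a' L l l' : ℕ)
    (f f' : ℕ → ℝ) (Ψ : (∀ p, Om w D p) → ℝ) :
    𝔼 x, 𝔼 y, push w D f l a L x * dl S x z * (push w D f' l' a' L y * dl S y z') * Ψ (y - x) =
      (sz (Om w D) S : ℝ) ^ 2 / (l * l') * ∑ s ∈ range l, ∑ s' ∈ range l',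
        arcsR S z a L f s * arcsR S z' a' L f' s' *
          Ψ (red w D (a' + L * s') - red w D (a + L * s)) := by
  have h1 : ∀ x, 𝔼 y, push w D f l a L x * dl S x z * (push w D f' l' a' L y * dl S y z') *
      Ψ (y - x) = push w D f l a L x * (dl S x z * ((∑ s' ∈ range l', f' s' *
        (dl S (red w D (a' + L * s')) z' * Ψ (red w D (a' + L * s') - x))) / l')) := by
    intro x
    rw [← expect_push f' l' a' L fun y => dl S y z' * Ψ (y - x), ← mul_assoc, mul_expect]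
    exact expect_congr rfl fun y _ => by ring
  rw [expect_congr rfl fun x _ => h1 x, expect_push, sum_div, mul_sum]
  refine sum_congr rfl fun s _ => ?_
  rw [← mul_assoc, arcs_dl, sum_div, mul_sum, sum_div, mul_sum]
  refine sum_congr rfl fun s' _ => ?_
  rw [← mul_assoc (f' s'), arcs_dl]
  ring

lemma arcsR_ne {w D : ℕ} {S : Finset (PI w D)} {z : ∀ p, Om w D p} {a L : ℕ} {f : ℕ → ℝ} {s : ℕ}
    (h : arcsR S z a L f s ≠ 0) :
    f s ≠ 0 ∧ ∀ i ∈ S, (((a + L * s : ℕ) : ℤ) : ZMod i.1) = z i := by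
  rw [arcsR] at h
  split_ifs at h with h1
  · exact ⟨h, fun i hi => by simpa [red] using h1 i hi⟩
  · exact absurd rfl h

lemma arcsR_abs {w D : ℕ} {S : Finset (PI w D)} {z : ∀ p, Om w D p} {a L : ℕ} {f : ℕ → ℝ}
    (h : ∀ s, |f s| ≤ 1) (s : ℕ) : |arcsR S z a L f s| ≤ 1 := by
  rw [arcsR]
  split_ifs
  · exact h s
  · simp

lemma arcs_prime {w D : ℕ} (p : PI w D) : p.1.Prime ∧ w < p.1 :=
  ⟨(mem_filter.1 p.2).2, (mem_Ioc.1 (mem_filter.1 p.2).1).1⟩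

lemma arcs_sz {w D : ℕ} (S : Finset (PI w D)) : sz (Om w D) S = ∏ i ∈ S, i.1 :=
  prod_congr rfl fun i _ => card_Om i

lemma arcs_ndvd {w e p : ℕ} (hp : p.Prime) (hw : w < p) : ¬ p ∣ Wm w e := fun h =>
  absurd (hp.dvd_primorial_iff.1 (hp.dvd_of_dvd_pow h)) (not_le.2 hw)

/-- all the terms over `z` lie in one residue class -/
lemma arcs_class {w D e : ℕ} {S : Finset (PI w D)} {z : ∀ p, Om w D p} {a L E : ℕ} {f : ℕ → ℝ}
    (hE : E ∣ Wm w e) (hL : Wm w e ^ 2 ∣ L) {s₀ s : ℕ} (h₀ : arcsR S z a L f s₀ ≠ 0)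
    (h : arcsR S z a L f s ≠ 0) :
    (a + L * s) % (Wm w e * E * ∏ i ∈ S, i.1) = (a + L * s₀) % (Wm w e * E * ∏ i ∈ S, i.1) := by
  refine (Nat.modEq_iff_dvd (n := Wm w e * E * ∏ i ∈ S, i.1)).2 ?_
  have h1 : Wm w e * E ∣ L := (sq (Wm w e) ▸ Nat.mul_dvd_mul_left _ hE).trans hL
  have h2 : ∀ i ∈ S, IsCoprime ((Wm w e * E : ℕ) : ℤ) (i.1 : ℤ) := fun i _ =>
    Nat.isCoprime_iff_coprime.2 ((Nat.Prime.coprime_iff_not_dvd (arcs_prime i).1).2 fun hd =>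
      arcs_ndvd (arcs_prime i).1 (arcs_prime i).2
        (((arcs_prime i).1.dvd_mul.1 hd).elim id fun h => h.trans hE)).symm
  rw [Nat.cast_mul, Nat.cast_prod]
  refine (IsCoprime.prod_right h2).mul_dvd ?_ ?_
  · have : ((a + L * s₀ : ℕ) : ℤ) - (a + L * s : ℕ) = L * (s₀ - s) := by push_cast; ring
    rw [this]
    exact (Int.natCast_dvd_natCast.2 h1).mul_right _
  · refine Finset.prod_dvd_of_coprime (fun p _ q _ hpq => ?_) fun p hp => ?_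
    · exact Nat.isCoprime_iff_coprime.2 ((Nat.coprime_primes (arcs_prime p).1 (arcs_prime q).1).2
        fun h => hpq (Subtype.ext h))
    · exact (ZMod.intCast_eq_intCast_iff_dvd_sub _ _ _).1
        (((arcsR_ne h).2 p hp).trans ((arcsR_ne h₀).2 p hp).symm)

lemma arcs_fin {q Lm n L l l' K K' : ℕ} {V β : ℝ} (hβ : 0 ≤ β) (hq : q ≤ Lm) (hLm : 1 ≤ Lm)
    (hn : 1 ≤ n) (h1 : n ≤ 4 * L * l) (h2 : n ≤ 4 * L * l') (hK : 16 * K ≤ K')
    (hV : |V| ≤ K * ((n : ℝ) / Lm) ^ 2 * β) :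
    |(q : ℝ) ^ 2 / (l * l') * V| ≤ K' * (L : ℝ) ^ 2 * β := by
  have hl : (0 : ℝ) < l := by
    have : l ≠ 0 := by rintro rfl; omega
    positivity
  have hl' : (0 : ℝ) < l' := by
    have : l' ≠ 0 := by rintro rfl; omega
    positivity
  have hLR : (0 : ℝ) < Lm := by exact_mod_cast hLm
  have h3 : (n : ℝ) * n ≤ (4 * L * l) * (4 * L * l') := by exact_mod_cast Nat.mul_le_mul h1 h2
  have h4 : (16 * K : ℝ) ≤ K' := by exact_mod_cast hK
  have h5 : (q : ℝ) ≤ Lm := by exact_mod_cast hq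
  rw [abs_mul, abs_of_nonneg (by positivity)]
  calc (q : ℝ) ^ 2 / (l * l') * |V| ≤ (Lm : ℝ) ^ 2 / (l * l') * (K * ((n : ℝ) / Lm) ^ 2 * β) := by
        gcongr
    _ = K * (n * n) / (l * l') * β := by field_simp
    _ ≤ K * ((4 * L * l) * (4 * L * l')) / (l * l') * β := by gcongr
    _ = 16 * K * L ^ 2 * β := by field_simp; ring
    _ ≤ _ := by gcongr

theorem arcs_small {h : ℤ[X]} (hdeg : 2 ≤ h.natDegree) (hlc : 0 < h.leadingCoeff)
    {g : ℕ → ℤ[X]} {lam r : ℕ → ℕ} {e w₀ : ℕ} (hF : Fam h g lam r e w₀) :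
    ∃ K : ℕ, ∀ (B γ : ℝ) (w D d L : ℕ), 1 ≤ B → 0 < γ → γ ≤ 1 / 2 ^ h.natDegree → w₀ ≤ w →
      2 * h.natDegree ≤ w → 6 * h.natDegree * B ≤ (w : ℝ) ^ (γ / 2) → w ≤ D → 1 ≤ d → 1 ≤ L →
      Wm w e ^ 2 ∣ L → ∃ c < L, ∀ (A : Set ℕ) (Z n a a' l l' : ℕ) (f f' : ℕ → ℝ)
        (κ : ∀ p : PI w D, Om w D p → ℝ) (S : Finset (PI w D)) (z z' : ∀ p, Om w D p),
        Free (g d) A → d ≤ Z → D ≤ Z → L ≤ Z → sz (Om w D) S ≤ Z → Z ^ K ≤ n →
        (L : ℤ) ∣ (c : ℤ) - (a' - a) → n ≤ 4 * L * l → n ≤ 4 * L * l' →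
        (∀ s' < l', a' + L * s' < n) → (∀ s < l, ∀ s' : ℕ, a + L * s + n / 4 ≤ a' + L * s') →
        (∀ s, |f s| ≤ 1 ∧ (f s ≠ 0 → a + L * s ∈ A)) →
        (∀ s, |f' s| ≤ 1 ∧ (f' s ≠ 0 → a' + L * s ∈ A)) →
        (∀ p t, 0 ≤ κ p t ∧ κ p t ≤ B * alpha (g d) p.1 t) → (∀ p, 𝔼 t, κ p t = 1) →
        (∀ (p : PI w D) (b : ℤ), ¬ (p.1 : ℤ) ∣ b →
          ‖avg p.1 fun t => (κ p t : ℂ) * ee (b * t / p.1)‖ ≤ B * (p.1 : ℝ) ^ (-γ)) →
        (∀ p ∈ S, alpha (g d) p.1 (z' p - z p) ≠ 0) →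
        |𝔼 x, 𝔼 y, push w D f l a L x * dl S x z * (push w D f' l' a' L y * dl S y z') *
          ker κ Sᶜ D (y - x)| ≤ K * (L : ℝ) ^ 2 * (D : ℝ) ^ (-(γ / 2)) := by
  classical
  obtain ⟨K, hK⟩ := arcs_core hdeg hlc
  refine ⟨16 * K + 2, fun B γ w D d L hB hγ hγ' hw₀ hw hw' hD hd hL hWL => ?_⟩
  obtain ⟨c₀, E, hE1, hE2, hlin⟩ := exists_linear (g d) w e fun p hp _ => hF.small d hd p hp
  have hL' : (0 : ℤ) < L := by exact_mod_cast hL
  obtain ⟨c, hc⟩ := Int.eq_ofNat_of_zero_le (Int.emod_nonneg c₀ hL'.ne')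
  refine ⟨c, by exact_mod_cast hc ▸ Int.emod_lt_of_pos c₀ hL', ?_⟩
  intro A Z n a a' l l' f f' κ S z z' hA hdZ hDZ hLZ hSZ hn hca hl hl' hlt hsep hf hf' hκ hmean
    hfour hα
  have hZ : 2 ≤ Z := by omega
  have hn4 : 4 ≤ n := (Nat.pow_le_pow_left hZ 2).trans
    ((Nat.pow_le_pow_right (by omega) (by omega)).trans hn)
  have hβ : (0 : ℝ) ≤ (D : ℝ) ^ (-(γ / 2)) := by positivity
  rw [arcs_form]
  rw [arcs_sz] at hSZ ⊢
  by_cases h0 : (∀ s, arcsR S z a L f s = 0) ∨ ∀ s, arcsR S z' a' L f' s = 0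
  · rcases h0 with h0 | h0 <;> simp only [h0, zero_mul, mul_zero, sum_const_zero, abs_zero] <;>
      positivity
  push Not at h0
  obtain ⟨⟨s₀, hs₀⟩, s₀', hs₀'⟩ := h0
  obtain ⟨q, hq⟩ : ∃ q, q = ∏ i ∈ S, i.1 := ⟨_, rfl⟩
  obtain ⟨W, hW⟩ : ∃ W, W = Wm w e := ⟨_, rfl⟩
  have hcl := fun s => arcs_class (s := s) hE2 hWL hs₀
  have hcl' := fun s => arcs_class (s := s) hE2 hWL hs₀'
  have hqP : ∏ p ∈ S.image (fun i : PI w D => i.1), p = q :=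
    (prod_image (g := fun i : PI w D => i.1) (f := fun p => p)
      fun _ _ _ _ h => Subtype.ext h).trans hq.symm
  have hq1 : 1 ≤ q := hq ▸ prod_pos fun i _ => (arcs_prime i).1.pos
  have hW1 : 1 ≤ W := hW ▸ pow_pos (primorial_pos w) e
  have hnd : ∀ p : ℕ, p.Prime → w < p → (∀ i ∈ S, i.1 ≠ p) → ¬ p ∣ W ∧ ¬ p ∣ E ∧ ¬ p ∣ q := by
    intro p hp hwp hS
    refine ⟨hW ▸ arcs_ndvd hp hwp, fun h => arcs_ndvd hp hwp (h.trans hE2), fun h => ?_⟩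
    obtain ⟨i, hi, hpi⟩ := (Prime.dvd_finsetProd_iff hp.prime _).1 (hq ▸ h)
    exact hS i hi ((Nat.prime_dvd_prime_iff_eq hp (arcs_prime i).1).1 hpi).symm
  rw [← hq] at hSZ hcl hcl' ⊢
  rw [← hW] at hE2 hlin hWL hcl hcl'
  obtain ⟨Lm, hLm⟩ : ∃ Lm, Lm = W * E * q := ⟨_, rfl⟩
  rw [← hLm] at hcl hcl'
  have hLm1 : 1 ≤ Lm := hLm ▸ Nat.mul_pos (Nat.mul_pos hW1 hE1) hq1
  have hWE : W * E ∣ L := (sq W ▸ Nat.mul_dvd_mul_left _ hE2).trans hWL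
  obtain ⟨ρ, hρ⟩ : ∃ ρ, ρ = (a + L * s₀) % Lm := ⟨_, rfl⟩
  obtain ⟨ρ', hρ'⟩ : ∃ ρ', ρ' = (a' + L * s₀') % Lm := ⟨_, rfl⟩
  have hx : ∀ s, arcsR S z a L f s ≠ 0 → (a : ℤ) + L * s = ρ + Lm * ((a + L * s) / Lm : ℕ) := by
    intro s hs
    rw [hρ, ← hcl s hs]; exact_mod_cast (Nat.mod_add_div _ _).symm
  have hy : ∀ s, arcsR S z' a' L f' s ≠ 0 →
      (a' : ℤ) + L * s = ρ' + Lm * ((a' + L * s) / Lm : ℕ) := by
    intro s hs
    rw [hρ', ← hcl' s hs]; exact_mod_cast (Nat.mod_add_div _ _).symm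
  have ht : ∀ p ∈ S.image (fun i : PI w D => i.1), ∃ t : ℤ, ¬ (p : ℤ) ∣ (derivative (g d)).eval t ∧
      (p : ℤ) ∣ (g d).eval t - (ρ' - ρ) := by
    intro p hp
    obtain ⟨i, hi, rfl⟩ := mem_image.1 hp
    obtain ⟨τ, h1, h2⟩ := alpha_ne_zero (hα i hi)
    obtain ⟨t, rfl⟩ := ZMod.intCast_surjective τ
    rw [arcs_aeval] at h1 h2
    refine ⟨t, fun h => h1 ((ZMod.intCast_zmod_eq_zero_iff_dvd _ _).2 h),
      (ZMod.intCast_eq_intCast_iff_dvd_sub _ _ _).1 ?_⟩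
    have h3 : (Lm : ZMod i.1) = 0 := (ZMod.natCast_eq_zero_iff _ _).2
      (hLm ▸ (hq ▸ dvd_prod_of_mem (fun i : PI w D => i.1) hi).mul_left _)
    have h4 := (arcsR_ne hs₀).2 i hi
    have h5 := (arcsR_ne hs₀').2 i hi
    rw [Nat.cast_add, Nat.cast_mul, hx s₀ hs₀] at h4
    rw [Nat.cast_add, Nat.cast_mul, hy s₀' hs₀'] at h5
    rw [h2, ← h4, ← h5]
    simp only [Int.cast_add, Int.cast_mul, Int.cast_sub, Int.cast_natCast, h3, zero_mul, add_zero]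
  choose! t ht using ht
  obtain ⟨t₁, G, ht₁, hG, hGl⟩ := hlin (S.image (fun i : PI w D => i.1)) t (ρ' - ρ) (fun p hp => by
    obtain ⟨i, -, rfl⟩ := mem_image.1 hp
    exact ⟨(arcs_prime i).1, (arcs_prime i).2, ht _ hp⟩) (by
    obtain ⟨u, hu⟩ := Int.natCast_dvd_natCast.2 hWE
    obtain ⟨v, hv⟩ := hca
    have h1 := hx s₀ hs₀
    have h2 := hy s₀' hs₀'
    have h3 := Int.emod_add_mul_ediv c₀ L
    have h4 : (Lm : ℤ) = (W * E : ℕ) * q := by exact_mod_cast hLm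
    refine ⟨u * (c₀ / L + v - s₀' + s₀) +
      q * (((a' + L * s₀') / Lm : ℕ) - ((a + L * s₀) / Lm : ℕ)), ?_⟩
    linear_combination h2 - h1 - h3 + hc + hv + (c₀ / L + v - s₀' + s₀) * hu +
      ((((a' + L * s₀') / Lm : ℕ) : ℤ) - ((a + L * s₀) / Lm : ℕ)) * h4)
  rw [hqP] at ht₁ hG
  rw [← hLm] at hG
  obtain ⟨hr, hgd⟩ := hF.expl d hd
  have hlam : 1 ≤ lam d := Nat.pos_of_dvd_of_pos (hF.dvd d hd).2 (pow_pos hd _)
  have hlam' : (lam d : ℤ) ≠ 0 := by exact_mod_cast (by omega : lam d ≠ 0)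
  have hid : C ((lam d : ℤ) * Lm) * G = h.comp (C ((r d + d * t₁ : ℕ) : ℤ) +
      C ((d * (W * q) : ℕ) : ℤ) * X) - C (lam d * ((ρ' : ℤ) - ρ)) := by
    have := congrArg (fun P => P.comp (C (t₁ : ℤ) + C ((W * q : ℕ) : ℤ) * X)) hgd
    simp only [mul_comp, C_comp, comp_assoc, add_comp, X_comp] at this
    rw [C_mul, mul_assoc, hG, mul_sub, this, ← C_mul]
    congr 2
    push_cast
    simp only [C_add, C_mul]
    ring
  have hbA : r d + d * t₁ < d * (W * q) := by nlinarith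
  have hdg := (arcs_deg (h := h) (A := d) (b := r d) (c := 0) (by omega) hlam'
    (by exact_mod_cast (by omega : d ≠ 0)) (hgd.trans (by rw [C_0, sub_zero]))).1
  have hdG := (arcs_deg (by omega) (mul_ne_zero hlam' (by exact_mod_cast (by omega : Lm ≠ 0)))
    (by exact_mod_cast (by omega : d * (W * q) ≠ 0)) hid).1
  obtain ⟨ν, hν⟩ := arcs_loc (S := S) (by omega) hB hγ hγ' hw hw' hD hdg hdG hG
    (fun p hp hwp => hF.large d hd p hp (by omega)) (fun p hp hwp hS => by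
      obtain ⟨h1, h2, h3⟩ := hnd p hp hwp hS
      simp only [Int.natCast_dvd_natCast, hLm, hp.dvd_mul, h1, h2, h3, or_self, not_false_eq_true,
        and_self])
    (fun p hp hpS => hGl p hp (hpS.imp_right fun ⟨i, hi, h⟩ => mem_image.2 ⟨i, hi, h⟩))
    hκ hmean hfour
  have hWZ : W ≤ Z := ((Nat.le_of_dvd hL ((dvd_pow_self W two_ne_zero).trans hWL))).trans hLZ
  have hl0 : 0 < l' := Nat.pos_of_ne_zero (by rintro rfl; omega)
  have key := hK _ γ w D Sᶜ G ν _ (lam d) Lm _ _ Z n _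
    (arcsT l (fun s => (a + L * s) / Lm) (arcsR S z a L f))
    (arcsT l' (fun s => (a' + L * s) / Lm) (arcsR S z' a' L f')) hν hlam hLm1 hbA hid hZ hDZ
    ((Nat.mul_le_mul hdZ (Nat.mul_le_mul hWZ hSZ)).trans (le_of_eq (by ring)))
    (hLm ▸ (Nat.mul_le_mul ((Nat.le_of_dvd hL hWE).trans hLZ) hSZ).trans (le_of_eq (by ring)))
    ((Nat.pow_le_pow_right (by omega) (by omega)).trans hn)
    (arcsT_abs (arcsR_abs fun s => (hf s).1) fun s s' h1 h2 h3 => ?_)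
    (arcsT_abs (arcsR_abs fun s => (hf' s).1) fun s s' h1 h2 h3 => ?_) ?_
  · refine arcs_fin hβ (hLm ▸ Nat.le_mul_of_pos_left _ (Nat.mul_pos hW1 hE1)) hLm1 (by omega) hl hl'
      (by omega) (le_of_eq_of_le (congrArg _ ?_) key)
    simp only [mul_assoc, ← mul_sum]
    rw [arcsT_sum fun s hs => Nat.lt_succ_of_le (Nat.div_le_div_right (by
      have := hsep s hs 0
      have := hlt 0 hl0
      omega))]
    refine sum_congr rfl fun s _ => ?_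
    by_cases h1 : arcsR S z a L f s = 0
    · simp [h1]
    rw [arcsT_sum fun s hs => Nat.lt_succ_of_le (Nat.div_le_div_right (hlt s hs).le)]
    congr 1
    refine sum_congr rfl fun s' _ => ?_
    by_cases h2 : arcsR S z' a' L f' s' = 0
    · simp [h2]
    congr 1
    refine sum_congr rfl fun T _ => prod_congr rfl fun i _ => ?_
    congr 2
    rw [hx s h1, hy s' h2]
    simp only [red, Pi.sub_apply, Int.cast_add, Int.cast_mul, Int.cast_sub]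
    ring
  · have := hx s h1
    rw [h3, ← hx s' h2] at this
    exact_mod_cast mul_left_cancel₀ hL'.ne' (add_left_cancel this)
  · have := hy s h1
    rw [h3, ← hy s' h2] at this
    exact_mod_cast mul_left_cancel₀ hL'.ne' (add_left_cancel this)
  · intro x y hxy
    obtain ⟨s, hs, h1, rfl⟩ := arcsT_ne (left_ne_zero_of_mul hxy)
    obtain ⟨s', hs', h2, rfl⟩ := arcsT_ne (right_ne_zero_of_mul hxy)
    have h3 := hx s h1
    have h4 := hy s' h2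
    have h5 : ((a + L * s + n / 4 : ℕ) : ℤ) ≤ (a' + L * s' : ℕ) := by exact_mod_cast hsep s hs s'
    have h6 : ((a' + L * s' : ℕ) : ℤ) < n := by exact_mod_cast hlt s' hs'
    have h7 : (0 : ℤ) ≤ (a + L * s : ℕ) := by positivity
    have h8 : (1 : ℤ) ≤ (n / 4 : ℕ) := by exact_mod_cast (by omega : 1 ≤ n / 4)
    simp only [Nat.cast_add, Nat.cast_mul] at h5 h6 h7
    refine ⟨by linarith, by linarith, fun m hm he => ?_⟩
    have h9 := congrArg (eval (m : ℤ)) hG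
    rw [eval_C_mul, eval_sub, eval_comp, eval_add, eval_C, eval_C_mul, eval_X, eval_C, ← he] at h9
    have h10 := hA _ ((hf s).2 (arcsR_ne h1).1) _ ((hf' s').2 (arcsR_ne h2).1) (t₁ + W * q * m)
      (le_add_left (Nat.mul_pos (Nat.mul_pos hW1 hq1) hm))
    simp only [Nat.cast_add, Nat.cast_mul] at h9 h10
    have h11 := h10 (by linarith)
    linarith

end Vale.Agent.P042U
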