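import Vale.Agent.P042U.IntDefs

/-! Functions on progressions seen in the product (task N). -/

namespace Vale.Agent.P042U

open Finset Polynomial
open scoped BigOperators

variable {w D : ℕ}

lemma push_prime (p : PI w D) : p.1.Prime := (mem_filter.1 p.2).2

lemma push_sz (T : Finset (PI w D)) : sz (Om w D) T = ∏ p ∈ T, p.1 :=
  prod_congr rfl fun p _ => card_Om p

lemma push_sz_pos (T : Finset (PI w D)) : 0 < sz (Om w D) T :=
  prod_pos fun _ _ => Fintype.card_pos

theorem sz_inj : Function.Injective (sz (Om w D)) := by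
  have h : ∀ T : Finset (PI w D),
      (sz (Om w D) T).primeFactors = T.map ⟨fun p => p.1, Subtype.val_injective⟩ := fun T => by
    rw [← Nat.primeFactors_prod (s := T.map _), prod_map, push_sz]
    · rfl
    · simp only [mem_map]
      rintro _ ⟨p, -, rfl⟩
      exact push_prime p
  intro S T hST
  exact map_injective _ (by rw [← h, ← h, hST])

theorem expect_push (f : ℕ → ℝ) (n : ℕ) (a b : ℤ) (Ψ : (∀ p, Om w D p) → ℝ) :
    𝔼 x, push w D f n a b x * Ψ x = (∑ s ∈ range n, f s * Ψ (red w D (a + b * s))) / n := by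
  have h : (Fintype.card (∀ p : PI w D, Om w D p) : ℝ) ≠ 0 := Nat.cast_ne_zero.2 Fintype.card_ne_zero
  simp only [Fintype.expect_eq_sum_div_card, push, mul_assoc, sum_mul, ← mul_sum]
  rw [sum_comm]
  simp only [ite_mul, zero_mul, sum_ite_eq', mem_univ, if_true]
  field_simp

theorem abs_push_le {f : ℕ → ℝ} (hf : ∀ s, |f s| ≤ 1) (n : ℕ) (a b : ℤ) (x : ∀ p, Om w D p) :
    |push w D f n a b x| ≤ push w D (fun _ => 1) n a b x := by
  simp only [push]
  rw [abs_mul, abs_of_nonneg (by positivity)]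
  refine mul_le_mul_of_nonneg_left ((abs_sum_le_sum_abs _ _).trans (sum_le_sum fun s _ => ?_))
    (by positivity)
  split_ifs
  exacts [hf s, abs_zero.le]

lemma push_expect_dep {ι : Type} [Fintype ι] [DecidableEq ι] {Ω : ι → Type} [∀ i, Fintype (Ω i)]
    [∀ i, AddCommGroup (Ω i)] (T : Finset ι) {Ψ : (∀ i, Ω i) → ℝ} (h : DepOn T Ψ) :
    𝔼 x, Ψ x = 𝔼 z : ∀ i : {i // i ∈ T}, Ω i, Ψ fun i => if h : i ∈ T then z ⟨i, h⟩ else 0 := by
  rw [← Fintype.expect_equiv (Equiv.piEquivPiSubtypeProd (· ∈ T) Ω).symm _ Ψ fun _ => rfl,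
    ← univ_product_univ, expect_product]
  refine expect_congr rfl fun z _ => ?_
  exact (expect_congr rfl fun y _ => h _ _ fun i hi => by simp [hi]).trans
    (expect_const univ_nonempty _)

lemma push_crt (a : ℤ) {b : ℤ} (hb : ∀ p : PI w D, ¬ (p.1 : ℤ) ∣ b) (T : Finset (PI w D))
    {Ψ : (∀ p, Om w D p) → ℝ} (h : DepOn T Ψ) :
    ∑ s ∈ range (sz (Om w D) T), Ψ (red w D (a + b * s)) = sz (Om w D) T * 𝔼 x, Ψ x := by
  have hc : Fintype.card (∀ i : {i // i ∈ T}, Om w D i) = sz (Om w D) T := by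
    rw [Fintype.card_pi, prod_coe_sort T fun i => Fintype.card (Om w D i), sz]
  have hb : Function.Bijective fun (s : Fin (sz (Om w D) T)) (i : {i // i ∈ T}) =>
      red w D (a + b * (s : ℕ)) i := by
    refine (Fintype.bijective_iff_injective_and_card _).2 ⟨fun s t hst => ?_, by simp [hc]⟩
    have h1 : ((sz (Om w D) T : ℕ) : ℤ) ∣ ((t : ℕ) : ℤ) - (s : ℕ) := by
      refine ((congrArg Nat.cast (push_sz T)).trans (Nat.cast_prod _ _)).dvd.trans <| prod_dvd_of_coprime (fun p _ q _ hpq => Nat.isCoprime_iff_coprime.2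
        ((Nat.coprime_primes (push_prime p) (push_prime q)).2 fun e => hpq (Subtype.ext e)))
        fun p hp => ?_
      have := (ZMod.intCast_eq_intCast_iff_dvd_sub _ _ _).1 (congrFun hst ⟨p, hp⟩)
      rw [add_sub_add_left_eq_sub, ← mul_sub] at this
      exact ((Nat.prime_iff_prime_int.1 (push_prime p)).dvd_or_dvd this).resolve_left (hb p)
    exact Fin.ext (Nat.ModEq.eq_of_lt_of_lt (Nat.modEq_iff_dvd.2 h1) s.2 t.2)
  rw [push_expect_dep T h, Fintype.expect_eq_sum_div_card, hc, mul_div_cancel₀ _ (by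
    exact_mod_cast (push_sz_pos T).ne'), ← hb.sum_comp, ← Fin.sum_univ_eq_sum_range
      fun s => Ψ (red w D (a + b * s))]
  exact sum_congr rfl fun s _ => h _ _ fun i hi => by simp [hi]

lemma push_crt_mul (a : ℤ) {b : ℤ} (hb : ∀ p : PI w D, ¬ (p.1 : ℤ) ∣ b) (T : Finset (PI w D))
    {Ψ : (∀ p, Om w D p) → ℝ} (h : DepOn T Ψ) (m : ℕ) :
    ∑ s ∈ range (sz (Om w D) T * m), Ψ (red w D (a + b * s)) =
      (sz (Om w D) T * m : ℕ) * 𝔼 x, Ψ x := by
  induction m with
  | zero => simp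
  | succ m ih =>
    have := push_crt (a + b * (sz (Om w D) T * m : ℕ)) hb T h
    simp only [add_assoc, ← mul_add, ← Nat.cast_add] at this
    rw [mul_add_one, sum_range_add, ih, this]
    push_cast
    ring

theorem pr_push {n : ℕ} (hn : 1 ≤ n) (a : ℤ) {b : ℤ} (hb : ∀ p : PI w D, ¬ (p.1 : ℤ) ∣ b)
    (Y : ℝ) : PR (push w D (fun _ => 1) n a b) univ (2 * Y / n) Y := by
  refine ⟨fun x => (abs_nonneg _).trans (abs_push_le (f := fun _ => 1) (by simp) n a b x),
    fun T _ hT Ψ h => ?_⟩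
  have hn' : (0 : ℝ) < n := by exact_mod_cast hn
  obtain ⟨q, hq⟩ : ∃ q, q = sz (Om w D) T := ⟨_, rfl⟩
  have h0 : n % q ≤ q := (Nat.mod_lt _ (hq ▸ push_sz_pos T)).le
  have h1 := push_crt_mul a hb T h (n / q)
  have h2 := push_crt (a + b * (q * (n / q) : ℕ)) hb T (Ψ := fun x => |Ψ x|)
    fun x y hxy => by simp only [h x y hxy]
  have h3 : |𝔼 x, Ψ x| ≤ 𝔼 x, |Ψ x| := abs_expect_le _ _
  have h4 : 0 ≤ 𝔼 x, |Ψ x| := expect_nonneg fun _ _ => abs_nonneg _
  rw [← hq] at h1 h2 hT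
  have h5 : |∑ s ∈ range (n % q), Ψ (red w D (a + b * (q * (n / q) + s : ℕ)))| ≤ q * 𝔼 x, |Ψ x| := by
    rw [← h2]
    simp only [add_assoc, ← mul_add, ← Nat.cast_add]
    exact (abs_sum_le_sum_abs _ _).trans (sum_le_sum_of_subset_of_nonneg (range_mono h0)
      fun _ _ _ => abs_nonneg _)
  have h6 : ((n % q : ℕ) : ℝ) ≤ q := by exact_mod_cast h0
  have h7 : (n : ℝ) = (q * (n / q) : ℕ) + (n % q : ℕ) := by exact_mod_cast (Nat.div_add_mod n q).symm
  rw [expect_push, div_sub' hn'.ne', abs_div, abs_of_pos hn', div_mul_eq_mul_div]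
  refine div_le_div_of_nonneg_right ?_ hn'.le
  simp only [one_mul]
  rw [show range n = range (q * (n / q) + n % q) by rw [Nat.div_add_mod], sum_range_add, h1, h7,
    add_mul, add_sub_add_left_eq_sub]
  refine (abs_sub _ _).trans ?_
  rw [abs_mul, Nat.abs_cast]
  have := mul_le_mul h6 h3 (abs_nonneg _) (by positivity)
  nlinarith [mul_le_mul_of_nonneg_right hT h4]

lemma push_lt_iff {n L j s : ℕ} (hL : 1 ≤ L) : s < (n - j + L - 1) / L ↔ j + L * s < n := by
  rw [Nat.lt_iff_add_one_le, Nat.le_div_iff_mul_le hL, add_one_mul, mul_comm]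
  omega

lemma push_sum_split {M : Type*} [AddCommMonoid M] (F : ℕ → M) (n : ℕ) {L : ℕ} (hL : 1 ≤ L) :
    ∑ s ∈ range n, F s = ∑ j ∈ range L, ∑ s ∈ range ((n - j + L - 1) / L), F (j + L * s) := by
  rw [sum_sigma']
  refine sum_nbij' (fun s => ⟨s % L, s / L⟩) (fun i => i.1 + L * i.2) (fun s hs => ?_)
    (fun i hi => ?_) (fun s _ => Nat.mod_add_div s L) (fun i hi => ?_)
    fun s _ => by rw [Nat.mod_add_div]
  · simpa [push_lt_iff hL, Nat.mod_add_div, Nat.mod_lt s hL] using hs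
  · simp only [mem_sigma, mem_range, push_lt_iff hL] at hi ⊢
    exact hi.2
  · simp only [mem_sigma, mem_range] at hi
    simp [Nat.add_mul_div_left _ _ hL, Nat.mod_eq_of_lt hi.1, Nat.div_eq_of_lt hi.1]

lemma push_sum_pieces {M : Type*} [AddCommMonoid M] (F : ℕ → M) (n : ℕ) {L : ℕ} (hL : 1 ≤ L) :
    ∑ s ∈ range n, F s =
      ∑ i ∈ range 3 ×ˢ range L, ∑ s ∈ range (ln n L i), F (st n L i + L * s) := by
  obtain ⟨m, hm⟩ : ∃ m, m = n / (3 * L) := ⟨_, rfl⟩
  have h1 : 3 * (L * m) ≤ n := by rw [hm, ← mul_assoc]; exact Nat.mul_div_le _ _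
  have h2 : ∀ j ∈ range L, (L * m - j + L - 1) / L = m := fun j hj => by
    refine eq_of_forall_lt_iff fun s => (push_lt_iff hL).trans ⟨fun h => ?_, fun h => ?_⟩
    · exact Nat.lt_of_mul_lt_mul_left (a := L) (by omega)
    · have := Nat.mul_le_mul_left L h
      rw [mem_range] at hj
      rw [Nat.mul_succ] at this
      omega
  have h3 : ∀ G : ℕ → M, ∑ s ∈ range (L * m), G s =
      ∑ j ∈ range L, ∑ s ∈ range m, G (j + L * s) := fun G => by
    rw [push_sum_split G _ hL]
    exact sum_congr rfl fun j hj => by rw [h2 j hj]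
  rw [show range n = range (L * m + L * m + (n - 2 * (L * m))) from congrArg _ (by omega),
    sum_range_add, sum_range_add, h3, h3, push_sum_split _ (n - _) hL, sum_product]
  simp [sum_range_succ, ln, st, ← hm, add_assoc, two_mul, Nat.sub_sub]

theorem pieces {n L : ℕ} (hL : 1 ≤ L) (hn : 24 * L ≤ n) :
    (∑ i ∈ range 3 ×ˢ range L, ln n L i = n) ∧
    (∀ i ∈ range 3 ×ˢ range L, n ≤ 4 * L * ln n L i ∧ 2 * L * ln n L i ≤ n ∧
      ∀ s < ln n L i, st n L i + L * s < n) ∧
    ∀ c < L, ∀ s < ln n L (0, 0), ∀ s' : ℕ, st n L (0, 0) + L * s + n / 4 ≤ st n L (2, c) + L * s' := by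
  obtain ⟨m, hm⟩ : ∃ m, m = n / (3 * L) := ⟨_, rfl⟩
  have h1 : 3 * (L * m) ≤ n := by rw [hm, ← mul_assoc]; exact Nat.mul_div_le _ _
  have h2 : n < 3 * (L * m) + 3 * L := by
    rw [hm, ← mul_assoc, ← Nat.mul_succ]
    exact Nat.lt_mul_div_succ _ (by omega)
  have h3 : L * 8 ≤ L * m :=
    Nat.mul_le_mul_left L (hm ▸ (Nat.le_div_iff_mul_le (by omega)).2 (by omega))
  refine ⟨by simpa using (push_sum_pieces (fun _ => (1 : ℕ)) n hL).symm, fun ⟨i, j⟩ hi => ?_,
    fun c _ s hs s' => ?_⟩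
  · simp only [mem_product, mem_range] at hi
    simp only [ln, st, ← hm, mul_assoc]
    split_ifs with h
    · refine ⟨by omega, by omega, fun s hs => ?_⟩
      have := Nat.mul_le_mul_left L hs
      have := Nat.mul_le_mul_right (L * m) (Nat.le_of_lt_succ h)
      rw [Nat.mul_succ] at *
      omega
    · obtain rfl : i = 2 := by omega
      have := Nat.mul_div_le (n - (2 * (L * m) + j) + L - 1) L
      have := Nat.lt_mul_div_succ (n - (2 * (L * m) + j) + L - 1) hL
      rw [mul_add_one] at this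
      exact ⟨by omega, by omega, fun s hs => (push_lt_iff hL).1 hs⟩
  · simp only [ln, st, ← hm, Nat.zero_lt_two, if_true] at hs ⊢
    have := Nat.mul_le_mul_left L hs
    rw [Nat.mul_succ] at this
    omega

lemma push_len (f : ℕ → ℝ) {l : ℕ} (hl : l ≠ 0) (n : ℕ) (a b : ℤ) (x : ∀ p, Om w D p) :
    (l : ℝ) / n * push w D f l a b x = (Fintype.card (∀ p : PI w D, Om w D p) : ℝ) / n *
      ∑ s ∈ range l, if x = red w D (a + b * s) then f s else 0 := by
  have : (l : ℝ) ≠ 0 := by exact_mod_cast hl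
  rw [push]
  field_simp

theorem push_split (f : ℕ → ℝ) {n L : ℕ} (hL : 1 ≤ L) (hn : 24 * L ≤ n) (x : ∀ p, Om w D p) :
    push w D f n 0 1 x = ∑ i ∈ range 3 ×ˢ range L, (ln n L i : ℝ) / n *
      push w D (fun s => f (st n L i + L * s)) (ln n L i) (st n L i) L x := by
  rw [push, push_sum_pieces _ n hL, mul_sum]
  refine sum_congr rfl fun i hi => ?_
  rw [push_len _ fun h => by have := ((pieces hL hn).2.1 i hi).1; rw [h] at this; omega]
  simp

lemma push_expect_dl {ι : Type} [Fintype ι] [DecidableEq ι] {Ω : ι → Type} [∀ i, Fintype (Ω i)]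
    [∀ i, DecidableEq (Ω i)] (S : Finset ι) (z : ∀ i, Ω i) : 𝔼 x, dl S x z = 1 := by
  have : ∀ i, Nonempty (Ω i) := fun i => ⟨z i⟩
  have h := prod_univ_sum (fun _ => univ) fun i (a : Ω i) =>
    if i ∈ S then if a = z i then (Fintype.card (Ω i) : ℝ) else 0 else 1
  simp only [Fintype.piFinset_univ, prod_ite_mem, univ_inter] at h
  rw [Fintype.expect_eq_sum_div_card, div_eq_one_iff_eq (Nat.cast_ne_zero.2
    Fintype.card_ne_zero), Fintype.card_pi, Nat.cast_prod]
  refine h.symm.trans (prod_congr rfl fun i _ => ?_)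
  split_ifs <;> simp

/-- a fibre of a progression is a combination of subprogressions -/
theorem fib_push (f : ℕ → ℝ) {n L : ℕ} (a : ℤ) {b : ℤ} (hb : ∀ p : PI w D, ¬ (p.1 : ℤ) ∣ b)
    (S : Finset (PI w D)) (hS : sz (Om w D) S ∣ L) (hL : 1 ≤ L) (hn : 2 * L ≤ n) (R : ℝ)
    (z : ∀ p, Om w D p) :
    ∃ (c : ℕ → ℝ) (l : ℕ → ℕ), (∀ j, 0 ≤ c j) ∧ ∑ j ∈ range L, c j ≤ 2 ∧
      (∀ j < L, n ≤ 2 * L * l j ∧ L * l j ≤ 2 * n) ∧
      fib S R (push w D f n a b) z = fun y => ∑ j ∈ range L, c j *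
        part (low (Om w D) Sᶜ R) (push w D (fun s => f (j + L * s)) (l j) (a + b * j) (b * L)) y := by
  have h0 : ∀ x, 0 ≤ dl S x z := fun x => prod_nonneg fun i _ => by positivity
  have hn' : (0 : ℝ) < n := by exact_mod_cast (by omega : 0 < n)
  have hL' : (0 : ℝ) < L := by exact_mod_cast hL
  have h1 : ∀ j < L, n ≤ 2 * L * ((n - j + L - 1) / L) ∧ L * ((n - j + L - 1) / L) ≤ 2 * n :=
    fun j hj => by
    have := Nat.mul_div_le (n - j + L - 1) L
    have := Nat.lt_mul_div_succ (n - j + L - 1) hL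
    rw [mul_add_one] at this
    rw [mul_assoc]
    omega
  have h2 : DepOn S fun x => dl S x z := fun x y h => prod_congr rfl fun i hi => by rw [h i hi]
  refine ⟨fun j => dl S (red w D (a + b * j)) z * (((n - j + L - 1) / L : ℕ) / n),
    fun j => (n - j + L - 1) / L, fun j => mul_nonneg (h0 _) (by positivity), ?_, h1, ?_⟩
  · obtain ⟨m, hm⟩ := hS
    have h3 := push_crt_mul a hb S h2 m
    rw [← hm, push_expect_dl, mul_one] at h3
    refine (sum_le_sum (g := fun j : ℕ => dl S (red w D (a + b * j)) z * (2 / L)) fun j hj =>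
      mul_le_mul_of_nonneg_left ?_ (h0 _)).trans (by rw [← sum_mul, h3]; field_simp; rfl)
    rw [div_le_div_iff₀ hn' hL', mul_comm]
    exact_mod_cast (h1 j (mem_range.1 hj)).2
  · have h3 : ∀ x, push w D f n a b x * dl S x z = ∑ j ∈ range L,
        dl S (red w D (a + b * j)) z * (((n - j + L - 1) / L : ℕ) / n) *
          push w D (fun s => f (j + L * s)) ((n - j + L - 1) / L) (a + b * j) (b * L) x := fun x => by
      rw [push, push_sum_split _ n hL, mul_sum, sum_mul]
      refine sum_congr rfl fun j hj => ?_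
      rw [mul_assoc (dl _ _ _), push_len _ fun h => by
        have := (h1 j (mem_range.1 hj)).1; rw [h] at this; omega, mul_comm (dl _ _ _), mul_assoc,
        mul_assoc, sum_mul, sum_mul]
      refine congrArg _ (sum_congr rfl fun s _ => ?_)
      rw [show a + b * (j + L * s : ℕ) = a + b * j + b * L * s by push_cast; ring]
      split_ifs with h
      · refine congrArg _ (h2 _ _ fun p hp => ?_)
        have : ((L : ℤ) : ZMod p.1) = 0 := by
          rw [Int.cast_natCast, ZMod.natCast_eq_zero_iff]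
          exact (push_sz S ▸ dvd_prod_of_mem (fun p : PI w D => p.1) hp).trans hS
        simp only [h, red, Int.cast_add, Int.cast_mul, this, mul_zero, zero_mul, add_zero]
      · simp
    ext y
    simp only [fib, part, ES, h3, sum_mul, expect_sum_comm, mul_sum, mul_expect, mul_assoc]
    exact sum_comm

end Vale.Agent.P042U
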