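import Vale.Agent.P042U.Weyl
import Vale.Agent.P042U.Abel
import Vale.Agent.P042U.Push

/-! Major and minor arc estimates for one periodic weight. -/

namespace Vale.Agent.P042U

open Finset Polynomial
open scoped BigOperators

/-- a convex increasing sequence with bounded steps -/
structure Cvx (g : ℕ → ℤ) (S : ℕ) (Δ X : ℝ) : Prop where
  mono : ∀ s, g s < g (s + 1)
  conv : ∀ s, g (s + 1) - g s ≤ g (s + 2) - g (s + 1)
  step : ∀ s < S, ((g (s + 1) - g s : ℤ) : ℝ) ≤ Δ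
  len : ((g S - g 0 : ℤ) : ℝ) ≤ X
  pos : 1 ≤ S

lemma Cvx.one_le {g : ℕ → ℤ} {S : ℕ} {Δ X : ℝ} (h : Cvx g S Δ X) : 1 ≤ Δ := by
  refine le_trans ?_ (h.step 0 h.pos)
  have := h.mono 0
  exact_mod_cast (by omega : (1 : ℤ) ≤ g (0 + 1) - g 0)

lemma Cvx.le {g : ℕ → ℤ} {S : ℕ} {Δ X : ℝ} (h : Cvx g S Δ X) (n : ℕ) : g 0 + n ≤ g n := by
  induction n with
  | zero => simp
  | succ n ih => have := h.mono n; push_cast; omega

lemma Cvx.strictMono {g : ℕ → ℤ} {S : ℕ} {Δ X : ℝ} (h : Cvx g S Δ X) : StrictMono g :=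
  strictMono_nat_of_lt_succ h.mono

lemma Cvx.le_len {g : ℕ → ℤ} {S : ℕ} {Δ X : ℝ} (h : Cvx g S Δ X) : (S : ℝ) ≤ X := by
  refine le_trans ?_ h.len
  have := h.le S
  exact_mod_cast (by omega : (S : ℤ) ≤ g S - g 0)

lemma bil_ee_diff (x y : ℝ) : ‖ee x - ee y‖ ≤ 7 * |x - y| := by
  have : ee x - ee y = ee y * (ee (x - y) - 1) := by
    rw [mul_sub, ← abel_ee_add]; simp
  rw [this, norm_mul, abel_ee_norm, one_mul]
  exact abel_ee_upper _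

lemma Cvx.abel {g : ℕ → ℤ} {S : ℕ} {Δ X : ℝ} (h : Cvx g S Δ X) (c : ℕ → ℂ) {Z β Q : ℝ}
    (hZ : ∀ n ≤ S, ‖∑ s ∈ range n, c s‖ ≤ Z) (hβ : |β| * X ≤ Q) :
    ‖∑ s ∈ range S, c s * (((g (s + 1) - g s : ℤ) : ℂ) * ee (β * g s))‖ ≤ Z * Δ * (2 + 7 * Q) := by
  have h1 := h.one_le
  have hn : ∀ s, ‖((g (s + 1) - g s : ℤ) : ℂ)‖ = ((g (s + 1) - g s : ℤ) : ℝ) := fun s => by
    rw [Complex.norm_intCast, abs_of_nonneg]
    exact_mod_cast (by have := h.mono s; omega : (0 : ℤ) ≤ g (s + 1) - g s)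
  refine (abel_bound c _ S hZ (B := Δ) (T := Δ * (1 + 7 * Q)) (fun s hs => ?_) (by linarith)
    ?_).trans_eq (by ring)
  · rw [norm_mul, abel_ee_norm, mul_one, hn]; exact h.step s hs
  obtain ⟨m, rfl⟩ : ∃ m, S = m + 1 := ⟨S - 1, by have := h.pos; omega⟩
  rw [Nat.add_sub_cancel]
  have h2 : ∀ s ∈ range m, ‖((g (s + 1 + 1) - g (s + 1) : ℤ) : ℂ) * ee (β * g (s + 1)) -
      ((g (s + 1) - g s : ℤ) : ℂ) * ee (β * g s)‖ ≤
      (((g (s + 1 + 1) - g (s + 1) : ℤ) : ℝ) - ((g (s + 1) - g s : ℤ) : ℝ)) +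
        7 * |β| * Δ * ((g (s + 1) : ℝ) - g s) := fun s hs => by
    have e : ((g (s + 1 + 1) - g (s + 1) : ℤ) : ℂ) * ee (β * g (s + 1)) -
        ((g (s + 1) - g s : ℤ) : ℂ) * ee (β * g s) =
        ((g (s + 1 + 1) - g (s + 1) - (g (s + 1) - g s) : ℤ) : ℂ) * ee (β * g (s + 1)) +
        ((g (s + 1) - g s : ℤ) : ℂ) * (ee (β * g (s + 1)) - ee (β * g s)) := by
      push_cast; ring
    have h3 : (0 : ℝ) ≤ (g (s + 1) : ℝ) - g s := by
      have := h.mono s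
      exact_mod_cast (by omega : (0 : ℤ) ≤ g (s + 1) - g s)
    rw [e]
    refine (norm_add_le _ _).trans (add_le_add ?_ ?_)
    · rw [norm_mul, abel_ee_norm, mul_one, Complex.norm_intCast, abs_of_nonneg]
      · push_cast; exact le_rfl
      · have : g (s + 1) - g s ≤ g (s + 1 + 1) - g (s + 1) := h.conv s
        exact_mod_cast (by omega : (0 : ℤ) ≤ g (s + 1 + 1) - g (s + 1) - (g (s + 1) - g s))
    · rw [norm_mul, hn]
      have h4 := bil_ee_diff (β * g (s + 1)) (β * g s)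
      rw [← mul_sub, abs_mul, abs_of_nonneg h3] at h4
      have h5 := h.step s (by have := mem_range.1 hs; omega)
      calc _ ≤ Δ * (7 * (|β| * ((g (s + 1) : ℝ) - g s))) :=
            mul_le_mul h5 h4 (norm_nonneg _) (by linarith)
        _ = _ := by ring
  refine (sum_le_sum h2).trans ?_
  rw [sum_add_distrib, ← mul_sum, sum_range_sub (fun s => ((g (s + 1) - g s : ℤ) : ℝ)),
    sum_range_sub (fun s => (g s : ℝ))]
  have h6 := h.step m (by omega)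
  have h7 : (0 : ℝ) ≤ ((g (0 + 1) - g 0 : ℤ) : ℝ) := by
    have := h.mono 0
    exact_mod_cast (by omega : (0 : ℤ) ≤ g (0 + 1) - g 0)
  have h8 : (g m : ℝ) - g 0 ≤ X := by
    refine le_trans ?_ h.len
    have := h.mono m
    exact_mod_cast (by omega : g m - g 0 ≤ g (m + 1) - g 0)
  have h9 : |β| * ((g m : ℝ) - g 0) ≤ Q := (mul_le_mul_of_nonneg_left h8 (abs_nonneg _)).trans hβ
  have h10 : Δ * (|β| * ((g m : ℝ) - g 0)) ≤ Δ * Q := mul_le_mul_of_nonneg_left h9 (by linarith)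
  nlinarith

lemma bil_Ico (f : ℤ → ℂ) (a b : ℤ) :
    ∑ d ∈ Ico a b, f d = ∑ s ∈ range (b - a).toNat, f (a + s) := by
  rw [Int.Ico_eq_finset_map, sum_map]
  rfl

lemma bil_avg_le {ψ : ℤ → ℂ} {M : ℕ} (hM : 1 ≤ M) {B : ℝ} (hB : ∀ s, ‖ψ s‖ ≤ B) :
    ‖avg M ψ‖ ≤ B := by
  have hM0 : (0 : ℝ) < M := Nat.cast_pos.2 hM
  rw [avg, norm_div, Complex.norm_natCast, div_le_iff₀' hM0]
  refine (norm_sum_le _ _).trans ((sum_le_card_nsmul _ _ B fun s _ => hB _).trans_eq ?_)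
  simp

lemma bil_model {ψ : ℤ → ℂ} {M : ℕ} (hM : 1 ≤ M) (hper : ∀ s, ψ (s + M) = ψ s) {B : ℝ}
    (hB : ∀ s, ‖ψ s‖ ≤ B) {a b : ℤ} {X β Q : ℝ} (hab : a ≤ b) (hX : ((b - a : ℤ) : ℝ) ≤ X)
    (hβ : |β| * X ≤ Q) :
    ‖∑ d ∈ Ico a b, ψ d * ee (β * d) - avg M ψ * ∑ d ∈ Ico a b, ee (β * d)‖ ≤
      2 * M * B * (1 + 7 * Q) := by
  rw [mul_sum, ← sum_sub_distrib, bil_Ico]
  simp only [← sub_mul]
  refine abel_bound (fun s => ψ (a + s) - avg M ψ) (fun s => ee (β * (a + s : ℤ))) _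
    (fun n _ => periodic_partial hM hper hB a n) (fun s _ => (abel_ee_norm _).le) zero_le_one ?_
  refine (sum_le_card_nsmul _ _ (7 * |β|) fun s _ => ?_).trans ?_
  · refine (bil_ee_diff _ _).trans_eq ?_
    congr 2
    push_cast; ring
  · rw [card_range, nsmul_eq_mul]
    have h1 : (((b - a).toNat - 1 : ℕ) : ℝ) ≤ X := by
      refine le_trans ?_ hX
      have : (((b - a).toNat - 1 : ℕ) : ℤ) ≤ b - a := by omega
      exact_mod_cast this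
    nlinarith [mul_le_mul_of_nonneg_left h1 (abs_nonneg β)]

lemma Cvx.major {g : ℕ → ℤ} {S : ℕ} {Δ X : ℝ} (h : Cvx g S Δ X) {ψ ψ' : ℤ → ℂ} {M : ℕ}
    (hM : 1 ≤ M) (hper : ∀ s, ψ (s + M) = ψ s) (hper' : ∀ s, ψ' (s + M) = ψ' s) {B : ℝ}
    (hB : ∀ s, ‖ψ s‖ ≤ B) (hB' : ∀ s, ‖ψ' s‖ ≤ B) (s₀ : ℤ) {β Q : ℝ} (hβ : |β| * X ≤ Q)
    (hQ : 1 ≤ Q) :
    ‖(∑ d ∈ Ico (g 0) (g S), ψ d * ee (β * d) -
        ∑ s ∈ range S, ψ' (s₀ + s) * (((g (s + 1) - g s : ℤ) : ℂ) * ee (β * g s))) -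
      (avg M ψ - avg M ψ') * ∑ d ∈ Ico (g 0) (g S), ee (β * d)‖ ≤ 41 * M * B * Q * Δ := by
  have h0 := h.one_le
  have hB0 : 0 ≤ B := (norm_nonneg _).trans (hB 0)
  have hM1 : (1 : ℝ) ≤ M := by exact_mod_cast hM
  have h1 := bil_model hM hper hB (h.strictMono.monotone S.zero_le) h.len hβ
  have h2 := h.abel (fun s => ψ' (s₀ + s) - avg M ψ')
    (fun n _ => periodic_partial hM hper' hB' s₀ n) hβ
  have h3 := telescope_geom g S (β := β) (fun s _ => (h.mono s).le) h.step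
  have h4 : 7 * |β| * Δ * ((g S - g 0 : ℤ) : ℝ) ≤ 7 * Δ * Q := by
    have := (mul_le_mul_of_nonneg_left h.len (abs_nonneg β)).trans hβ
    nlinarith
  have h5 := mul_le_mul (bil_avg_le hM hB') (h3.trans h4) (norm_nonneg _) hB0
  rw [← norm_mul] at h5
  simp only [sub_mul, sum_sub_distrib, ← mul_sum] at h2
  have h6 := (norm_sub_le _ _).trans (add_le_add ((norm_sub_le _ _).trans (add_le_add h1 h2)) h5)
  refine (le_of_eq ?_).trans (h6.trans ?_)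
  · congr 1; ring
  · have e1 : 0 ≤ M * B := by positivity
    have e2 : 1 + 7 * Q ≤ 8 * Q * Δ := by nlinarith
    have e3 : Δ * (2 + 7 * Q) ≤ 9 * Q * Δ := by nlinarith
    have e4 : B * (Δ * Q) ≤ M * B * (Δ * Q) := by
      have : 0 ≤ B * (Δ * Q) := by positivity
      nlinarith
    nlinarith [mul_le_mul_of_nonneg_left e2 e1, mul_le_mul_of_nonneg_left e3 e1]

/-- the statement of the inverse Weyl inequality with constant `C` -/
def IW (k C : ℕ) : Prop := ∀ (P : Polynomial ℝ) (S : ℕ) (δ : ℝ),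
  P.natDegree ≤ k → 0 < δ → δ ≤ 1 / 2 → δ⁻¹ ^ C ≤ S →
  δ * S ≤ ‖∑ s ∈ Finset.range S, Complex.exp (2 * Real.pi * Complex.I * (P.eval (s : ℝ) : ℝ))‖ →
  ∃ q : ℕ, 1 ≤ q ∧ (q : ℝ) ≤ δ⁻¹ ^ C ∧ ∃ a : ℤ, |q * P.coeff k - a| ≤ δ⁻¹ ^ C / (S : ℝ) ^ k

lemma bil_coeff {G : ℤ[X]} {k : ℕ} (hG : G.natDegree ≤ k) (a b : ℤ) :
    (G.comp (C a + C b * X)).natDegree ≤ k ∧ (G.comp (C a + C b * X)).coeff k = G.coeff k * b ^ k := by
  have h1 : (C a + C b * X : ℤ[X]).natDegree ≤ 1 := by compute_degree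
  refine ⟨natDegree_comp_le.trans (by nlinarith), ?_⟩
  have h2 := comp_C_mul_X_coeff (p := G.comp (C a + X)) (r := b) (n := k)
  have h3 : G.comp (C a + C b * X) = (G.comp (C a + X)).comp (C b * X) := by
    simp [comp_assoc]
  rw [h3, h2]
  congr 1
  rcases hG.eq_or_lt with h | h
  · have h4 := taylor_apply (r := a) (f := G)
    rw [add_comm (C a), ← h4, ← h]
    exact coeff_taylor_natDegree a G
  · rw [coeff_eq_zero_of_natDegree_lt h, coeff_eq_zero_of_natDegree_lt]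
    refine natDegree_comp_le.trans_lt ?_
    have : (C a + X : ℤ[X]).natDegree ≤ 1 := by compute_degree
    nlinarith

/-- a short progression on a minor arc -/
lemma bil_minor1 {k c : ℕ} (hW : IW k c) {G : ℤ[X]} (hG : G.natDegree ≤ k) {L₀ X D θ u : ℝ}
    {S M : ℕ} (h1 : 1 ≤ G.coeff k) (h2 : (G.coeff k : ℝ) ≤ L₀) (hX : X ≤ L₀ * S ^ k) (hX0 : 0 < X)
    (hu : 2 ≤ u) (hS : u ^ (c + 1) ≤ S) (hM : 1 ≤ M) (hMD : (M : ℝ) ≤ D)
    (hθ : ∀ q : ℕ, 1 ≤ q → (q : ℝ) ≤ u ^ c * L₀ * D ^ k → ∀ a : ℤ, u ^ (c + k) * L₀ / X < |q * θ - a|)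
    (a : ℤ) {n : ℕ} (hn : n ≤ S) :
    ‖∑ s ∈ range n, ee (θ * (G.eval (a + M * s : ℤ) : ℤ))‖ ≤ S / u := by
  have hu0 : 0 < u := by linarith
  have hl : (1 : ℝ) ≤ G.coeff k := by exact_mod_cast h1
  by_contra hc
  rw [not_le] at hc
  have h3 : (S : ℝ) / u < n := hc.trans_le ((norm_sum_le _ _).trans (by simp [abel_ee_norm]))
  have h4 : u ^ c ≤ S / u := by rw [le_div_iff₀ hu0, ← pow_succ]; exact hS
  obtain ⟨hd, hco⟩ := bil_coeff hG a M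
  obtain ⟨q, hq1, hq2, b, hb⟩ := hW (C θ * (G.comp (C a + C (M : ℤ) * Polynomial.X)).map
    (Int.castRingHom ℝ))
    n u⁻¹ ((natDegree_C_mul_le _ _).trans (natDegree_map_le.trans hd)) (inv_pos.2 hu0)
    (by rw [one_div]; exact inv_anti₀ two_pos hu) (by rw [inv_inv]; linarith) (by
      refine le_trans ?_ (hc.le.trans_eq ?_)
      · rw [mul_comm, ← div_eq_mul_inv]
        exact div_le_div_of_nonneg_right (by exact_mod_cast hn) hu0.le
      · congr 1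
        refine sum_congr rfl fun s _ => ?_
        rw [ee, eval_mul, eval_C, ← Int.cast_natCast (R := ℝ) s, eval_intCast_map, eval_comp]
        simp)
  rw [inv_inv] at hq2 hb
  rw [coeff_C_mul, coeff_map, hco] at hb
  obtain ⟨l, hl'⟩ : ∃ l : ℕ, G.coeff k = l := ⟨(G.coeff k).toNat, by omega⟩
  rw [hl'] at hb h1 h2 hl
  have hM0 : (0 : ℝ) ≤ M := M.cast_nonneg
  refine absurd (hθ (q * (l * M ^ k)) ?_ ?_ b) (not_lt.2 ?_)
  · have : 1 ≤ l := by exact_mod_cast h1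
    exact Nat.mul_pos hq1 (Nat.mul_pos this (Nat.pow_pos hM))
  · push_cast at h2 ⊢
    rw [mul_assoc]
    gcongr
    linarith
  · refine (le_of_eq ?_).trans (hb.trans ?_)
    · congr 1; simp; ring
    · have h5 : 0 < (S : ℝ) / u := lt_of_lt_of_le (by positivity) h4
      have hS0 : (0 : ℝ) < S := by
        have := mul_pos h5 hu0
        rwa [div_mul_cancel₀ _ hu0.ne'] at this
      have hL : 0 < L₀ := by linarith
      calc u ^ c / (n : ℝ) ^ k ≤ u ^ c / (S / u) ^ k := by gcongr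
        _ = u ^ (c + k) * L₀ / (L₀ * S ^ k) := by rw [div_pow, pow_add]; field_simp
        _ ≤ _ := by gcongr

/-- the polynomial side on a minor arc -/
lemma bil_minor2 {G : ℤ[X]} {θ Z B : ℝ} {S M : ℕ} (hM : 1 ≤ M) {ψ : ℤ → ℂ}
    (hper : ∀ s t : ℤ, ψ (s + M * t) = ψ s) (hB : ∀ s, ‖ψ s‖ ≤ B)
    (hZ : ∀ (a : ℤ) (n : ℕ), n ≤ S → ‖∑ s ∈ range n, ee (θ * (G.eval (a + M * s : ℤ) : ℤ))‖ ≤ Z)
    (a : ℤ) (n : ℕ) (hn : n ≤ S) :
    ‖∑ s ∈ range n, ψ (a + s) * ee (θ * (G.eval (a + s : ℤ) : ℤ))‖ ≤ M * B * Z := by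
  rw [push_sum_split _ n hM]
  refine (norm_sum_le _ _).trans ((sum_le_card_nsmul _ _ (B * Z) fun j _ => ?_).trans_eq
    (by simp [mul_assoc]))
  simp only [Nat.cast_add, Nat.cast_mul, ← add_assoc, hper]
  rw [← mul_sum, norm_mul]
  refine mul_le_mul (hB _) (hZ _ _ (le_trans ?_ hn)) (norm_nonneg _) ((norm_nonneg _).trans (hB 0))
  refine le_of_forall_lt fun s hs => ?_
  rw [push_lt_iff hM] at hs
  nlinarith

end Vale.Agent.P042U
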