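import Vale.Agent.P042U.Tail

/-! The chessboard estimate and its consequences (task F). -/

set_option linter.unusedSectionVars false

namespace Vale.Agent.P042U

open Finset
open scoped BigOperators

variable {ι : Type} [Fintype ι] [DecidableEq ι] {Ω : ι → Type} [∀ i, Fintype (Ω i)]
  [∀ i, DecidableEq (Ω i)] [∀ i, AddCommGroup (Ω i)] {N : Type} [Fintype N] [DecidableEq N]

section One

variable {A : Type} [Fintype A] [DecidableEq A]

theorem chess_act_act (σ τ : Fin 6 → Fin 6) (n : N) (v : N → Fin 6) :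
    act σ n (act τ n v) = act (σ ∘ τ) n v := by
  simp [act]

theorem chess_act_apply (σ : Fin 6 → Fin 6) (n : N) (v : N → Fin 6) : act σ n v n = σ (v n) := by
  simp [act]

theorem chess_act_id (n : N) (v : N → Fin 6) : act id n v = v := by
  simp [act]

theorem chess_act_congr {σ τ : Fin 6 → Fin 6} {n : N} {v : N → Fin 6} (h : σ (v n) = τ (v n)) :
    act σ n v = act τ n v := by
  simp [act, h]

/-- the permutation of the vertices induced by a permutation of the hexagon -/
def chessPerm (σ τ : Fin 6 → Fin 6) (h1 : τ ∘ σ = id) (h2 : σ ∘ τ = id) (n : N) :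
    Equiv.Perm (N → Fin 6) where
  toFun := act σ n
  invFun := act τ n
  left_inv v := by rw [chess_act_act, h1, chess_act_id]
  right_inv v := by rw [chess_act_act, h2, chess_act_id]

/-- the bilinear form of reflection positivity -/
noncomputable def chessB (K : ((N → Fin 6) → A) → ℝ) (n : N) (F G : ((N → Fin 6) → A) → ℝ) : ℝ :=
  𝔼 x, K x * F (fun v => x (act fdp n v)) * G (fun v => x (act fdm n v))

theorem chess_B_symm {K : ((N → Fin 6) → A) → ℝ} (hK : RPK K) (n : N)
    (F G : ((N → Fin 6) → A) → ℝ) : chessB K n F G = chessB K n G F := by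
  refine Fintype.expect_equiv
    ((chessPerm rfx rfx (by decide) (by decide) n).symm.arrowCongr (Equiv.refl A)) _ _ fun x => ?_
  change _ = K (fun v => x (act rfx n v)) * G (fun v => x (act rfx n (act fdp n v))) *
    F (fun v => x (act rfx n (act fdm n v)))
  simp only [chess_act_act]
  rw [hK.rfx_inv, show rfx ∘ fdp = fdm by decide, show rfx ∘ fdm = fdp by decide]
  ring

theorem chess_B_nonneg {K : ((N → Fin 6) → A) → ℝ} (hK : RPK K) (n : N)
    (F : ((N → Fin 6) → A) → ℝ) : 0 ≤ chessB K n F F := hK.pos n F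

theorem chess_B_cs {K : ((N → Fin 6) → A) → ℝ} (hK : RPK K) (n : N)
    (F G : ((N → Fin 6) → A) → ℝ) : chessB K n F G ^ 2 ≤ chessB K n F F * chessB K n G G := by
  have h1 : ∀ t : ℝ, 0 ≤ chessB K n G G * (t * t) + 2 * chessB K n F G * t + chessB K n F F := by
    intro t
    refine (hK.pos n fun y => F y + t * G y).trans_eq ?_
    rw [two_mul, add_mul]
    nth_rewrite 2 [chess_B_symm hK n F G]
    simp only [chessB, Finset.expect_mul, ← Finset.expect_add_distrib]
    exact Finset.expect_congr rfl fun x _ => by ring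
  have h2 := discrim_le_zero h1
  rw [discrim] at h2
  nlinarith

/-- the matrix of the form -/
noncomputable def chessMat (K : ((N → Fin 6) → A) → ℝ) (n : N) :
    Matrix ((N → Fin 6) → A) ((N → Fin 6) → A) ℝ :=
  Matrix.of fun a b => 𝔼 x, K x * (if (fun v => x (act fdp n v)) = a then 1 else 0) *
    (if (fun v => x (act fdm n v)) = b then 1 else 0)

theorem chess_mat_form (K : ((N → Fin 6) → A) → ℝ) (n : N) (F G : ((N → Fin 6) → A) → ℝ) :
    ∑ a, ∑ b, F a * (chessMat K n a b * G b) =
      𝔼 x, K x * F (fun v => x (act fdp n v)) * G (fun v => x (act fdm n v)) := by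
  simp only [chessMat, Matrix.of_apply, Finset.expect_mul, Finset.mul_expect,
    ← Finset.expect_sum_comm]
  refine Finset.expect_congr rfl fun x _ => ?_
  simp only [mul_ite, ite_mul, mul_one, mul_zero, zero_mul, Finset.sum_ite_eq, Finset.mem_univ,
    if_true]
  ring

theorem chess_mat_psd {K : ((N → Fin 6) → A) → ℝ} (hK : RPK K) (n : N) :
    (chessMat K n).PosSemidef := by
  refine Matrix.PosSemidef.of_dotProduct_mulVec_nonneg ?_ fun F => ?_
  · ext a b
    exact chess_B_symm hK n (fun y => if y = b then 1 else 0) fun y => if y = a then 1 else 0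
  · have := hK.pos n F
    rw [← chess_mat_form] at this
    simpa [dotProduct, Matrix.mulVec, Finset.mul_sum] using this

theorem chess_psd_prod {X κ : Type} [Fintype X] [DecidableEq κ] (s : Finset κ)
    (M : κ → Matrix X X ℝ) (h : ∀ i ∈ s, (M i).PosSemidef) :
    (Matrix.of fun a b => ∏ i ∈ s, M i a b).PosSemidef := by
  induction s using Finset.induction_on with
  | empty =>
    have := Matrix.posSemidef_vecMulVec_self_star (fun _ : X => (1 : ℝ))
    refine (congrArg Matrix.PosSemidef ?_).mp this
    ext a b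
    simp [Matrix.vecMulVec_apply]
  | insert i s hi ih =>
    have := (h i (Finset.mem_insert_self _ _)).hadamard
      (ih fun j hj => h j (Finset.mem_insert_of_mem hj))
    refine (congrArg Matrix.PosSemidef ?_).mp this
    ext a b
    simp [Finset.prod_insert hi]

/-- the multilinear form of one kernel -/
noncomputable def chessL (K : ((N → Fin 6) → A) → ℝ) (h : (N → Fin 6) → A → ℝ) : ℝ :=
  𝔼 x, K x * ∏ v, h v (x v)

/-- the positive half of the hexagon -/
def chessP (j : Fin 6) : Prop := fdp j = j

instance (j : Fin 6) : Decidable (chessP j) := inferInstanceAs (Decidable (_ = _))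

theorem chess_B_L (K : ((N → Fin 6) → A) → ℝ) (n : N) (h h' : (N → Fin 6) → A → ℝ) :
    chessB K n (fun y => ∏ v with chessP (v n), h v (y v))
      (fun y => ∏ v with chessP (v n), h' v (y v)) =
      chessL K fun v => if chessP (v n) then h v else h' (act rfx n v) := by
  refine Finset.expect_congr rfl fun x _ => ?_
  rw [mul_assoc, ← Finset.prod_filter_mul_prod_filter_not univ fun v : N → Fin 6 => chessP (v n)]
  congr 2
  · refine Finset.prod_congr rfl fun v hv => ?_
    have h1 := (Finset.mem_filter.1 hv).2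
    simp only
    rw [if_pos h1, chess_act_congr (τ := id) h1, chess_act_id]
  · refine Finset.prod_equiv (chessPerm rfx rfx (by decide) (by decide) n) (fun v => ?_)
      fun v hv => ?_
    · simp only [Finset.mem_filter, Finset.mem_univ, true_and]
      change _ ↔ ¬ chessP (act rfx n v n)
      rw [chess_act_apply]
      exact (by decide : ∀ j, chessP j ↔ ¬ chessP (rfx j)) _
    · have h1 := (Finset.mem_filter.1 hv).2
      change h' v (x (act fdm n v)) = (if chessP (act rfx n v n) then h (act rfx n v)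
        else h' (act rfx n (act rfx n v))) (x (act rfx n v))
      rw [chess_act_apply, if_neg ((by decide : ∀ j, chessP j → ¬ chessP (rfx j)) _ h1),
        chess_act_act, show rfx ∘ rfx = id by decide, chess_act_id,
        chess_act_congr ((by decide : ∀ j, chessP j → fdm j = rfx j) _ h1)]

theorem chess_L_fdp (K : ((N → Fin 6) → A) → ℝ) (n : N) (h : (N → Fin 6) → A → ℝ) :
    chessB K n (fun y => ∏ v with chessP (v n), h v (y v))
      (fun y => ∏ v with chessP (v n), h v (y v)) = chessL K fun v => h (act fdp n v) := by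
  rw [chess_B_L]
  congr 1
  funext v
  split_ifs with h1
  · rw [chess_act_congr (τ := id) h1, chess_act_id]
  · rw [chess_act_congr ((by decide : ∀ j, ¬ chessP j → rfx j = fdp j) _ h1)]

theorem chess_L_nonneg {K : ((N → Fin 6) → A) → ℝ} (hK : RPK K) (n : N) (h : A → ℝ) :
    0 ≤ chessL K fun _ => h := by
  rw [← chess_L_fdp K n fun _ => h]
  exact chess_B_nonneg hK n _

theorem chess_L_cs {K : ((N → Fin 6) → A) → ℝ} (hK : RPK K) (n : N) (h : (N → Fin 6) → A → ℝ) :
    chessL K h ^ 2 ≤ chessL K (fun v => h (act fdp n v)) *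
      chessL K fun v => h (act rfx n (act fdp n v)) := by
  have h1 := chess_B_cs hK n (fun y => ∏ v with chessP (v n), h v (y v))
    (fun y => ∏ v with chessP (v n), h (act rfx n v) (y v))
  rw [chess_L_fdp, chess_L_fdp K n fun v => h (act rfx n v), chess_B_L] at h1
  refine le_of_eq_of_le ?_ h1
  congr 2
  funext v
  rw [chess_act_act, show rfx ∘ rfx = id by decide, chess_act_id, ite_self]

theorem chess_L_rot {K : ((N → Fin 6) → A) → ℝ} (hK : RPK K) (n : N) (h : (N → Fin 6) → A → ℝ) :
    chessL K (fun v => h (act rot n v)) = chessL K h := by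
  symm
  refine Fintype.expect_equiv
    ((chessPerm rot (rot ∘ rot) (by decide) (by decide) n).symm.arrowCongr (Equiv.refl A)) _ _
    fun x => ?_
  change _ = K (fun v => x (act rot n v)) * ∏ v, h (act rot n v) (x (act rot n v))
  rw [hK.rot_inv]
  congr 1
  exact (Equiv.prod_comp (chessPerm rot (rot ∘ rot) (by decide) (by decide) n)
    fun v => h v (x v)).symm

theorem chess_one {K : ((N → Fin 6) → A) → ℝ} (hK : RPK K) (h : (N → Fin 6) → A → ℝ) :
    ∃ v, |chessL K h| ≤ |chessL K fun _ => h v| := by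
  obtain ⟨c, -, hc⟩ := Finset.exists_max_image univ
    (fun c : (N → Fin 6) → N → Fin 6 => |chessL K fun v => h (c v)|) univ_nonempty
  set M := |chessL K fun v => h (c v)| with hM
  have hc' : ∀ c' : (N → Fin 6) → N → Fin 6, |chessL K fun v => h (c' v)| ≤ M := fun c' =>
    hc c' (Finset.mem_univ _)
  have h1 : ∀ (c' : (N → Fin 6) → N → Fin 6) (n : N), M ≤ |chessL K fun v => h (c' v)| →
      M ≤ |chessL K fun v => h (c' (act fdp n v))| := by
    intro c' n h2
    have h3 := chess_L_cs hK n fun v => h (c' v)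
    have h4 := hc' fun v => c' (act rfx n (act fdp n v))
    have h5 : M ^ 2 ≤ |chessL K fun v => h (c' (act fdp n v))| * M := by
      refine (pow_le_pow_left₀ (abs_nonneg _) h2 2).trans ?_
      rw [sq_abs]
      refine h3.trans ((le_abs_self _).trans ?_)
      rw [abs_mul]
      exact mul_le_mul_of_nonneg_left h4 (abs_nonneg _)
    rcases (abs_nonneg _ : 0 ≤ M).eq_or_lt with h6 | h6
    · exact h6.ge.trans (abs_nonneg _)
    · exact le_of_mul_le_mul_right (by rwa [← sq]) h6
  have h2 : ∀ (c' : (N → Fin 6) → N → Fin 6) (n : N), M ≤ |chessL K fun v => h (c' v)| →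
      M ≤ |chessL K fun v => h (c' (act rot n v))| := by
    intro c' n h2
    rwa [chess_L_rot hK n fun v => h (c' v)]
  have h3 : ∀ (c' : (N → Fin 6) → N → Fin 6) (n : N), M ≤ |chessL K fun v => h (c' v)| →
      M ≤ |chessL K fun v => h (c' (Function.update v n 1))| := by
    intro c' n h3
    have := h1 _ n (h2 _ n (h1 _ n (h2 _ n (h2 _ n (h1 c' n h3)))))
    simp only [chess_act_act] at this
    rwa [show (fdp ∘ rot ∘ rot ∘ fdp ∘ rot ∘ fdp) = fun _ => 1 by decide] at this
  have h4 : ∀ s : Finset N, M ≤ |chessL K fun v => h (c (s.piecewise (fun _ => 1) v))| := by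
    intro s
    induction s using Finset.induction_on with
    | empty => simp [hM]
    | insert n s _ ih =>
      have := h3 (fun v => c (s.piecewise (fun _ => 1) v)) n ih
      refine this.trans_eq ?_
      congr 2
      funext v
      congr 2
      funext j
      by_cases e : j = n <;> simp [Finset.piecewise, e]
  exact ⟨c fun _ => 1, (hc' id).trans (by simpa using h4 univ)⟩

end One

theorem chess_expect_prod {V : Type} [Fintype V] [DecidableEq V] (g : ∀ i, (V → Ω i) → ℝ) :
    𝔼 x : V → ∀ i, Ω i, ∏ i, g i (fun v => x v i) = ∏ i, 𝔼 a, g i a := by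
  rw [← expect_prod_coord (Ω := fun i => V → Ω i)]
  exact Fintype.expect_equiv (Equiv.piComm _) _ _ fun x => rfl

/-- reflection positivity passes to products -/
theorem rpk_prod {k : ∀ i, ((N → Fin 6) → Ω i) → ℝ} (hk : ∀ i, RPK (k i)) :
    RPK fun x : (N → Fin 6) → ∀ i, Ω i => ∏ i, k i fun v => x v i := by
  refine ⟨fun n x => Finset.prod_congr rfl fun i _ => (hk i).rot_inv n fun v => x v i,
    fun n x => Finset.prod_congr rfl fun i _ => (hk i).rfx_inv n fun v => x v i, fun n F => ?_⟩
  have h1 := (chess_psd_prod univ (fun i => (chessMat (k i) n).submatrix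
    (fun (a : (N → Fin 6) → ∀ i, Ω i) v => a v i) (fun a v => a v i))
      fun i _ => (chess_mat_psd (hk i) n).submatrix _).dotProduct_mulVec_nonneg F
  rw [← chess_mat_form]
  have h2 : ∀ a b : (N → Fin 6) → ∀ i, Ω i,
      chessMat (fun x : (N → Fin 6) → ∀ i, Ω i => ∏ i, k i fun v => x v i) n a b =
        ∏ i, chessMat (k i) n (fun v => a v i) (fun v => b v i) := by
    intro a b
    simp only [chessMat, Matrix.of_apply]
    rw [← chess_expect_prod]
    refine Finset.expect_congr rfl fun x _ => ?_
    rw [Finset.prod_mul_distrib, Finset.prod_mul_distrib, Finset.prod_boole, Finset.prod_boole]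
    congr 2
    · congr 1
      simp only [funext_iff, Finset.mem_univ, true_imp_iff]
      exact propext forall_comm
    · simp only [funext_iff, Finset.mem_univ, true_imp_iff]
      exact propext forall_comm
  simpa [dotProduct, Matrix.mulVec, Finset.mul_sum, h2, mul_assoc] using h1

theorem chess {k : ∀ i, ((N → Fin 6) → Ω i) → ℝ} (hk : ∀ i, RPK (k i))
    (H : (N → Fin 6) → (∀ i, Ω i) → ℝ) : ∃ v, |Form k H| ≤ |Form k fun _ => H v| := by
  exact chess_one (rpk_prod hk) H

theorem form_mono_nonneg [Nonempty N] {k : ∀ i, ((N → Fin 6) → Ω i) → ℝ} (hk : ∀ i, RPK (k i))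
    (h : (∀ i, Ω i) → ℝ) : 0 ≤ Form k fun _ => h := by
  obtain ⟨n⟩ : Nonempty N := inferInstance
  exact chess_L_nonneg (rpk_prod hk) n h

theorem chess_convex {k : ∀ i, ((N → Fin 6) → Ω i) → ℝ} (hk : ∀ i, RPK (k i)) {κ : Type}
    [DecidableEq κ] {s : (N → Fin 6) → Finset κ} {c : (N → Fin 6) → κ → ℝ}
    {H : (N → Fin 6) → κ → (∀ i, Ω i) → ℝ} {β M : ℝ} (hc : ∀ v, ∀ j ∈ s v, 0 ≤ c v j)
    (hβ : ∀ v, ∑ j ∈ s v, c v j ≤ β) (hM0 : 0 ≤ M)
    (hM : ∀ v, ∀ j ∈ s v, |Form k fun _ => H v j| ≤ M) :
    |Form k fun v y => ∑ j ∈ s v, c v j * H v j y| ≤ β ^ Fintype.card (N → Fin 6) * M := by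
  rw [form_sum]
  refine (Finset.abs_sum_le_sum_abs _ _).trans ?_
  have h1 : ∀ j ∈ Fintype.piFinset s, |(∏ v, c v (j v)) * Form k fun v => H v (j v)| ≤
      (∏ v, c v (j v)) * M := by
    intro j hj
    have h2 : 0 ≤ ∏ v, c v (j v) :=
      Finset.prod_nonneg fun v _ => hc v _ (Fintype.mem_piFinset.1 hj v)
    obtain ⟨v, hv⟩ := chess hk fun v => H v (j v)
    rw [abs_mul, abs_of_nonneg h2]
    exact mul_le_mul_of_nonneg_left (hv.trans (hM v _ (Fintype.mem_piFinset.1 hj v))) h2
  refine (Finset.sum_le_sum h1).trans ?_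
  rw [← Finset.sum_mul, ← Finset.prod_univ_sum]
  refine mul_le_mul_of_nonneg_right ?_ hM0
  rw [← Finset.card_univ, ← Finset.prod_const]
  exact Finset.prod_le_prod (fun v _ => Finset.sum_nonneg (hc v)) fun v _ => hβ v

theorem chess_form_transl {V : Type} [Fintype V] [DecidableEq V] {k : ∀ i, (V → Ω i) → ℝ}
    (ht : ∀ i x c, k i (fun v => x v + c) = k i x) (H : V → (∀ i, Ω i) → ℝ) (c : ∀ i, Ω i) :
    (Form k fun v y => H v (y + c)) = Form k H := by
  refine Fintype.expect_equiv (Equiv.addRight fun _ => c) _ _ fun x => ?_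
  congr 1
  exact Finset.prod_congr rfl fun i _ => (ht i (fun v => x v i) (c i)).symm

theorem form_lower [Nonempty N] {k : ∀ i, ((N → Fin 6) → Ω i) → ℝ} (hk : ∀ i, RPK (k i))
    (hm : ∀ i, 𝔼 x, k i x = 1) (ht : ∀ i x c, k i (fun v => x v + c) = k i x)
    {h : (∀ i, Ω i) → ℝ} (h0 : 0 ≤ 𝔼 y, h y) :
    (𝔼 y, h y) ^ Fintype.card (N → Fin 6) ≤ Form k fun _ => h := by
  have hF := form_mono_nonneg hk h
  have hK : 𝔼 x : (N → Fin 6) → ∀ i, Ω i, ∏ i, k i (fun v => x v i) = 1 := by
    rw [chess_expect_prod]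
    exact Finset.prod_eq_one fun i _ => hm i
  rcases h0.eq_or_lt with h1 | h1
  · rw [← h1, zero_pow Fintype.card_ne_zero]
    exact hF
  set t := 𝔼 y, h y with ht'
  have h2 : ∀ s : ℝ, (Form k fun v y => if v = u₀ then s * h y else 1) = s * t := by
    intro s
    have h3 : ∀ c, (Form k fun v y => if v = u₀ then s * h y else 1) =
        𝔼 x : (N → Fin 6) → ∀ i, Ω i, (∏ i, k i fun v => x v i) * (s * h (x u₀ + c)) := by
      intro c
      rw [← chess_form_transl ht _ c]
      refine Finset.expect_congr rfl fun x _ => ?_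
      simp
    rw [← Fintype.expect_const (ι := ∀ i, Ω i) (Form k _), Finset.expect_congr rfl fun c _ => h3 c,
      Finset.expect_comm]
    simp only [← Finset.mul_expect]
    have h4 : ∀ y : ∀ i, Ω i, 𝔼 c, h (y + c) = t := fun y =>
      Fintype.expect_equiv (Equiv.addLeft y) _ _ fun _ => rfl
    simp only [h4]
    rw [← Finset.expect_mul, hK, one_mul]
  have h3 : ∀ u : ℝ, 1 < u →
      u ≤ u ^ Fintype.card (N → Fin 6) * ((Form k fun _ => h) / t ^ Fintype.card (N → Fin 6)) := by
    intro u hu
    obtain ⟨v, hv⟩ := chess hk fun v y => if v = u₀ then u / t * h y else 1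
    rw [h2, div_mul_cancel₀ _ h1.ne', abs_of_pos (by linarith)] at hv
    by_cases e : v = u₀
    · have h4 : (Form k fun _ y => u / t * h y) =
          (u / t) ^ Fintype.card (N → Fin 6) * Form k fun _ => h := by
        rw [Form, Form, Finset.mul_expect]
        refine Finset.expect_congr rfl fun x _ => ?_
        rw [Finset.prod_mul_distrib, Finset.prod_const, Finset.card_univ]
        ring
      simp only [e, if_true] at hv
      rw [h4, abs_of_nonneg (by positivity), div_pow] at hv
      refine hv.trans_eq ?_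
      ring
    · simp only [e, if_false, Form, Finset.prod_const_one, mul_one, hK, abs_one] at hv
      linarith
  have h4 : (1 : ℝ) ≤ 1 ^ Fintype.card (N → Fin 6) *
      ((Form k fun _ => h) / t ^ Fintype.card (N → Fin 6)) :=
    le_of_tendsto_of_tendsto (b := nhdsWithin 1 (Set.Ioi 1)) (f := fun u : ℝ => u)
      (continuous_id.tendsto 1 |>.mono_left nhdsWithin_le_nhds)
      (((continuous_id.pow _).mul continuous_const).tendsto 1 |>.mono_left nhdsWithin_le_nhds)
      (eventually_nhdsWithin_of_forall h3)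
  rwa [one_pow, one_mul, one_le_div (by positivity)] at h4

/-- forgetting coordinates decreases the form -/
theorem form_jensen [Nonempty N] {k : ∀ i, ((N → Fin 6) → Ω i) → ℝ} (hk : ∀ i, RPK (k i))
    (ht : ∀ i x c, k i (fun v => x v + c) = k i x) (I : Finset ι) (R : ℝ) (μ : (∀ i, Ω i) → ℝ) :
    (Form k fun _ => part (low Ω I R) μ) ≤ Form k fun _ => part (low Ω univ R) μ := by
  have h0 := form_mono_nonneg hk (part (low Ω univ R) μ)
  have h1 := chess_convex hk (s := fun _ => univ)
    (c := fun _ _ => (Fintype.card (∀ i, Ω i) : ℝ)⁻¹)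
    (H := fun _ t y => part (low Ω univ R) μ (y + I.piecewise 0 t)) (β := 1)
    (fun _ _ _ => by positivity)
    (fun _ => by rw [Finset.sum_const, Finset.card_univ, nsmul_eq_mul]; exact mul_inv_le_one) h0
    (fun _ t _ => by rw [chess_form_transl ht fun _ => part (low Ω univ R) μ, abs_of_nonneg h0])
  rw [one_pow, one_mul] at h1
  refine le_of_eq_of_le ?_ ((le_abs_self _).trans h1)
  congr 1
  funext _ y
  rw [← Finset.mul_sum, ← div_eq_inv_mul, ← Fintype.expect_eq_sum_div_card]
  simp only [part]
  rw [Finset.expect_sum_comm]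
  have h2 : low Ω I R = (low Ω univ R).filter fun T => T ⊆ I := by
    ext T
    simp [low, and_comm]
  rw [h2, Finset.sum_filter]
  refine Finset.sum_congr rfl fun T _ => ?_
  split_ifs with hT
  · rw [← Fintype.expect_const (ι := ∀ i, Ω i) (ES T μ y)]
    refine Finset.expect_congr rfl fun t _ => ES_dep T μ _ _ fun i hi => ?_
    simp [Finset.piecewise, hT hi]
  · obtain ⟨i, hi, hi'⟩ := Finset.not_subset.1 hT
    have h3 : ∀ a : Ω i, 𝔼 t, ES T μ (y + I.piecewise 0 t) = 𝔼 t, ES T μ
        (Function.update (y + I.piecewise 0 t) i ((y + I.piecewise 0 t : ∀ i, Ω i) i + a)) := by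
      intro a
      symm
      refine Fintype.expect_equiv (Equiv.addRight (Pi.single i a)) _ _ fun t => ?_
      congr 1
      funext j
      by_cases e : j = i
      · subst e
        simp [Finset.piecewise, hi', add_assoc]
      · simp [Finset.piecewise, e]
    rw [← Fintype.expect_const (ι := Ω i) (𝔼 t, ES T μ (y + I.piecewise 0 t)),
      Finset.expect_congr rfl fun a _ => h3 a, Finset.expect_comm]
    refine (Finset.expect_eq_zero fun t _ => ?_).symm
    rw [← ES_zero μ hi (y + I.piecewise 0 t)]
    exact Fintype.expect_equiv (Equiv.addLeft _) _ _ fun _ => rfl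

/-- affine changes of coordinates -/
theorem form_affine {V : Type} [Fintype V] [DecidableEq V] (k : ∀ i, (V → Ω i) → ℝ)
    (σ : ∀ i, Ω i ≃ Ω i) (Q : Finset (Finset ι)) (μ : (∀ i, Ω i) → ℝ) :
    (Form (fun i x => k i fun v => σ i (x v)) fun _ => part Q fun x => μ fun i => σ i (x i)) =
      Form k fun _ => part Q μ := by
  refine Fintype.expect_equiv (Equiv.piCongrRight fun _ => Equiv.piCongrRight σ) _ _ fun x => ?_
  congr 1
  refine Finset.prod_congr rfl fun v _ => Finset.sum_congr rfl fun T _ => ?_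
  refine Fintype.expect_equiv (Equiv.piCongrRight σ) _ _ fun y => ?_
  congr 1
  refine Finset.prod_congr rfl fun i _ => ?_
  simp

end Vale.Agent.P042U
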