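import Vale.Agent.P042U.IntDefs

/-! Existence of the auxiliary polynomials (task L). -/

namespace Vale.Agent.P042U

open Polynomial

theorem fam_bezout {f q : ℤ[X]} (hf : f.natDegree ≠ 0)
    (h : IsCoprime (f.map (Int.castRingHom ℚ)) (q.map (Int.castRingHom ℚ))) :
    ∃ (A B : ℤ[X]) (D : ℤ), D ≠ 0 ∧ f * A + q * B = C D := by
  obtain ⟨A, B, -, -, e⟩ := exists_mul_add_mul_eq_C_resultant f q le_rfl le_rfl (Or.inl hf)
  refine ⟨A, B, _, fun h0 => resultant_ne_zero _ _ h ?_, e⟩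
  have hi : Function.Injective (Int.castRingHom ℚ) := Int.cast_injective
  rw [natDegree_map_eq_of_injective hi, natDegree_map_eq_of_injective hi, resultant_map_map, h0,
    map_zero]

theorem fam_factor {f h : ℤ[X]} (hf : Irreducible f) (hf0 : f.natDegree ≠ 0) (hh : h ≠ 0)
    (hd : f ∣ h) : ∃ D : ℤ, D ≠ 0 ∧ ∀ (R : Type) [CommRing R] (z : R),
      (f.map (Int.castRingHom R)).eval z = 0 → ∃ (m : ℕ) (H : R[X]), 1 ≤ m ∧
        h.map (Int.castRingHom R) = (X - C z) ^ m * H ∧ H.eval z ∣ (D : R) := by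
  obtain ⟨q, h1, h2⟩ :=
    (FiniteMultiplicity.of_not_isUnit hf.not_isUnit hh).exists_eq_pow_mul_and_not_dvd
  have hp := hf.isPrimitive hf0
  have hQ := (IsPrimitive.Int.irreducible_iff_irreducible_map_cast hp).1 hf
  obtain ⟨A, B, D, hD, e⟩ := fam_bezout (q := q) hf0 (hQ.coprime_iff_not_dvd.2 fun h =>
    h2 ((IsPrimitive.Int.dvd_iff_map_cast_dvd_map_cast f q hp).2 h))
  obtain ⟨A', B', D', hD', e'⟩ := fam_bezout (q := derivative f) hf0 (by
    rw [← derivative_map]; exact hQ.separable)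
  generalize multiplicity f h = a at h1
  have ha : 1 ≤ a := by
    by_contra h3
    obtain rfl : a = 0 := by omega
    rw [pow_zero, one_mul] at h1
    exact h2 (h1 ▸ hd)
  refine ⟨D' ^ a * D, mul_ne_zero (pow_ne_zero _ hD') hD, fun R _ z hz => ?_⟩
  obtain ⟨f1, h3⟩ := dvd_iff_isRoot.2 hz
  refine ⟨a, f1 ^ a * q.map (Int.castRingHom R), ha, by
    rw [h1, Polynomial.map_mul, Polynomial.map_pow, h3, mul_pow, mul_assoc], ?_⟩
  have e1 := congrArg (fun P => (P.map (Int.castRingHom R)).eval z) e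
  have e2 := congrArg (fun P => (P.map (Int.castRingHom R)).eval z) e'
  simp only [Polynomial.map_add, Polynomial.map_mul, eval_add, eval_mul, hz, zero_mul, zero_add,
    map_C, eval_C] at e1 e2
  rw [← derivative_map, h3] at e2
  simp only [derivative_mul, derivative_sub, derivative_X, derivative_C, sub_zero, one_mul,
    eval_add, eval_mul, eval_sub, eval_X, eval_C, sub_self, zero_mul, add_zero] at e2
  rw [eval_mul, eval_pow]
  push_cast
  exact mul_dvd_mul (pow_dvd_pow_of_dvd ⟨_, e2.symm⟩ a) ⟨_, e1.symm⟩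

theorem fam_uniform {h : ℤ[X]} (hh : h ≠ 0) : ∃ D : ℤ, D ≠ 0 ∧ ∀ (R : Type) [CommRing R]
    [IsDomain R] [CharZero R] (z : R), (h.map (Int.castRingHom R)).eval z = 0 →
      ∃ (m : ℕ) (H : R[X]), 1 ≤ m ∧
        h.map (Int.castRingHom R) = (X - C z) ^ m * H ∧ H.eval z ∣ (D : R) := by
  classical
  have key : ∀ f ∈ UniqueFactorizationMonoid.factors h, ∃ D : ℤ, D ≠ 0 ∧ (f.natDegree ≠ 0 →
      ∀ (R : Type) [CommRing R] (z : R), (f.map (Int.castRingHom R)).eval z = 0 →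
        ∃ (m : ℕ) (H : R[X]), 1 ≤ m ∧ h.map (Int.castRingHom R) = (X - C z) ^ m * H ∧
          H.eval z ∣ (D : R)) := fun f hf => by
    by_cases h0 : f.natDegree = 0
    · exact ⟨1, one_ne_zero, fun h => absurd h0 h⟩
    · obtain ⟨D, h1, h2⟩ := fam_factor (UniqueFactorizationMonoid.irreducible_of_factor f hf) h0 hh
        (UniqueFactorizationMonoid.dvd_of_mem_factors hf)
      exact ⟨D, h1, fun _ => h2⟩
  choose! D hD1 hD2 using key
  refine ⟨∏ f ∈ (UniqueFactorizationMonoid.factors h).toFinset, D f, Finset.prod_ne_zero_iff.2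
    fun f hf => hD1 f (Multiset.mem_toFinset.1 hf), fun R _ _ _ z hz => ?_⟩
  obtain ⟨c, hc⟩ := (UniqueFactorizationMonoid.factors_prod hh).dvd'
  have h1 := congrArg (eval₂RingHom (Int.castRingHom R) z) hc
  rw [map_mul, coe_eval₂RingHom, eval₂_eq_eval_map (p := h), hz, zero_mul, ← coe_eval₂RingHom,
    map_multiset_prod, Multiset.prod_eq_zero_iff, Multiset.mem_map] at h1
  obtain ⟨f, hf, h2⟩ := h1
  rw [coe_eval₂RingHom, eval₂_eq_eval_map] at h2
  obtain ⟨m, H, h3, h4, h5⟩ := hD2 f hf (fun h0 => by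
    rw [eq_C_of_natDegree_eq_zero h0, map_C, eval_C, eq_intCast, Int.cast_eq_zero] at h2
    refine (UniqueFactorizationMonoid.irreducible_of_factor f hf).ne_zero ?_
    rw [eq_C_of_natDegree_eq_zero h0, h2, map_zero]) R z h2
  refine ⟨m, H, h3, h4, h5.trans ?_⟩
  exact map_dvd (Int.castRingHom R) (Finset.dvd_prod_of_mem D (Multiset.mem_toFinset.2 hf))

theorem fam_root (h : ℤ[X]) (hint : ∀ q : ℕ, 1 ≤ q → ∃ t : ℤ, (q : ℤ) ∣ h.eval t) (p : ℕ)
    [hp : Fact p.Prime] : ∃ z : ℤ_[p], (h.map (Int.castRingHom ℤ_[p])).eval z = 0 := by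
  obtain ⟨z, -, hz⟩ := isCompact_univ.exists_isMinOn Set.univ_nonempty
    (h.map (Int.castRingHom ℤ_[p])).continuous.norm.continuousOn
  refine ⟨z, norm_le_zero_iff.1 (le_of_forall_pos_le_add fun ε hε => ?_)⟩
  obtain ⟨k, hk⟩ := PadicInt.exists_pow_neg_lt p hε
  obtain ⟨t, ht⟩ := hint (p ^ k) (Nat.pow_pos hp.out.pos)
  have h1 : ‖(h.map (Int.castRingHom ℤ_[p])).eval z‖ ≤
      ‖(h.map (Int.castRingHom ℤ_[p])).eval (t : ℤ_[p])‖ := hz (Set.mem_univ _)
  rw [eval_intCast_map, eq_intCast, Int.cast_id] at h1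
  have h2 := PadicInt.norm_int_le_pow_iff_dvd.2 (by exact_mod_cast ht)
  linarith

/-- The local data at a prime. -/
structure FamLoc (h : ℤ[X]) (D : ℤ) (p m : ℕ) (ζ : ℕ → ℕ) : Prop where
  one_le : 1 ≤ m
  le : m ≤ h.natDegree
  compat : ∀ i j, i ≤ j → (p : ℤ) ^ i ∣ (ζ j : ℤ) - ζ i
  dvd : ∀ (j : ℕ) (r d : ℤ), (p : ℤ) ^ j ∣ r - ζ j → (p : ℤ) ^ j ∣ d → ∀ n,
    (p : ℤ) ^ (m * j) ∣ (h.comp (C r + C d * X)).coeff n
  nd : ∀ (j : ℕ) (r d' : ℤ) (i V : ℕ), (p : ℤ) ^ j ∣ r - ζ j → ¬ (p : ℤ) ∣ d' →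
    ¬ (p : ℤ) ^ V ∣ D → V ≤ j + i → ∃ t : ℤ, ¬ (p : ℤ) ^ (m * j + (i * (m - 1) + V)) ∣
      p ^ j * d' * (derivative h).eval (r + p ^ j * d' * t)

theorem fam_local (h : ℤ[X]) (hdeg : 1 ≤ h.natDegree)
    (hint : ∀ q : ℕ, 1 ≤ q → ∃ t : ℤ, (q : ℤ) ∣ h.eval t) :
    ∃ D : ℤ, D ≠ 0 ∧ ∀ p : ℕ, p.Prime → ∃ m ζ, FamLoc h D p m ζ := by
  have hh : h ≠ 0 := by rintro rfl; simp at hdeg
  obtain ⟨D, hD, hD'⟩ := fam_uniform hh
  refine ⟨h.natDegree.factorial * D, mul_ne_zero (by positivity) hD, fun p hp => ?_⟩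
  haveI := Fact.mk hp
  obtain ⟨z, hz⟩ := fam_root h hint p
  obtain ⟨m, H, h1, h2, h3⟩ := hD' _ z hz
  have hi : Function.Injective (Int.castRingHom ℤ_[p]) := Int.cast_injective
  have h4 : m ≤ h.natDegree := by
    have := natDegree_le_of_dvd ⟨H, h2⟩ ((Polynomial.map_ne_zero_iff hi).2 hh)
    rwa [natDegree_map_eq_of_injective hi, natDegree_pow, natDegree_X_sub_C, mul_one] at this
  have h5 : ∀ (j : ℕ) (r : ℤ), (p : ℤ) ^ j ∣ r - z.appr j → ∃ u, (r : ℤ_[p]) - z = p ^ j * u :=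
    fun j r hr => by
      have h6 := (PadicInt.pow_p_dvd_int_iff j _).2 hr
      have h7 := Ideal.mem_span_singleton.1 (PadicInt.appr_spec j z)
      have := h6.sub h7
      push_cast at this
      rwa [sub_sub_sub_cancel_right] at this
  refine ⟨m, z.appr, h1, h4, fun i j hij => ?_, fun j r d hr hd n => ?_,
    fun j r d' i V hr hd hV hVi => ?_⟩
  · rw [← Nat.cast_sub (z.appr_mono hij)]
    exact_mod_cast z.dvd_appr_sub_appr i j hij
  · obtain ⟨u, hu⟩ := h5 j r hr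
    obtain ⟨d', rfl⟩ := hd
    rw [← PadicInt.pow_p_dvd_int_iff, ← eq_intCast (Int.castRingHom ℤ_[p]), ← coeff_map]
    refine (C_dvd_iff_dvd_coeff _ _).1 ?_ n
    rw [map_comp, h2, mul_comp, pow_comp]
    refine Dvd.dvd.mul_right ?_ _
    rw [mul_comm m, pow_mul, map_pow]
    refine pow_dvd_pow_of_dvd ⟨C u + C (d' : ℤ_[p]) * X, ?_⟩ m
    simp only [Polynomial.map_add, Polynomial.map_mul, map_C, map_X, sub_comp, X_comp, C_comp]
    rw [eq_intCast, eq_intCast, mul_add, ← map_mul, ← hu, ← mul_assoc, ← map_mul]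
    push_cast
    rw [map_sub]; ring
  · obtain ⟨u, hu⟩ := h5 j r hr
    have hpp := PadicInt.prime_p (p := p)
    have hd1 : IsUnit (d' : ℤ_[p]) := PadicInt.isUnit_iff.2 (le_antisymm (PadicInt.norm_le_one _)
      (not_lt.1 fun h => hd ((PadicInt.norm_int_lt_one_iff_dvd _).1 h)))
    obtain ⟨y, hy⟩ := hd1.exists_right_inv
    obtain ⟨w, hw⟩ := Ideal.mem_span_singleton.1 
      (PadicInt.appr_spec (i + 1) (((p : ℤ_[p]) ^ i - u) * y))
    set t := PadicInt.appr (((p : ℤ_[p]) ^ i - u) * y) (i + 1)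
    obtain ⟨m, rfl⟩ : ∃ k, m = k + 1 := ⟨m - 1, by omega⟩
    refine ⟨t, fun h6 => hV ?_⟩
    rw [← PadicInt.pow_p_dvd_int_iff] at h6 ⊢
    set n : ℤ_[p] := ((r + p ^ j * d' * t : ℤ) : ℤ_[p]) with hn
    have h7 : n - z = p ^ (j + i) * (1 - p * (d' * w)) := by
      rw [hn]
      push_cast
      linear_combination hu - (p : ℤ_[p]) ^ j * d' * hw + (p : ℤ_[p]) ^ j * (p ^ i - u) * hy
    have h8 : (((derivative h).eval (r + p ^ j * d' * t) : ℤ) : ℤ_[p]) =
        (n - z) ^ m * ((m + 1) * H.eval n + (n - z) * (derivative H).eval n) := by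
      have := eval_intCast_map (Int.castRingHom ℤ_[p]) (derivative h) (r + p ^ j * d' * t)
      rw [eq_intCast, Int.cast_id, ← derivative_map, h2, ← hn] at this
      rw [← this]
      simp only [derivative_mul, derivative_X_sub_C_pow, eval_add, eval_mul, eval_pow, eval_sub,
        eval_X, eval_C, Nat.add_sub_cancel]
      push_cast; ring
    rw [Int.cast_mul, h8, h7] at h6
    push_cast at h6
    have h9 : ¬ (p : ℤ_[p]) ∣ d' * (1 - p * (d' * w)) ^ m := fun h => by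
      rcases hpp.dvd_or_dvd h with h | h
      · exact hpp.not_unit (isUnit_of_dvd_unit h hd1)
      · exact hpp.not_dvd_one ((dvd_sub_left (dvd_mul_right _ _)).1 (hpp.dvd_of_dvd_pow h))
    have h10 : (p : ℤ_[p]) ^ V ∣ (m + 1) * H.eval n +
        p ^ (j + i) * (1 - p * (d' * w)) * (derivative H).eval n := by
      refine hpp.pow_dvd_of_dvd_mul_left V h9 ((mul_dvd_mul_iff_left
        (pow_ne_zero ((m + 1) * j + i * m) hpp.ne_zero)).1 ?_)
      rw [← pow_add, add_assoc]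
      refine h6.trans (dvd_of_eq ?_)
      rw [mul_pow]
      ring
    have h11 : (p : ℤ_[p]) ^ V ∣ n - z := h7 ▸ (pow_dvd_pow _ hVi).mul_right _
    have h12 : (p : ℤ_[p]) ^ V ∣ (m + 1) * H.eval z := by
      have h13 := (dvd_add_left (((pow_dvd_pow _ hVi).mul_right _).mul_right _)).1 h10
      have h14 := h13.sub ((h11.trans (sub_dvd_eval_sub n z H)).mul_left ((m : ℤ_[p]) + 1))
      rwa [← mul_sub, sub_sub_cancel] at h14
    refine h12.trans ?_
    push_cast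
    refine mul_dvd_mul ?_ h3
    exact_mod_cast Nat.cast_dvd_cast (α := ℤ_[p]) (Nat.dvd_factorial h1 h4)

theorem fam_zero (h : ℤ[X]) (hdeg : 1 ≤ h.natDegree) {p : ℕ} (hp : p.Prime)
    (h1 : h.natDegree < p) (h2 : ¬ (p : ℤ) ∣ h.leadingCoeff) (r d : ℤ) (hd : ¬ (p : ℤ) ∣ d) :
    ∃ t : ℤ, ¬ (p : ℤ) ∣ d * (derivative h).eval (r + d * t) := by
  haveI := Fact.mk hp
  have h3 : (derivative h).map (Int.castRingHom (ZMod p)) ≠ 0 := fun h0 => by
    have := congrArg (fun P => coeff P (h.natDegree - 1)) h0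
    simp only [coeff_map, coeff_derivative, coeff_zero, Nat.sub_add_cancel hdeg, eq_intCast,
      coeff_natDegree] at this
    rcases (Nat.prime_iff_prime_int.1 hp).dvd_or_dvd
      ((ZMod.intCast_zmod_eq_zero_iff_dvd _ p).1 this) with h' | h'
    · exact h2 h'
    · have h4 : p ∣ h.natDegree - 1 + 1 := by exact_mod_cast h'
      exact absurd (Nat.le_of_dvd (by omega) h4) (by omega)
  obtain ⟨x, hx⟩ := exists_eval_ne_zero_of_natDegree_lt_card _ h3 (by
    rw [Cardinal.mk_fintype, ZMod.card, Nat.cast_lt]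
    exact (natDegree_map_le.trans ((natDegree_derivative_le h).trans (Nat.sub_le _ _))).trans_lt h1)
  have hd' : (d : ZMod p) ≠ 0 := fun h0 => hd ((ZMod.intCast_zmod_eq_zero_iff_dvd _ p).1 h0)
  obtain ⟨t, ht⟩ := ZMod.intCast_surjective ((x - (r : ZMod p)) / (d : ZMod p))
  refine ⟨t, fun h4 => ?_⟩
  rcases (Nat.prime_iff_prime_int.1 hp).dvd_or_dvd h4 with h5 | h5
  · exact hd h5
  · refine hx ?_
    have h6 : x = ((r + d * t : ℤ) : ZMod p) := by push_cast; rw [ht]; field_simp; ring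
    rw [h6, eval_intCast_map, eq_intCast, Int.cast_id]
    exact (ZMod.intCast_zmod_eq_zero_iff_dvd _ p).2 h5

theorem fam_prod_dvd (f : ℕ → ℕ) (d : ℕ) (x : ℤ) (h : ∀ p : ℕ, p.Prime → (p : ℤ) ^ f p ∣ x) :
    ((∏ p ∈ d.primeFactors, p ^ f p : ℕ) : ℤ) ∣ x := by
  push_cast
  refine Finset.prod_dvd_of_coprime (fun p hp q hq hpq => ?_)
    fun p hp => h p (Nat.prime_of_mem_primeFactors hp)
  exact IsCoprime.pow (Nat.isCoprime_iff_coprime.2 ((Nat.coprime_primes
    (Nat.prime_of_mem_primeFactors hp) (Nat.prime_of_mem_primeFactors hq)).2 hpq))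

theorem fam_crt (ζ : ℕ → ℕ → ℕ) (d : ℕ) : ∃ r : ℕ, 1 ≤ d → r < d ∧ ∀ p : ℕ, p.Prime →
    (p : ℤ) ^ d.factorization p ∣ (r : ℤ) - ζ p (d.factorization p) := by
  obtain ⟨k, hk⟩ := Nat.chineseRemainderOfFinset (fun p => ζ p (d.factorization p))
    (fun p => p ^ d.factorization p) d.primeFactors
    (fun p hp => pow_ne_zero _ (Nat.prime_of_mem_primeFactors hp).ne_zero)
    fun p hp q hq hpq => Nat.Coprime.pow _ _ ((Nat.coprime_primes
      (Nat.prime_of_mem_primeFactors hp) (Nat.prime_of_mem_primeFactors hq)).2 hpq)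
  refine ⟨k % d, fun hd => ⟨Nat.mod_lt _ hd, fun p hp => ?_⟩⟩
  by_cases h : p ∈ d.primeFactors
  · exact_mod_cast (((Nat.mod_modEq k d).of_dvd (Nat.ordProj_dvd d p)).trans (hk p h)).symm.dvd
  · rw [Nat.factorization_eq_zero_of_not_dvd fun h' =>
      h (Nat.mem_primeFactors.2 ⟨hp, h', by omega⟩), pow_zero]
    exact one_dvd _

theorem exists_fam (h : ℤ[X]) (hdeg : 1 ≤ h.natDegree)
    (hint : ∀ q : ℕ, 1 ≤ q → ∃ t : ℤ, (q : ℤ) ∣ h.eval t) :
    ∃ (g : ℕ → ℤ[X]) (lam r : ℕ → ℕ) (e w₀ : ℕ), Fam h g lam r e w₀ := by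
  obtain ⟨D, hD, hL⟩ := fam_local h hdeg hint
  choose! m ζ hL using hL
  choose r hr using fam_crt ζ
  set lam : ℕ → ℕ := fun q => q.factorization.prod fun p j => p ^ (m p * j) with hlam
  have hlam' : ∀ q, lam q = ∏ p ∈ q.primeFactors, p ^ (m p * q.factorization p) := fun _ => rfl
  have hl0 : ∀ q, (lam q : ℤ) ≠ 0 := fun q => Nat.cast_ne_zero.2 (Finset.prod_ne_zero_iff.2
    fun p hp => pow_ne_zero _ (Nat.prime_of_mem_primeFactors hp).ne_zero)
  have hg : ∀ d : ℕ, ∃ g : ℤ[X], 1 ≤ d →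
      C (lam d : ℤ) * g = h.comp (C (r d : ℤ) + C (d : ℤ) * X) := fun d => by
    by_cases hd : 1 ≤ d
    · obtain ⟨g, hg⟩ := (C_dvd_iff_dvd_coeff (lam d : ℤ)
        (h.comp (C (r d : ℤ) + C (d : ℤ) * X))).2 fun n => fam_prod_dvd _ d _ fun p hp =>
          (hL p hp).dvd _ _ _ ((hr d hd).2 p hp) (by exact_mod_cast Nat.ordProj_dvd d p) n
      exact ⟨g, fun _ => hg.symm⟩
    · exact ⟨0, fun h => absurd h hd⟩
  choose g hg using hg
  have hmul : ∀ a b, 1 ≤ a → 1 ≤ b → lam (a * b) = lam a * lam b := fun a b ha hb => by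
    simp only [hlam]
    rw [Nat.factorization_mul (by omega) (by omega), Finsupp.prod_add_index' (by simp)
      fun p i j => by rw [mul_add, pow_add]]
  have hder : ∀ d, 1 ≤ d → ∀ p : ℕ, p.Prime → ∀ (e : ℕ) (t : ℤ),
      (p : ℤ) ^ e ∣ (derivative (g d)).eval t → (p : ℤ) ^ (m p * d.factorization p + e) ∣
        d * (derivative h).eval (r d + d * t) := fun d hd p hp e t ht => by
    have h1 := congrArg (fun P => (derivative P).eval t) (hg d hd)
    simp only [derivative_C_mul, derivative_comp, derivative_add, derivative_C, derivative_X,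
      eval_mul, eval_C, eval_comp, eval_add, eval_X, zero_add, mul_one] at h1
    rw [← h1, pow_add]
    refine mul_dvd_mul ?_ ht
    by_cases h2 : p ∈ d.primeFactors
    · exact_mod_cast hlam' d ▸ Finset.dvd_prod_of_mem _ h2
    · rw [Nat.factorization_eq_zero_of_not_dvd fun h' =>
        h2 (Nat.mem_primeFactors.2 ⟨hp, h', by omega⟩), mul_zero, pow_zero]
      exact one_dvd _
  have hsplit : ∀ d : ℕ, 1 ≤ d → ∀ p : ℕ, p.Prime → ∃ d' : ℤ, ¬ (p : ℤ) ∣ d' ∧
      (d : ℤ) = p ^ d.factorization p * d' := fun d hd p hp =>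
    ⟨(d / p ^ d.factorization p : ℕ), by exact_mod_cast Nat.not_dvd_ordCompl hp (by omega),
      by exact_mod_cast (Nat.ordProj_mul_ordCompl_eq_self d p).symm⟩
  have hnd : ∀ (p : ℕ) (x : ℤ), x ≠ 0 → x.natAbs < p → ¬ (p : ℤ) ∣ x := fun p x hx h1 h2 =>
    absurd (Nat.le_of_dvd (Int.natAbs_pos.2 hx) (Int.natCast_dvd.1 h2)) (not_le.2 h1)
  refine ⟨g, lam, r, D.natAbs * h.natDegree,
    max (max h.natDegree h.leadingCoeff.natAbs) D.natAbs, ?_, fun d hd => ⟨(hr d hd).1, hg d hd⟩,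
    fun q hq => ⟨?_, ?_⟩, hmul, fun d q hd hq => ⟨r (d * q) / d, ?_⟩, fun d hd p hp => ?_,
    fun d hd p hp hw => ?_⟩
  · have h1 := hg 1 le_rfl
    have h2 : r 1 = 0 := by have := (hr 1 le_rfl).1; omega
    simpa [hlam, h2] using h1
  · conv_lhs => rw [← Nat.factorization_prod_pow_eq_self (show q ≠ 0 by omega)]
    exact Finset.prod_dvd_prod_of_dvd _ _ fun p hp => pow_dvd_pow _
      (Nat.le_mul_of_pos_left _ (hL p (Nat.prime_of_mem_primeFactors hp)).one_le)
  · conv_rhs => rw [← Nat.factorization_prod_pow_eq_self (show q ≠ 0 by omega), Finsupp.prod,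
      ← Finset.prod_pow]
    refine Finset.prod_dvd_prod_of_dvd _ _ fun p hp => ?_
    rw [← pow_mul, mul_comm (q.factorization p)]
    exact pow_dvd_pow _ (Nat.mul_le_mul_right _ (hL p (Nat.prime_of_mem_primeFactors hp)).le)
  · have hdq : 1 ≤ d * q := Nat.mul_pos hd hq
    have h1 : (d : ℤ) ∣ (r (d * q) : ℤ) - r d := by
      have := fam_prod_dvd d.factorization d ((r (d * q) : ℤ) - r d) fun p hp => by
        have h2 : d.factorization p ≤ (d * q).factorization p :=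
          (Nat.factorization_le_iff_dvd (by omega) (by omega)).2 (dvd_mul_right d q) p
        have := (((pow_dvd_pow _ h2).trans ((hr _ hdq).2 p hp)).add
          ((hL p hp).compat _ _ h2)).sub ((hr d hd).2 p hp)
        rwa [sub_add_sub_cancel, sub_sub_sub_cancel_right] at this
      rwa [show ∏ p ∈ d.primeFactors, p ^ d.factorization p = d from
        Nat.factorization_prod_pow_eq_self (by omega)] at this
    have h2 : r (d * q) % d = r d :=
      Eq.trans (Nat.modEq_iff_dvd.2 h1).symm (Nat.mod_eq_of_lt (hr d hd).1)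
    have h3 : (r (d * q) : ℤ) = r d + d * (r (d * q) / d : ℕ) := by
      rw [← h2]; exact_mod_cast (Nat.mod_add_div _ _).symm
    refine mul_left_cancel₀ (C_ne_zero.2 (hl0 d)) ?_
    rw [← mul_assoc, ← map_mul, ← Nat.cast_mul, ← hmul d q hd hq, hg _ hdq, ← C_mul_comp, hg d hd,
      comp_assoc]
    congr 1
    conv_lhs => rw [h3]
    simp only [add_comp, C_comp, mul_comp, X_comp, Nat.cast_mul, map_add, map_mul]
    ring
  · obtain ⟨d', h1, h2⟩ := hsplit d hd p hp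
    obtain ⟨t, ht⟩ := (hL p hp).nd _ (r d) d' D.natAbs D.natAbs ((hr d hd).2 p hp) h1
      (by exact_mod_cast hnd (p ^ D.natAbs) D hD (Nat.lt_pow_self hp.one_lt)) (Nat.le_add_left _ _)
    refine ⟨t, fun h3 => ht ?_⟩
    rw [← h2]
    refine (pow_dvd_pow _ (Nat.add_le_add_left ?_ _)).trans (hder d hd p hp _ t h3)
    rw [← Nat.mul_add_one, Nat.sub_add_cancel (hL p hp).one_le]
    exact Nat.mul_le_mul_left _ (hL p hp).le
  · simp only [max_lt_iff] at hw
    obtain ⟨d', h1, h2⟩ := hsplit d hd p hp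
    rcases Nat.eq_zero_or_pos (d.factorization p) with h0 | h0
    · rw [h0, pow_zero, one_mul] at h2
      obtain ⟨t, ht⟩ := fam_zero h hdeg hp hw.1.1 (hnd p _ (leadingCoeff_ne_zero.2 (by
        rintro rfl; simp at hdeg)) hw.1.2) (r d) d (h2 ▸ h1)
      refine ⟨t, fun h3 => ht ?_⟩
      simpa [h0] using hder d hd p hp 1 t (by simpa using h3)
    · obtain ⟨t, ht⟩ := (hL p hp).nd _ (r d) d' 0 1 ((hr d hd).2 p hp) h1
        (by simpa using hnd p D hD hw.2) h0
      refine ⟨t, fun h3 => ht ?_⟩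
      rw [← h2, zero_mul, zero_add]
      exact hder d hd p hp 1 t (by simpa using h3)

end Vale.Agent.P042U
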