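import Vale.Agent.P042U.Model

/-! A Finner type inequality for doubly covered tuples of sets (task B). -/

namespace Vale.Agent.P042U

open Finset

variable {ι : Type} [Fintype ι] [DecidableEq ι] {V : Type} [Fintype V] [DecidableEq V]

/-- every coordinate that is used is used at least twice -/
def Dbl (T : V → Finset ι) : Prop := ∀ v, ∀ i ∈ T v, ∃ w, w ≠ v ∧ i ∈ T w

lemma finner_expand (A B : V → ℝ) (M : ℝ) :
    ∏ v, (A v ^ 2 + M * B v ^ 2) =
      ∑ J : Finset V, M ^ J.card * (∏ v, if v ∈ J then B v else A v) ^ 2 := by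
  simp_rw [add_comm (A _ ^ 2)]
  rw [prod_add, powerset_univ]
  refine sum_congr rfl fun J _ => ?_
  rw [prod_ite, filter_univ_mem, prod_mul_distrib, prod_const, mul_pow, prod_pow, prod_pow,
    mul_assoc]
  congr 4
  ext v
  simp

lemma finner_one (A B : V → ℝ) (hA : ∀ v, 0 ≤ A v) (hB : ∀ v, 0 ≤ B v) :
    ∑ J : Finset V with J.card ≠ 1, (∏ v, if v ∈ J then B v else A v) ≤
      ∏ v, √(A v ^ 2 + 3 * 2 ^ Fintype.card V * B v ^ 2) := by
  set t : Finset V → ℝ := fun J => ∏ v, if v ∈ J then B v else A v with ht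
  have t0 : ∀ J, 0 ≤ t J := fun J => prod_nonneg fun v _ => by split_ifs; exacts [hB v, hA v]
  set K : Finset (Finset V) := (univ.filter fun J : Finset V => J.card ≠ 1).erase ∅ with hK
  set S : ℝ := ∑ J ∈ (univ : Finset (Finset V)).erase ∅, t J ^ 2 with hS
  have hle : ∀ J : Finset V, J ≠ ∅ → t J ^ 2 ≤ S := fun J hJ =>
    single_le_sum (f := fun J => t J ^ 2) (fun _ _ => sq_nonneg _) (mem_erase.2 ⟨hJ, mem_univ _⟩)
  have hS0 : 0 ≤ S := sum_nonneg fun _ _ => sq_nonneg _
  have hc : (K.card : ℝ) ≤ 2 ^ Fintype.card V := by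
    exact_mod_cast (card_le_univ K).trans_eq Fintype.card_finset
  have h1 : (∑ J ∈ K, t J) ^ 2 ≤ 2 ^ Fintype.card V * S :=
    sq_sum_le_card_mul_sum_sq.trans (mul_le_mul hc (sum_le_sum_of_subset_of_nonneg
      (erase_subset_erase _ (subset_univ _)) fun _ _ _ => sq_nonneg _)
      (sum_nonneg fun _ _ => sq_nonneg _) (by positivity))
  have h2 : t ∅ * ∑ J ∈ K, t J ≤ 2 ^ Fintype.card V * S := by
    rw [mul_sum]
    refine (sum_le_card_nsmul _ _ S fun J hJ => ?_).trans
      (by rw [nsmul_eq_mul]; exact mul_le_mul_of_nonneg_right hc hS0)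
    obtain ⟨hJ0, hJ1⟩ := mem_erase.1 hJ
    obtain ⟨u, hu⟩ := nonempty_iff_ne_empty.2 hJ0
    have h3 : J.erase u ≠ ∅ := fun h => (mem_filter.1 hJ1).2 (by
      rw [← card_erase_add_one hu, h, card_empty])
    have h4 : t ∅ * t J = t {u} * t (J.erase u) := by
      simp only [ht, ← prod_mul_distrib]
      refine prod_congr rfl fun v _ => ?_
      by_cases h : v = u
      · simp [h, hu, mul_comm]
      · simp [h]
    nlinarith [hle _ h3, hle _ (singleton_ne_empty u), sq_nonneg (t {u} - t (J.erase u))]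
  have h5 : t ∅ ^ 2 + 3 * 2 ^ Fintype.card V * S ≤
      ∑ J : Finset V, (3 * 2 ^ Fintype.card V) ^ J.card * t J ^ 2 := by
    rw [← add_sum_erase _ _ (mem_univ ∅), card_empty, pow_zero, one_mul, hS, mul_sum]
    refine add_le_add le_rfl (sum_le_sum fun J hJ => mul_le_mul_of_nonneg_right
      (le_self_pow₀ ?_ (card_ne_zero.2 (nonempty_iff_ne_empty.2 (mem_erase.1 hJ).1)))
      (sq_nonneg _))
    linarith [one_le_pow₀ (M₀ := ℝ) one_le_two (n := Fintype.card V)]
  rw [← Real.sqrt_prod _ fun v _ => by have := hA v; have := hB v; positivity, finner_expand,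
    ← add_sum_erase _ _ (mem_filter.2 ⟨mem_univ ∅, by simp⟩)]
  refine Real.le_sqrt_of_sq_le (le_trans ?_ h5)
  nlinarith

omit [Fintype ι] in
lemma finner_split {P : Finset ι} {i : ι} (hi : i ∉ P) (F : (V → Finset ι) → ℝ) :
    ∑ T ∈ Fintype.piFinset fun _ : V => (insert i P).powerset, F T =
      ∑ J : Finset V, ∑ T ∈ Fintype.piFinset fun _ : V => P.powerset,
        F fun v => if v ∈ J then insert i (T v) else T v := by
  rw [← sum_product']
  refine sum_nbij' (fun T => (univ.filter fun v => i ∈ T v, fun v => (T v).erase i))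
    (fun x v => if v ∈ x.1 then insert i (x.2 v) else x.2 v) ?_ ?_ ?_ ?_ ?_
  · intro T hT
    simp only [Fintype.mem_piFinset, mem_powerset, mem_product, mem_univ, true_and] at hT ⊢
    exact fun v => subset_insert_iff.1 (hT v)
  · intro x hx
    simp only [Fintype.mem_piFinset, mem_powerset, mem_product, mem_univ, true_and] at hx ⊢
    intro v
    split_ifs
    exacts [insert_subset_insert _ (hx v), (hx v).trans (subset_insert _ _)]
  · intro T _
    funext v
    by_cases h : i ∈ T v <;> simp [h]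
  · intro x hx
    simp only [Fintype.mem_piFinset, mem_powerset, mem_product, mem_univ, true_and] at hx
    have h : ∀ v, i ∉ x.2 v := fun v h => hi (hx v h)
    refine Prod.ext (Finset.ext fun v => ?_) (funext fun v => ?_) <;>
      by_cases h' : v ∈ x.1 <;> simp [h', h v]
  · intro T _
    congr 1
    funext v
    by_cases h : i ∈ T v <;> simp [h]

omit [Fintype ι] [Fintype V] in
lemma finner_dbl {J : Finset V} {T : V → Finset ι} {i : ι} (h : ∀ v, i ∉ T v)
    (hD : Dbl fun v => if v ∈ J then insert i (T v) else T v) : J.card ≠ 1 ∧ Dbl T := by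
  refine ⟨fun hJ => ?_, fun v j hj => ?_⟩
  · obtain ⟨u, rfl⟩ := card_eq_one.1 hJ
    obtain ⟨w, hw, hw'⟩ := hD u i (by simp)
    simp [hw, h w] at hw'
  · obtain ⟨w, hw, hw'⟩ := hD v j (by
      by_cases h' : v ∈ J <;> simp [h', hj])
    refine ⟨w, hw, ?_⟩
    have hji : j ≠ i := fun e => h v (e ▸ hj)
    by_cases h' : w ∈ J <;> simpa [h', hji] using hw'

open Classical in
omit [Fintype ι] in
lemma finner_gen (P : Finset ι) : ∀ g : V → Finset ι → ℝ, (∀ v T, 0 ≤ g v T) →
    (∑ T ∈ Fintype.piFinset fun _ : V => P.powerset, if Dbl T then ∏ v, g v (T v) else 0) ≤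
      ∏ v, √(∑ T ∈ P.powerset, (3 * 2 ^ Fintype.card V) ^ T.card * g v T ^ 2) := by
  induction P using Finset.induction_on with
  | empty =>
    intro g hg
    simp only [powerset_empty, Fintype.piFinset_singleton, sum_singleton, card_empty, pow_zero,
      one_mul, Real.sqrt_sq (hg _ _)]
    split_ifs
    exacts [le_rfl, prod_nonneg fun _ _ => hg _ _]
  | insert i P hi ih =>
    intro g hg
    have h0 : ∀ (f : Finset ι → ℝ),
        0 ≤ ∑ T ∈ P.powerset, (3 * 2 ^ Fintype.card V) ^ T.card * f T ^ 2 := fun f =>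
      sum_nonneg fun _ _ => by positivity
    rw [finner_split hi]
    refine le_trans ?_ ((finner_one
      (fun v => √(∑ T ∈ P.powerset, (3 * 2 ^ Fintype.card V) ^ T.card * g v T ^ 2))
      (fun v => √(∑ T ∈ P.powerset, (3 * 2 ^ Fintype.card V) ^ T.card * g v (insert i T) ^ 2))
      (fun _ => Real.sqrt_nonneg _) fun _ => Real.sqrt_nonneg _).trans_eq ?_)
    · rw [sum_filter]
      refine sum_le_sum fun J _ => ?_
      have hT : ∀ T ∈ Fintype.piFinset fun _ : V => P.powerset, ∀ v, i ∉ T v := fun T hT v h =>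
        hi (mem_powerset.1 (Fintype.mem_piFinset.1 hT v) h)
      by_cases hJ : J.card ≠ 1
      · rw [if_pos hJ]
        refine le_trans (sum_le_sum fun T hT' => ?_) ((ih
          (fun v T => g v (if v ∈ J then insert i T else T)) fun _ _ => hg _ _).trans_eq ?_)
        · split_ifs with h1 h2 h2
          exacts [le_rfl, absurd (finner_dbl (hT T hT') h1).2 h2,
            prod_nonneg fun _ _ => hg _ _, le_rfl]
        · refine prod_congr rfl fun v _ => ?_
          split_ifs <;> rfl
      · rw [if_neg hJ]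
        exact (sum_eq_zero fun T hT' => if_neg fun h => hJ (finner_dbl (hT T hT') h).1).le
    · refine prod_congr rfl fun v _ => ?_
      rw [Real.sq_sqrt (h0 _), Real.sq_sqrt (h0 _), sum_powerset_insert hi, mul_sum]
      congr 2
      refine sum_congr rfl fun T hT => ?_
      rw [card_insert_of_notMem fun h => hi (mem_powerset.1 hT h)]
      ring

open Classical in
theorem finner (g : V → Finset ι → ℝ) (hg : ∀ v T, 0 ≤ g v T) :
    ∑ T : V → Finset ι with Dbl T, ∏ v, g v (T v) ≤
      ∏ v, √(∑ T : Finset ι, (3 * 2 ^ Fintype.card V) ^ T.card * g v T ^ 2) := by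
  have := finner_gen univ g hg
  rw [powerset_univ, Fintype.piFinset_univ] at this
  rwa [sum_filter]

end Vale.Agent.P042U
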