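import Vale.Agent.P042U.Sq

/-! Bounds for a single term of the expansion (task D). -/

namespace Vale.Agent.P042U

open Finset
open scoped BigOperators

section One

variable {A : Type} [Fintype A] [DecidableEq A] [AddCommGroup A] {V : Type} [Fintype V]
  [DecidableEq V]

theorem flat_coord (u : V) (F : A → ℝ) : 𝔼 x : V → A, F (x u) = 𝔼 a, F a := by
  rw [sq_update (Ω := fun _ : V => A) u]
  simp only [Function.update_self, Fintype.expect_const]

theorem flat_transl {k : (V → A) → ℝ} (hk : ∀ x c, k (fun v => x v + c) = k x) (u : V)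
    {F : A → ℝ} (hF : 𝔼 a, F a = 0) : 𝔼 x, k x * F (x u) = 0 := by
  have h : ∀ c : A, 𝔼 x, k x * F (x u) = 𝔼 x, k x * F (x u + c) := fun c =>
    (Fintype.expect_equiv (Equiv.addRight fun _ => c) _ _ fun x => by
      rw [← hk x c]; rfl).symm
  rw [← Fintype.expect_const (ι := A) (𝔼 x, k x * F (x u)), expect_congr rfl fun c _ => h c,
    expect_comm]
  refine expect_eq_zero fun x _ => ?_
  rw [← mul_expect, Fintype.expect_equiv (Equiv.addLeft (x u)) (fun c => F (x u + c)) F
    fun _ => rfl, hF, mul_zero]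

theorem flat_bdd {k Φ : (V → A) → ℝ} {κ : ℝ} (u : V) (hk : ∀ x, |k x| ≤ κ) :
    𝔼 x, (𝔼 c, Φ (Function.update x u c) * k (Function.update x u c)) ^ 2 ≤
      κ ^ 2 * 𝔼 x, Φ x ^ 2 := by
  rw [sq_update (Ω := fun _ : V => A) u fun x => Φ x ^ 2, mul_expect]
  refine expect_le_expect fun x _ => (expect_mul_sq_le_sq_mul_sq _ _ _).trans ?_
  rw [mul_comm]
  exact mul_le_mul_of_nonneg_right (expect_le univ_nonempty fun c _ =>
    sq_le_sq' (abs_le.1 (hk _)).1 (abs_le.1 (hk _)).2) (expect_nonneg fun _ _ => sq_nonneg _)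

theorem flat_can {k Φ : (V → A) → ℝ} {κ : ℝ} (hκ : 0 ≤ κ) (u : V)
    (hk : ∀ (F : A → ℝ) (G : (V → A) → ℝ), 𝔼 a, F a = 0 →
      (∀ x a, G (Function.update x u a) = G x) →
      |𝔼 x, F (x u) * G x * k x| ≤ κ / 2 * (𝔼 a, F a ^ 2 + 𝔼 x, G x ^ 2))
    (h1 : ∀ x y, x u = y u → Φ x = Φ y) (h2 : 𝔼 x, Φ x = 0) :
    𝔼 x, (𝔼 c, Φ (Function.update x u c) * k (Function.update x u c)) ^ 2 ≤
      κ ^ 2 * 𝔼 x, Φ x ^ 2 := by
  obtain ⟨F, rfl⟩ : ∃ F : A → ℝ, Φ = fun x => F (x u) :=
    ⟨fun c => Φ fun _ => c, funext fun x => h1 _ _ rfl⟩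
  rw [flat_coord] at h2
  simp only [Function.update_self]
  rw [flat_coord u fun a => F a ^ 2]
  set G : (V → A) → ℝ := fun x => 𝔼 c, F c * k (Function.update x u c) with hG
  have hG' : ∀ x a, G (Function.update x u a) = G x := fun x a => by
    simp only [hG, Function.update_idem]
  have e : 𝔼 x, F (x u) * G x * k x = 𝔼 x, G x ^ 2 := by
    rw [sq_update (Ω := fun _ : V => A) u]
    refine expect_congr rfl fun x _ => ?_
    simp only [hG', Function.update_self, mul_right_comm (F _)]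
    rw [← expect_mul, sq]
  show 𝔼 x, G x ^ 2 ≤ _
  rcases hκ.eq_or_lt with rfl | h0
  · have := (le_abs_self _).trans (hk F G h2 hG')
    rw [e] at this
    simpa using this
  · have := (le_abs_self _).trans (hk (fun a => κ * F a) G (by rw [← mul_expect, h2, mul_zero]) hG')
    simp only [mul_assoc κ, mul_pow, ← mul_expect, e] at this
    exact le_of_mul_le_mul_left (by linarith) h0

end One

variable {ι : Type} [Fintype ι] [DecidableEq ι] {Ω : ι → Type} [∀ i, Fintype (Ω i)]
  [∀ i, DecidableEq (Ω i)] [∀ i, AddCommGroup (Ω i)] {V : Type} [Fintype V] [DecidableEq V]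

theorem flat_swap (Φ : (V → ∀ i, Ω i) → ℝ) :
    𝔼 x, Φ x = 𝔼 w : ∀ i, V → Ω i, Φ fun v i => w i v :=
  Fintype.expect_equiv (Equiv.piComm _) _ _ fun _ => rfl

theorem flat_form (k : ∀ i, (V → Ω i) → ℝ) (H : V → (∀ i, Ω i) → ℝ) :
    Form k H = 𝔼 w : ∀ i, V → Ω i, (∏ i, k i (w i)) * ∏ v, H v fun i => w i v := flat_swap _

theorem flat_upd (w : ∀ i, V → Ω i) (i : ι) (a : V → Ω i) (v : V) :
    (fun j => Function.update w i a j v) = Function.update (fun j => w j v) i (a v) := by
  funext j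
  by_cases h : j = i
  · subst h
    simp
  · simp [h]

/-- only the mean of the kernel matters at coordinates that are not used -/
theorem form_indep {k k' : ∀ i, (V → Ω i) → ℝ} {H : V → (∀ i, Ω i) → ℝ} {S : Finset ι}
    (hH : ∀ v, DepOn S (H v)) (h1 : ∀ i ∈ S, k i = k' i)
    (h2 : ∀ i, i ∉ S → 𝔼 x, k i x = 𝔼 x, k' i x) : Form k H = Form k' H := by
  have e : ∀ k : ∀ i, (V → Ω i) → ℝ, Form k H = (∏ i ∈ Sᶜ, 𝔼 x, k i x) *
      𝔼 w : ∀ i, V → Ω i, (∏ i ∈ S, k i (w i)) * ∏ v, H v fun i => w i v := fun k => by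
    rw [flat_form, ← sq_prod_on, ← sq_indep (disjoint_compl_left (a := S))
      (fun x y h => prod_congr rfl fun i hi => by rw [h i hi]) fun x y h => by
        rw [prod_congr rfl fun i hi => show k i (x i) = k i (y i) by rw [h i hi],
          prod_congr rfl fun v _ => hH v _ _ fun i hi => congrFun (h i hi) v]]
    simp only [← mul_assoc, prod_compl_mul_prod]
  rw [e, e, prod_congr rfl fun i hi => h2 i (mem_compl.1 hi)]
  simp only [fun w : ∀ i, V → Ω i => prod_congr rfl fun i hi => congrFun (h1 i hi) (w i)]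

/-- a coordinate with mean zero that is used only once kills the form -/
theorem form_zero {k : ∀ i, (V → Ω i) → ℝ} {H : V → (∀ i, Ω i) → ℝ} {i : ι} {u : V}
    (hk : ∀ x c, k i (fun v => x v + c) = k i x)
    (hu : ∀ y, 𝔼 a, H u (Function.update y i a) = 0)
    (hv : ∀ v, v ≠ u → ∀ y a, H v (Function.update y i a) = H v y) : Form k H = 0 := by
  rw [flat_form, sq_update i]
  refine expect_eq_zero fun w _ => ?_
  have e : ∀ a : V → Ω i, (∏ j, k j (Function.update w i a j)) *
      ∏ v, H v (fun j => Function.update w i a j v) =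
      k i a * H u (Function.update (fun j => w j u) i (a u)) *
        ((∏ j ∈ univ.erase i, k j (w j)) * ∏ v ∈ univ.erase u, H v fun j => w j v) := fun a => by
    rw [← mul_prod_erase _ _ (mem_univ i), ← mul_prod_erase _ _ (mem_univ u), Function.update_self,
      mul_mul_mul_comm, flat_upd]
    congr 2
    · exact prod_congr rfl fun j hj => by rw [Function.update_of_ne (ne_of_mem_erase hj)]
    · exact prod_congr rfl fun v h => by rw [flat_upd, hv v (ne_of_mem_erase h)]
  simp only [e]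
  rw [← expect_mul, flat_transl hk u (hu _), zero_mul]

theorem flat_tensor {k : ∀ i, (V → Ω i) → ℝ} {T : Finset ι} {u : V}
    {κ : ι → ℝ} (hκ : ∀ i, 0 ≤ κ i)
    (h1 : ∀ i ∈ T, ∀ (F : Ω i → ℝ) (G : (V → Ω i) → ℝ), 𝔼 a, F a = 0 →
      (∀ x a, G (Function.update x u a) = G x) →
      |𝔼 x, F (x u) * G x * k i x| ≤ κ i / 2 * (𝔼 a, F a ^ 2 + 𝔼 x, G x ^ 2))
    (h2 : ∀ i, i ∉ T → ∀ x, |k i x| ≤ κ i) {Ψ : (∀ i, V → Ω i) → ℝ}
    (hΨ : ∀ i w c, Ψ (Function.update w i (Function.update (w i) u c)) = Ψ w) (S : Finset ι) :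
    ∀ Φ : (∀ i, V → Ω i) → ℝ, (∀ i ∈ S, ∀ w a b, a u = b u →
      Φ (Function.update w i a) = Φ (Function.update w i b)) →
      (∀ i ∈ S, i ∈ T → ∀ w, 𝔼 a, Φ (Function.update w i a) = 0) →
      (𝔼 w, Φ w * Ψ w * ∏ i ∈ S, k i (w i)) ^ 2 ≤
        (∏ i ∈ S, κ i) ^ 2 * ((𝔼 w, Φ w ^ 2) * 𝔼 w, Ψ w ^ 2) := by
  induction S using Finset.induction_on with
  | empty => simpa using fun Φ => expect_mul_sq_le_sq_mul_sq univ Φ Ψ
  | insert i S hi ih =>
  intro Φ p1 p2
  have ne : ∀ j ∈ S, j ≠ i := fun j hj e => hi (e ▸ hj)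
  set Φ' : (∀ i, V → Ω i) → ℝ := fun w => 𝔼 c,
    Φ (Function.update w i (Function.update (w i) u c)) * k i (Function.update (w i) u c) with hΦ
  have e : ∀ j ∈ S, ∀ w a, Φ' (Function.update w j a) = 𝔼 c, Φ (Function.update
      (Function.update w i (Function.update (w i) u c)) j a) *
      k i (Function.update (w i) u c) := fun j hj w a => by
    simp only [hΦ, Function.update_of_ne (ne j hj).symm, Function.update_comm (ne j hj)]
  have q1 := ih Φ' (fun j hj w a b h => by
      simp only [e j hj, fun w => p1 j (mem_insert_of_mem hj) w a b h]) fun j hj hT w => by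
    simp only [e j hj]
    rw [expect_comm]
    refine expect_eq_zero fun c _ => ?_
    rw [← expect_mul, p2 j (mem_insert_of_mem hj) hT, zero_mul]
  have q2 : 𝔼 w, Φ' w ^ 2 ≤ κ i ^ 2 * 𝔼 w, Φ w ^ 2 := by
    rw [sq_update i, sq_update i fun w => Φ w ^ 2, mul_expect]
    refine expect_le_expect fun w _ => ?_
    simp only [hΦ, Function.update_self, Function.update_idem]
    by_cases hT : i ∈ T
    · exact flat_can (Φ := fun a => Φ (Function.update w i a)) (hκ i) u (h1 i hT)
        (p1 i (mem_insert_self _ _) w) (p2 i (mem_insert_self _ _) hT w)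
    · exact flat_bdd (Φ := fun a => Φ (Function.update w i a)) u (h2 i hT)
  have q3 : 𝔼 w, Φ w * Ψ w * ∏ j ∈ insert i S, k j (w j) = 𝔼 w, Φ' w * Ψ w * ∏ j ∈ S, k j (w j) := by
    rw [sq_update i, sq_update i fun w => Φ' w * Ψ w * _]
    refine expect_congr rfl fun w _ => ?_
    rw [sq_update (Ω := fun _ : V => Ω i) u]
    refine expect_congr rfl fun a _ => ?_
    have := hΨ i (Function.update w i a)
    simp only [Function.update_self, Function.update_idem] at this
    simp only [hΦ, Function.update_self, Function.update_idem, expect_mul, prod_insert hi, this,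
      fun a => prod_congr rfl fun j hj =>
        congrArg (k j) (Function.update_of_ne (ne j hj) a w)]
    exact expect_congr rfl fun c _ => by ring
  rw [q3, prod_insert hi]
  refine q1.trans (le_of_le_of_eq (mul_le_mul_of_nonneg_left (mul_le_mul_of_nonneg_right q2
    (expect_nonneg fun _ _ => sq_nonneg _)) (sq_nonneg _)) (by ring))

/-- flattening at the vertex `u` -/
theorem form_flat {k : ∀ i, (V → Ω i) → ℝ} {H : V → (∀ i, Ω i) → ℝ} {T : Finset ι} {u : V}
    {κ : ι → ℝ} (hκ : ∀ i, 0 ≤ κ i)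
    (h1 : ∀ i ∈ T, ∀ (F : Ω i → ℝ) (G : (V → Ω i) → ℝ), 𝔼 a, F a = 0 →
      (∀ x a, G (Function.update x u a) = G x) →
      |𝔼 x, F (x u) * G x * k i x| ≤ κ i / 2 * (𝔼 a, F a ^ 2 + 𝔼 x, G x ^ 2))
    (h2 : ∀ i, i ∉ T → ∀ x, |k i x| ≤ κ i)
    (hu : ∀ i ∈ T, ∀ y, 𝔼 a, H u (Function.update y i a) = 0) :
    |Form k H| ≤ (∏ i, κ i) * ∏ v, √(𝔼 y, H v y ^ 2) := by
  have k1 := flat_tensor hκ h1 h2 (Ψ := fun w => ∏ v ∈ univ.erase u, H v fun i => w i v)
    (fun i w c => prod_congr rfl fun v hv => by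
      rw [flat_upd, Function.update_of_ne (ne_of_mem_erase hv)]
      exact congrArg _ (Function.update_eq_self i fun j => w j v)) univ
    (fun w => H u fun i => w i u) (fun i _ w a b h => by simp only [flat_upd, h])
    fun i _ hi w => by
      simp only [flat_upd]
      rw [flat_coord u fun a => H u (Function.update (fun j => w j u) i a), hu i hi]
  have k0 : ∀ v, 0 ≤ 𝔼 y, H v y ^ 2 := fun v => expect_nonneg fun _ _ => sq_nonneg _
  rw [← flat_swap fun x => H u (x u) ^ 2, ← flat_swap fun x => (∏ v ∈ univ.erase u, H v (x v)) ^ 2,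
    flat_coord u fun y => H u y ^ 2] at k1
  simp only [← prod_pow, fun w : ∀ i, V → Ω i =>
    mul_prod_erase univ (fun v => H v fun i => w i v) (mem_univ u)] at k1
  rw [sq_prod_on (Ω := fun _ : V => ∀ i, Ω i) _ fun v y => H v y ^ 2,
    mul_prod_erase univ (fun v => 𝔼 y, H v y ^ 2) (mem_univ u), prod_pow] at k1
  refine abs_le_of_sq_le_sq ?_ (mul_nonneg (prod_nonneg fun i _ => hκ i)
    (prod_nonneg fun _ _ => Real.sqrt_nonneg _))
  rw [mul_pow, ← prod_pow univ 2 fun v => √(𝔼 y, H v y ^ 2),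
    prod_congr rfl fun v _ => Real.sq_sqrt (k0 v), flat_form]
  simpa only [mul_comm] using k1

theorem flat_ite (P : Finset ι) (f : ι → ℝ) : ∏ i, (if i ∈ P then 1 else f i) = ∏ i ∈ Pᶜ, f i := by
  simp only [← Fintype.prod_ite_mem Pᶜ, mem_compl, ite_not]

/-- the bound for one term: `θ ^ m` is the cancellation parameter -/
theorem term_bound {k k₀ cp : ∀ i, (V → Ω i) → ℝ} {C : ℝ} {θ : ι → ℝ} (hC : 1 ≤ C)
    (hθ : ∀ i, 0 ≤ θ i ∧ θ i ≤ 1) [Nonempty V]
    (hk : ∀ i, Adm (k i) (k₀ i) (cp i) C (θ i ^ Fintype.card V))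
    {H : V → (∀ i, Ω i) → ℝ} {T : V → Finset ι} (hH : ∀ v, DepOn (T v) (H v))
    (hz : ∀ v, ∀ i ∈ T v, ∀ y, 𝔼 a, H v (Function.update y i a) = 0) :
    |Form k H| ≤ (∏ i ∈ univ.biUnion T, (2 * C * θ i)) *
      𝔼 P : Finset ι, 𝔼 x : V → ∀ i, Ω i, (∏ i ∈ P, cp i fun v => x v i) *
        ∏ v, √(𝔼 y, H v (P.piecewise (x v) y) ^ 2) := by
  set S := univ.biUnion T with hS
  have hTS : ∀ v, T v ⊆ S := fun v => subset_biUnion_of_mem T (mem_univ v)
  have hm : Fintype.card V ≠ 0 := Fintype.card_ne_zero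
  let a : ∀ i, (V → Ω i) → ℝ := fun i x => if i ∈ S then k₀ i x else (𝔼 x, k i x) / 2
  let b : ∀ i, (V → Ω i) → ℝ := fun i x =>
    if i ∈ S then k i x - k₀ i x else (𝔼 x, k i x) / 2 * cp i x
  let δ : ι → ℝ := fun i => if i ∈ S then C * θ i else 1 / 2
  have hp : ∀ i, 0 ≤ θ i ^ Fintype.card V ∧ θ i ^ Fintype.card V ≤ θ i := fun i =>
    ⟨pow_nonneg (hθ i).1 _, pow_le_of_le_one (hθ i).1 (hθ i).2 hm⟩
  have hδ : ∀ i, 0 ≤ δ i := fun i => by
    have := (hθ i).1
    simp only [δ]
    split_ifs <;> positivity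
  have ha : ∀ i, |(𝔼 x, k i x) / 2| ≤ 1 / 2 := fun i => by
    rw [abs_div, abs_two]
    linarith [(hk i).mean]
  have hb : ∀ i x, |b i x| ≤ δ i * cp i x := fun i x => by
    simp only [b, δ]
    split_ifs
    · exact ((hk i).rest x).trans (mul_le_mul_of_nonneg_right ((hp i).2.trans
        (le_mul_of_one_le_left (hθ i).1 hC)) ((hk i).cp_nonneg x))
    · rw [abs_mul, abs_of_nonneg ((hk i).cp_nonneg x)]
      exact mul_le_mul_of_nonneg_right (ha i) ((hk i).cp_nonneg x)
  have inner : ∀ (P : Finset ι) (z : V → ∀ i, Ω i),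
      |Form (fun i x => if i ∈ P then 1 else a i x) fun v y => H v (P.piecewise (z v) y)| ≤
        (∏ i, if i ∈ P then 1 else δ i) * ∏ v, √(𝔼 y, H v (P.piecewise (z v) y) ^ 2) := by
    intro P z
    let κ : V → ι → ℝ := fun u i => if i ∈ P then 1 else if i ∈ T u then θ i ^ Fintype.card V
      else if i ∈ S then C else 1 / 2
    have k0 : ∀ u i, 0 ≤ κ u i := fun u i => by
      have := (hp i).1
      simp only [κ]
      split_ifs <;> positivity
    have k1 := fun u => form_flat (k := fun i x => if i ∈ P then 1 else a i x)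
      (H := fun v y => H v (P.piecewise (z v) y)) (T := T u \ P) (u := u) (k0 u)
      (fun i hi => by
        obtain ⟨h1, h2⟩ := mem_sdiff.1 hi
        simpa only [κ, a, h1, h2, hTS u h1, if_true, if_false] using (hk i).flat u)
      (fun i hi x => by
        simp only [κ, a]
        split_ifs with h1 h2 h3 h4
        exacts [abs_one.le, absurd (mem_sdiff.2 ⟨h3, h1⟩) hi, (hk i).bdd x, absurd (hTS u h4) h2,
          ha i])
      fun i hi y => by
        simp only [← update_piecewise_of_notMem _ _ _ (mem_sdiff.1 hi).2,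
          hz u i (mem_sdiff.1 hi).1]
    have k2 : ∀ i, ∏ u, κ u i ≤ (if i ∈ P then 1 else δ i) ^ Fintype.card V := fun i => by
      by_cases h1 : i ∈ P
      · simp [κ, h1]
      by_cases h2 : i ∈ S
      · obtain ⟨u, -, hu⟩ := mem_biUnion.1 h2
        simp only [κ, δ, h1, h2, if_true, if_false]
        rw [← mul_prod_erase _ _ (mem_univ u), if_pos hu, mul_pow, mul_comm]
        refine mul_le_mul_of_nonneg_right (((prod_le_prod (g := fun _ => C) (fun v _ => ?_)
          fun v _ => ?_).trans_eq (prod_const _)).trans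
          (pow_le_pow_right₀ hC (card_le_univ _))) (hp i).1 <;> split_ifs
        exacts [(hp i).1, zero_le_one.trans hC, ((hp i).2.trans (hθ i).2).trans hC, le_rfl]
      · simp [κ, δ, h1, h2, fun u => mt (@hTS u i) h2]
    have k3 : ∀ i, 0 ≤ if i ∈ P then 1 else δ i := fun i => by
      split_ifs
      exacts [zero_le_one, hδ i]
    have k4 : 0 ≤ ∏ v, √(𝔼 y, H v (P.piecewise (z v) y) ^ 2) :=
      prod_nonneg fun _ _ => Real.sqrt_nonneg _
    refine le_of_pow_le_pow_left₀ hm (mul_nonneg (prod_nonneg fun i _ => k3 i) k4) ?_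
    have k5 := prod_le_prod (s := univ) (fun _ _ => abs_nonneg _) fun u _ => k1 u
    rw [prod_const, prod_mul_distrib, prod_const, card_univ, prod_comm] at k5
    rw [mul_pow, ← prod_pow]
    exact k5.trans (mul_le_mul_of_nonneg_right (prod_le_prod
      (fun i _ => prod_nonneg fun u _ => k0 u i) fun i _ => k2 i) (pow_nonneg k4 _))
  have e1 : Form k H = ∑ P : Finset ι, 𝔼 z : V → ∀ i, Ω i, (∏ i ∈ P, b i fun v => z v i) *
      Form (fun i x => if i ∈ P then 1 else a i x) fun v y => H v (P.piecewise (z v) y) := by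
    rw [form_indep (k' := fun i x => b i x + a i x) (S := S)
      (fun v x y h => hH v x y fun i hi => h i (hTS v hi))
      (fun i hi => by simp [a, b, hi]) fun i hi => by
        have := (hk i).cp_marg (Classical.arbitrary V) fun _ => 1
        simp only [mul_one, Fintype.expect_const] at this
        simp only [a, b, hi, if_false, expect_add_distrib, ← mul_expect, this, Fintype.expect_const]
        ring, flat_form]
    simp only [Fintype.prod_add, sum_mul, expect_sum_comm]
    refine sum_congr rfl fun P _ => ?_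
    rw [expect_piecewise P, flat_swap]
    refine expect_congr rfl fun w _ => ?_
    rw [flat_form, mul_expect]
    refine expect_congr rfl fun w' _ => ?_
    rw [← mul_assoc, flat_ite]
    congr 2
    · exact prod_congr rfl fun i hi => by rw [piecewise_eq_of_mem _ _ _ hi]
    · exact prod_congr rfl fun i hi => by rw [piecewise_eq_of_notMem _ _ _ (mem_compl.1 hi)]
    · funext v
      congr 1
      funext i
      by_cases h : i ∈ P <;> simp [h]
  have e2 : ∏ i ∈ S, 2 * C * θ i = Fintype.card (Finset ι) * ∏ i, δ i := by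
    rw [Fintype.card_finset, ← Fintype.prod_ite_mem, Nat.cast_pow, ← card_univ, ← prod_const,
      ← prod_mul_distrib]
    refine prod_congr rfl fun i _ => ?_
    simp only [δ]
    split_ifs <;> push_cast <;> ring
  rw [e1, e2, mul_right_comm, Fintype.card_mul_expect, sum_mul]
  refine (abs_sum_le_sum_abs _ _).trans (sum_le_sum fun P _ => (abs_expect_le _ _).trans ?_)
  rw [expect_mul]
  refine expect_le_expect fun z _ => ?_
  rw [abs_mul, abs_prod]
  refine (mul_le_mul (prod_le_prod (fun _ _ => abs_nonneg _) fun i _ => hb i _) (inner P z)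
    (abs_nonneg _) (prod_nonneg fun i _ => mul_nonneg (hδ i) ((hk i).cp_nonneg _))).trans_eq ?_
  rw [prod_mul_distrib, flat_ite, ← prod_mul_prod_compl P δ]
  ring

end Vale.Agent.P042U
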