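import Vale.Agent.P042U.HexA

/-! Evaluation of the pattern forms on one hexagon. -/

namespace Vale.Agent.P042U

open Finset
open scoped BigOperators

variable {Y : Type} [Fintype Y] [Nonempty Y]

/-- the weight of a pair of labels -/
def hexB (B : ℤ → Y → Y → ℝ) (x y : Y) : ℝ := B 0 x y * B 0 y x

/-- the weighted average over the second label -/
noncomputable def hexU (B : ℤ → Y → Y → ℝ) (g : Y → Y → ℝ) (x : Y) : ℝ :=
  𝔼 p, B 0 p p * hexB B x p * g x p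

/-- the weighted mean over two labels -/
noncomputable def hexN (B : ℤ → Y → Y → ℝ) (g : Y → Y → ℝ) : ℝ :=
  𝔼 x, 𝔼 p, B 0 x x * (B 0 p p * hexB B x p * g x p)

/-- the weight of three labels -/
def hexW (B : ℤ → Y → Y → ℝ) (a b c : Y) : ℝ :=
  B 0 a a * B 0 b b * B 0 c c * hexB B a b * hexB B b c * (B (-1) a c * B 1 c a)

theorem hexG1 (B : ℤ → Y → Y → ℝ) (t : Fin 13) (i : Fin 6) (hs : univ.filter (used t) = {i})
    (h0 : tau t i i = 0) (Φ : (Fin 6 → Y) → ℝ) (g : Y → ℝ)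
    (hΦ : ∀ l : Fin 6 → Y, Φ (fun j => l (blk t j)) = g (l i)) :
    hexForm B t Φ = 𝔼 x, B 0 x x * g x := by
  rw [← hexE1 i fun x => B 0 x x * g x]
  refine Finset.expect_congr rfl fun l _ => ?_
  rw [hΦ, hs, Finset.prod_singleton, Finset.prod_singleton, h0, mul_comm]

theorem hexG2 (B : ℤ → Y → Y → ℝ) (t : Fin 13) (i j : Fin 6) (hij : j ≠ i)
    (hs : univ.filter (used t) = {i, j}) (h0 : ∀ a b, tau t a b = 0)
    (Φ : (Fin 6 → Y) → ℝ) (g : Y → Y → ℝ)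
    (hΦ : ∀ l : Fin 6 → Y, Φ (fun j => l (blk t j)) = g (l i) (l j)) :
    hexForm B t Φ = hexN B g := by
  rw [hexN, ← hexE2 hij fun x p => B 0 x x * (B 0 p p * hexB B x p * g x p)]
  refine Finset.expect_congr rfl fun l _ => ?_
  rw [hΦ, hs]
  simp only [Finset.prod_pair hij.symm, h0, hexB]
  ring

omit [Nonempty Y] in
theorem hexP3 {i j k : Fin 6} (hij : j ≠ i) (hik : k ≠ i) (hjk : k ≠ j) (g : Fin 6 → ℝ) :
    ∏ a ∈ ({i, j, k} : Finset (Fin 6)), g a = g i * g j * g k := by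
  rw [Finset.prod_insert (by simp [hij.symm, hik.symm]), Finset.prod_pair hjk.symm, mul_assoc]

omit [Fintype Y] [Nonempty Y] in
theorem hexBbd {B : ℤ → Y → Y → ℝ} {C : ℝ} (hB : ∀ σ x y, 0 ≤ B σ x y ∧ B σ x y ≤ C)
    (σ τ : ℤ) (x y z w : Y) : 0 ≤ B σ x y * B τ z w ∧ B σ x y * B τ z w ≤ C ^ 2 :=
  ⟨mul_nonneg (hB _ _ _).1 (hB _ _ _).1, by
    rw [sq]
    exact mul_le_mul (hB _ _ _).2 (hB _ _ _).2 (hB _ _ _).1 ((hB 0 x x).1.trans (hB 0 x x).2)⟩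

omit [Nonempty Y] in
theorem hexSqU {B : ℤ → Y → Y → ℝ} {C : ℝ} (hB : ∀ σ x y, 0 ≤ B σ x y ∧ B σ x y ≤ C)
    (g : Y → Y → ℝ) (x : Y) :
    𝔼 p, (B 0 p p * hexB B x p * g x p) ^ 2 ≤
      C ^ 3 * 𝔼 p, B 0 p p * hexB B x p * g x p ^ 2 := by
  rw [Finset.mul_expect]
  refine Finset.expect_le_expect fun p _ => ?_
  have h1 := hexBbd hB 0 0 x p p x
  have h2 := hB 0 p p
  have h3 : B 0 p p * hexB B x p ≤ C ^ 3 := by
    rw [pow_succ' C 2]
    exact mul_le_mul h2.2 h1.2 h1.1 (h2.1.trans h2.2)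
  have h4 : 0 ≤ B 0 p p * hexB B x p := mul_nonneg h2.1 h1.1
  calc (B 0 p p * hexB B x p * g x p) ^ 2
      = (B 0 p p * hexB B x p) * (B 0 p p * hexB B x p * g x p ^ 2) := by ring
    _ ≤ _ := mul_le_mul_of_nonneg_right h3 (mul_nonneg h4 (sq_nonneg _))

theorem hexG3 {B : ℤ → Y → Y → ℝ} {C ε : ℝ} (hε : 0 ≤ ε)
    (hB : ∀ σ x y, 0 ≤ B σ x y ∧ B σ x y ≤ C)
    (hsm : ∀ (σ : ℤ) (F G : Y → ℝ), |𝔼 x, 𝔼 y, F x * G y * (B σ x y * B (-σ) y x - 1)| ≤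
      ε / 2 * (𝔼 x, F x ^ 2 + 𝔼 y, G y ^ 2))
    (t : Fin 13) (i j k : Fin 6) (hij : j ≠ i) (hik : k ≠ i) (hjk : k ≠ j)
    (hs : univ.filter (used t) = {i, j, k})
    (h0 : tau t i i = 0 ∧ tau t j j = 0 ∧ tau t k k = 0 ∧ tau t i j = 0 ∧ tau t j i = 0 ∧
      tau t i k = 0 ∧ tau t k i = 0)
    (Φ : (Fin 6 → Y) → ℝ) (g h : Y → Y → ℝ)
    (hΦ : ∀ l : Fin 6 → Y, Φ (fun j => l (blk t j)) = g (l i) (l j) * h (l i) (l k)) :
    𝔼 x, B 0 x x * (hexU B g x * hexU B h x) -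
      ε / 2 * C ^ 3 * (hexN B (fun x p => g x p ^ 2) + hexN B fun x p => h x p ^ 2) ≤
      hexForm B t Φ := by
  obtain ⟨t1, t2, t3, t4, t5, t6, t7⟩ := h0
  have e1 : hexForm B t Φ = 𝔼 x, 𝔼 p, 𝔼 q, B 0 x x * ((B 0 p p * hexB B x p * g x p) *
      (B 0 q q * hexB B x q * h x q) * (B (tau t j k) p q * B (-tau t j k) q p)) := by
    rw [← hexE3 hij hik hjk fun x p q => B 0 x x * ((B 0 p p * hexB B x p * g x p) *
      (B 0 q q * hexB B x q * h x q) * (B (tau t j k) p q * B (-tau t j k) q p))]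
    refine Finset.expect_congr rfl fun l _ => ?_
    rw [hΦ, hs]
    simp only [hexP3 hij hik hjk, t1, t2, t3, t4, t5, t6, t7, hexB, tau_anti t j k]
    ring
  rw [e1, hexN, hexN, ← Finset.expect_add_distrib, Finset.mul_expect, ← Finset.expect_sub_distrib]
  refine Finset.expect_le_expect fun x _ => ?_
  simp only [← Finset.mul_expect]
  have e2 := hsm (tau t j k) (fun p => B 0 p p * hexB B x p * g x p)
    fun q => B 0 q q * hexB B x q * h x q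
  have e3 : 𝔼 p, 𝔼 q, (B 0 p p * hexB B x p * g x p) * (B 0 q q * hexB B x q * h x q) *
      (B (tau t j k) p q * B (-tau t j k) q p - 1) =
      𝔼 p, 𝔼 q, (B 0 p p * hexB B x p * g x p) * (B 0 q q * hexB B x q * h x q) *
        (B (tau t j k) p q * B (-tau t j k) q p) - hexU B g x * hexU B h x := by
    rw [hexU, hexU, Finset.expect_mul_expect, ← Finset.expect_sub_distrib]
    refine Finset.expect_congr rfl fun p _ => ?_
    rw [← Finset.expect_sub_distrib]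
    exact Finset.expect_congr rfl fun q _ => by ring
  rw [e3] at e2
  have e4 := (abs_le.1 e2).1
  have e5 := mul_le_mul_of_nonneg_left (add_le_add (hexSqU hB g x) (hexSqU hB h x))
    (show 0 ≤ ε / 2 by positivity)
  have e6 := mul_le_mul_of_nonneg_left (show hexU B g x * hexU B h x -
    ε / 2 * (C ^ 3 * 𝔼 p, B 0 p p * hexB B x p * g x p ^ 2 +
      C ^ 3 * 𝔼 p, B 0 p p * hexB B x p * h x p ^ 2) ≤
      𝔼 p, 𝔼 q, (B 0 p p * hexB B x p * g x p) * (B 0 q q * hexB B x q * h x q) *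
        (B (tau t j k) p q * B (-tau t j k) q p) by linarith) (hB 0 x x).1
  refine le_trans (le_of_eq ?_) e6
  ring

omit [Fintype Y] [Nonempty Y] in
theorem hexWbd {B : ℤ → Y → Y → ℝ} {C : ℝ} (hB : ∀ σ x y, 0 ≤ B σ x y ∧ B σ x y ≤ C)
    (a b c : Y) : 0 ≤ hexW B a b c ∧ hexW B a b c ≤ C ^ 9 := by
  have h1 := hB 0 a a
  have h2 := hB 0 b b
  have h3 := hB 0 c c
  have h4 : 0 ≤ hexB B a b ∧ hexB B a b ≤ C ^ 2 := hexBbd hB 0 0 a b b a
  have h5 : 0 ≤ hexB B b c ∧ hexB B b c ≤ C ^ 2 := hexBbd hB 0 0 b c c b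
  have h6 := hexBbd hB (-1) 1 a c c a
  have hC : 0 ≤ C := h1.1.trans h1.2
  refine ⟨mul_nonneg (mul_nonneg (mul_nonneg (mul_nonneg (mul_nonneg h1.1 h2.1) h3.1) h4.1) h5.1)
    h6.1, ?_⟩
  calc hexW B a b c ≤ C * C * C * C ^ 2 * C ^ 2 * C ^ 2 := by
        obtain ⟨_, _⟩ := h1
        obtain ⟨_, _⟩ := h2
        obtain ⟨_, _⟩ := h3
        obtain ⟨_, _⟩ := h4
        obtain ⟨_, _⟩ := h5
        obtain ⟨_, _⟩ := h6
        unfold hexW
        gcongr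
    _ = C ^ 9 := by ring

/-- the mean square for the first folding -/
noncomputable def hexM (B : ℤ → Y → Y → ℝ) (f : Y → Y → Y → ℝ) : ℝ :=
  𝔼 a, 𝔼 b, 𝔼 c, hexW B a b c * f a b c ^ 2

theorem hexG1f (B : ℤ → Y → Y → ℝ) (Φ : (Fin 6 → Y) → ℝ) (f : Y → Y → Y → ℝ)
    (hΦ : ∀ l : Fin 6 → Y, Φ l = f (l 1) (l 2) (l 3) * f (l 0) (l 5) (l 4)) :
    hexForm B 1 Φ = hexM B f := by
  rw [hexM, ← hexE3 (W := Fin 6) (i := 1) (j := 2) (k := 3) (by decide) (by decide) (by decide)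
    fun a b c => hexW B a b c * f a b c ^ 2]
  refine Finset.expect_congr rfl fun l _ => ?_
  have hs : univ.filter (used 1) = {1, 2, 3} := by decide
  rw [hΦ, hs]
  simp only [hexP3 (i := 1) (j := 2) (k := 3) (by decide) (by decide) (by decide)]
  change f (l 1) (l 2) (l 3) * f (l 1) (l 2) (l 3) *
    (B 0 (l 1) (l 1) * B 0 (l 1) (l 2) * B (-1) (l 1) (l 3) *
      (B 0 (l 2) (l 1) * B 0 (l 2) (l 2) * B 0 (l 2) (l 3)) *
      (B 1 (l 3) (l 1) * B 0 (l 3) (l 2) * B 0 (l 3) (l 3))) = _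
  simp only [hexW, hexB]
  ring

/-- the crossing pairs -/
def hexE : Finset (Fin 6 × Fin 6) := ({1, 2, 3} : Finset (Fin 6)) ×ˢ ({0, 5, 4} : Finset (Fin 6))

theorem hexG0 {B : ℤ → Y → Y → ℝ} {C ε : ℝ} (hC : 1 ≤ C) (hε : 0 ≤ ε)
    (hB : ∀ σ x y, 0 ≤ B σ x y ∧ B σ x y ≤ C)
    (hsm : ∀ (σ : ℤ) (F G : Y → ℝ), |𝔼 x, 𝔼 y, F x * G y * (B σ x y * B (-σ) y x - 1)| ≤
      ε / 2 * (𝔼 x, F x ^ 2 + 𝔼 y, G y ^ 2))
    (Φ : (Fin 6 → Y) → ℝ) (f : Y → Y → Y → ℝ)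
    (hΦ : ∀ l : Fin 6 → Y, Φ l = f (l 1) (l 2) (l 3) * f (l 0) (l 5) (l 4)) :
    -(9 * C ^ 45 * ε * hexM B f) ≤ hexForm B 0 Φ := by
  set G : Y → Y → Y → ℝ := fun a b c => f a b c * hexW B a b c with hG
  have e1 : hexForm B 0 Φ = 𝔼 l : Fin 6 → Y, G (l 1) (l 2) (l 3) * G (l 0) (l 5) (l 4) *
      ∏ e ∈ hexE, B (tau0 e.1 e.2) (l e.1) (l e.2) * B (-tau0 e.1 e.2) (l e.2) (l e.1) := by
    refine Finset.expect_congr rfl fun l _ => ?_
    have hs : univ.filter (used 0) = univ := by decide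
    rw [hΦ, hs, hexE, Finset.prod_product]
    simp only [hexP3 (i := 1) (j := 2) (k := 3) (by decide) (by decide) (by decide),
      hexP3 (i := 0) (j := 5) (k := 4) (by decide) (by decide) (by decide), Fin.prod_univ_six]
    change f (l 1) (l 2) (l 3) * f (l 0) (l 5) (l 4) *
      ((B 0 (l 0) (l 0) * B 0 (l 0) (l 1) * B 1 (l 0) (l 2) * B 0 (l 0) (l 3) *
          B (-1) (l 0) (l 4) * B 0 (l 0) (l 5)) *
        (B 0 (l 1) (l 0) * B 0 (l 1) (l 1) * B 0 (l 1) (l 2) * B (-1) (l 1) (l 3) *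
          B 0 (l 1) (l 4) * B 1 (l 1) (l 5)) *
        (B (-1) (l 2) (l 0) * B 0 (l 2) (l 1) * B 0 (l 2) (l 2) * B 0 (l 2) (l 3) *
          B 1 (l 2) (l 4) * B 0 (l 2) (l 5)) *
        (B 0 (l 3) (l 0) * B 1 (l 3) (l 1) * B 0 (l 3) (l 2) * B 0 (l 3) (l 3) *
          B 0 (l 3) (l 4) * B (-1) (l 3) (l 5)) *
        (B 1 (l 4) (l 0) * B 0 (l 4) (l 1) * B (-1) (l 4) (l 2) * B 0 (l 4) (l 3) *
          B 0 (l 4) (l 4) * B 0 (l 4) (l 5)) *
        (B 0 (l 5) (l 0) * B (-1) (l 5) (l 1) * B 0 (l 5) (l 2) * B 1 (l 5) (l 3) *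
          B 0 (l 5) (l 4) * B 0 (l 5) (l 5))) =
      G (l 1) (l 2) (l 3) * G (l 0) (l 5) (l 4) *
      ((B 0 (l 1) (l 0) * B 0 (l 0) (l 1) * (B 1 (l 1) (l 5) * B (-1) (l 5) (l 1)) *
          (B 0 (l 1) (l 4) * B 0 (l 4) (l 1))) *
        (B (-1) (l 2) (l 0) * B 1 (l 0) (l 2) * (B 0 (l 2) (l 5) * B 0 (l 5) (l 2)) *
          (B 1 (l 2) (l 4) * B (-1) (l 4) (l 2))) *
        (B 0 (l 3) (l 0) * B 0 (l 0) (l 3) * (B (-1) (l 3) (l 5) * B 1 (l 5) (l 3)) *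
          (B 0 (l 3) (l 4) * B 0 (l 4) (l 3))))
    simp only [hG, hexW, hexB]
    ring
  have hc : hexE.card = 9 := by decide
  have hm : ∀ e ∈ hexE, (e.1 ≠ 0 ∧ e.1 ≠ 5 ∧ e.1 ≠ 4) ∧ e.2 ≠ 1 ∧ e.2 ≠ 2 ∧ e.2 ≠ 3 := by decide
  have e2 := hexGraph hexE (fun e x y => B (tau0 e.1 e.2) x y * B (-tau0 e.1 e.2) y x)
    (C := C ^ 2) (one_le_pow₀ hC) hε (fun e x y => hexBbd hB _ _ _ _ _ _)
    (fun l => G (l 1) (l 2) (l 3)) (fun l => G (l 0) (l 5) (l 4)) (fun e _ => hsm _)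
    (by decide) (by decide) fun e he => Or.inl ⟨fun x c => by
      obtain ⟨-, p, q, r⟩ := hm e he
      rw [Function.update_of_ne p.symm, Function.update_of_ne q.symm,
        Function.update_of_ne r.symm], fun x c => by
      obtain ⟨⟨p, q, r⟩, -⟩ := hm e he
      rw [Function.update_of_ne p.symm, Function.update_of_ne q.symm,
        Function.update_of_ne r.symm]⟩
  have e3 : 𝔼 a, 𝔼 b, 𝔼 c, G a b c ^ 2 ≤ C ^ 9 * hexM B f := by
    rw [hexM, Finset.mul_expect]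
    refine Finset.expect_le_expect fun a _ => ?_
    rw [Finset.mul_expect]
    refine Finset.expect_le_expect fun b _ => ?_
    rw [Finset.mul_expect]
    refine Finset.expect_le_expect fun c _ => ?_
    have h := hexWbd hB a b c
    calc G a b c ^ 2 = hexW B a b c * (hexW B a b c * f a b c ^ 2) := by simp only [hG]; ring
      _ ≤ _ := mul_le_mul_of_nonneg_right h.2 (mul_nonneg h.1 (sq_nonneg _))
  rw [hexE3 (W := Fin 6) (i := 1) (j := 2) (k := 3) (by decide) (by decide) (by decide)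
      fun a b c => G a b c ^ 2,
    hexE3 (W := Fin 6) (i := 0) (j := 5) (k := 4) (by decide) (by decide) (by decide)
      fun a b c => G a b c ^ 2, hc] at e2
  have e4 : 0 ≤ 𝔼 l : Fin 6 → Y, G (l 1) (l 2) (l 3) * G (l 0) (l 5) (l 4) := by
    have : 𝔼 l : Fin 6 → Y, G (l 1) (l 2) (l 3) * G (l 0) (l 5) (l 4) =
        (𝔼 a, 𝔼 b, 𝔼 c, G a b c) * 𝔼 a, 𝔼 b, 𝔼 c, G a b c := by
      rw [hexStep (W := Fin 6) 1 (fun a l => G a (l 2) (l 3) * G (l 0) (l 5) (l 4))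
        fun _ _ _ => rfl, Finset.expect_mul]
      refine Finset.expect_congr rfl fun a _ => ?_
      rw [hexStep (W := Fin 6) 2 (fun b l => G a b (l 3) * G (l 0) (l 5) (l 4))
        fun _ _ _ => rfl, Finset.expect_mul]
      refine Finset.expect_congr rfl fun b _ => ?_
      rw [hexStep (W := Fin 6) 3 (fun c l => G a b c * G (l 0) (l 5) (l 4))
        fun _ _ _ => rfl, Finset.expect_mul]
      refine Finset.expect_congr rfl fun c _ => ?_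
      rw [← Finset.mul_expect,
        hexE3 (W := Fin 6) (i := 0) (j := 5) (k := 4) (by decide) (by decide) (by decide) G]
    rw [this]
    exact mul_self_nonneg _
  simp only [mul_sub, mul_one, Finset.expect_sub_distrib] at e2
  rw [← e1] at e2
  have e5 := (abs_le.1 e2).1
  have e6 : ((9 : ℕ) : ℝ) * (C ^ 2) ^ (2 * 9) * ε / 2 *
      (𝔼 a, 𝔼 b, 𝔼 c, G a b c ^ 2 + 𝔼 a, 𝔼 b, 𝔼 c, G a b c ^ 2) ≤
      9 * C ^ 45 * ε * hexM B f := by
    calc _ ≤ ((9 : ℕ) : ℝ) * (C ^ 2) ^ (2 * 9) * ε / 2 * (C ^ 9 * hexM B f + C ^ 9 * hexM B f) :=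
          mul_le_mul_of_nonneg_left (add_le_add e3 e3) (by positivity)
      _ = _ := by push_cast; ring
  linarith

end Vale.Agent.P042U
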