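import Vale.Agent.P042U.PatDefs
import Vale.Agent.P042U.HexB

/-! The graph lemma and positivity on one hexagon (task G). -/

namespace Vale.Agent.P042U

open Finset
open scoped BigOperators

theorem graph_lemma {W A : Type} [Fintype W] [DecidableEq W] [Fintype A] [Nonempty A]
    (E : Finset (W × W)) (a : W × W → A → A → ℝ) {C ε : ℝ} (hC : 1 ≤ C) (hε : 0 ≤ ε)
    (ha : ∀ e x y, 0 ≤ a e x y ∧ a e x y ≤ C)
    (hsm : ∀ e ∈ E, ∀ F G : A → ℝ, |𝔼 x, 𝔼 y, F x * G y * (a e x y - 1)| ≤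
      ε / 2 * (𝔼 x, F x ^ 2 + 𝔼 y, G y ^ 2))
    (hloop : ∀ e ∈ E, e.1 ≠ e.2) (hdig : ∀ e ∈ E, e.swap ∉ E) (Φ Ψ : (W → A) → ℝ)
    (hsep : ∀ e ∈ E, ((∀ x c, Φ (Function.update x e.2 c) = Φ x) ∧
        ∀ x c, Ψ (Function.update x e.1 c) = Ψ x) ∨
      ((∀ x c, Φ (Function.update x e.1 c) = Φ x) ∧ ∀ x c, Ψ (Function.update x e.2 c) = Ψ x)) :
    |𝔼 x, Φ x * Ψ x * (∏ e ∈ E, a e (x e.1) (x e.2) - 1)| ≤
      E.card * C ^ (2 * E.card) * ε / 2 * (𝔼 x, Φ x ^ 2 + 𝔼 x, Ψ x ^ 2) :=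
  hexGraph E a hC hε ha Φ Ψ hsm hloop hdig hsep

theorem hex_pos {Y : Type} [Fintype Y] [Nonempty Y] (B : ℤ → Y → Y → ℝ) {C ε η : ℝ} (hC : 1 ≤ C)
    (hε : 0 ≤ ε) (hB : ∀ σ x y, 0 ≤ B σ x y ∧ B σ x y ≤ C)
    (hsm : ∀ (σ : ℤ) (F G : Y → ℝ), |𝔼 x, 𝔼 y, F x * G y * (B σ x y * B (-σ) y x - 1)| ≤
      ε / 2 * (𝔼 x, F x ^ 2 + 𝔼 y, G y ^ 2))
    (hη : 9 * C ^ 50 * ε ≤ η) (hη1 : η ≤ 1) (F : (Fin 6 → Y) → ℝ) :
    0 ≤ ∑ t : Fin 13, (if t = 0 then 1 else η) *
      hexForm B t fun l => F (fun j => l (fdp j)) * F fun j => l (fdm j) := by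
  set f : Y → Y → Y → ℝ := fun a b c => F ![a, a, b, c, c, b] with hf
  set Φ : (Fin 6 → Y) → ℝ := fun l => F (fun j => l (fdp j)) * F fun j => l (fdm j) with hΦ0
  have hΦ : ∀ l : Fin 6 → Y, Φ l = f (l 1) (l 2) (l 3) * f (l 0) (l 5) (l 4) := by
    intro l
    have h1 : (fun j => l (fdp j)) = ![l 1, l 1, l 2, l 3, l 3, l 2] := by
      funext j
      fin_cases j <;> rfl
    have h2 : (fun j => l (fdm j)) = ![l 0, l 0, l 5, l 4, l 4, l 5] := by
      funext j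
      fin_cases j <;> rfl
    simp only [hΦ0, hf, h1, h2]
  clear_value Φ f
  set g : Y → Y → ℝ := fun x p => f x p p with hg
  set h : Y → Y → ℝ := fun x p => f p p x with hh
  set u : Y → ℝ := fun x => f x x x with hu
  have t0 := hexG0 hC hε hB hsm Φ f hΦ
  have t1 := hexG1f B Φ f hΦ
  have t2 := hexG3 hε hB hsm 2 4 3 5 (by decide) (by decide) (by decide) (by decide) (by decide)
    Φ g h fun l => hΦ _
  have t3 := hexG3 hε hB hsm 3 0 1 5 (by decide) (by decide) (by decide) (by decide) (by decide)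
    Φ h g fun l => hΦ _
  have t4 := hexG3 hε hB hsm 4 3 1 5 (by decide) (by decide) (by decide) (by decide) (by decide)
    Φ h h fun l => hΦ _
  have t5 := hexG3 hε hB hsm 5 0 2 4 (by decide) (by decide) (by decide) (by decide) (by decide)
    Φ g g fun l => hΦ _
  have t6 := hexG2 B 6 0 2 (by decide) (by decide) (by decide) Φ (fun x p => g x p ^ 2)
    fun l => (hΦ _).trans (sq _).symm
  have t7 := hexG2 B 7 3 1 (by decide) (by decide) (by decide) Φ (fun x p => h x p * u x)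
    fun l => hΦ _
  have t8 := hexG2 B 8 4 2 (by decide) (by decide) (by decide) Φ (fun x p => g x p * u x)
    fun l => hΦ _
  have t9 := hexG2 B 9 3 5 (by decide) (by decide) (by decide) Φ (fun x p => h x p ^ 2)
    fun l => (hΦ _).trans (sq _).symm
  have t10 := hexG2 B 10 0 4 (by decide) (by decide) (by decide) Φ (fun x p => g x p * u x)
    fun l => (hΦ _).trans (mul_comm _ _)
  have t11 := hexG2 B 11 1 5 (by decide) (by decide) (by decide) Φ (fun x p => h x p * u x)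
    fun l => (hΦ _).trans (mul_comm _ _)
  have t12 := hexG1 B 12 0 (by decide) (by decide) Φ (fun x => u x ^ 2)
    fun l => (hΦ _).trans (sq _).symm
  have hNu : ∀ g : Y → Y → ℝ, hexN B (fun x p => g x p * u x) =
      𝔼 x, B 0 x x * (hexU B g x * u x) := by
    intro g
    refine Finset.expect_congr rfl fun x _ => ?_
    rw [hexU, Finset.expect_mul, Finset.mul_expect]
    exact Finset.expect_congr rfl fun p _ => by ring
  have hN : ∀ g : Y → Y → ℝ, 0 ≤ hexN B fun x p => g x p ^ 2 := fun g =>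
    Finset.expect_nonneg fun x _ => Finset.expect_nonneg fun p _ =>
      mul_nonneg (hB _ _ _).1 (mul_nonneg (mul_nonneg (hB _ _ _).1 (hexBbd hB 0 0 x p p x).1)
        (sq_nonneg _))
  have hM : 0 ≤ hexM B f := Finset.expect_nonneg fun a _ => Finset.expect_nonneg fun b _ =>
    Finset.expect_nonneg fun c _ => mul_nonneg (hexWbd hB a b c).1 (sq_nonneg _)
  rw [hNu] at t7 t8 t10 t11
  have hsq : 0 ≤ 𝔼 x, B 0 x x * (hexU B g x * hexU B h x) +
      𝔼 x, B 0 x x * (hexU B h x * hexU B g x) + 𝔼 x, B 0 x x * (hexU B h x * hexU B h x) +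
      𝔼 x, B 0 x x * (hexU B g x * hexU B g x) + 𝔼 x, B 0 x x * (hexU B h x * u x) +
      𝔼 x, B 0 x x * (hexU B g x * u x) + 𝔼 x, B 0 x x * (hexU B g x * u x) +
      𝔼 x, B 0 x x * (hexU B h x * u x) + 𝔼 x, B 0 x x * u x ^ 2 := by
    simp only [← Finset.expect_add_distrib]
    refine Finset.expect_nonneg fun x _ => ?_
    refine le_of_le_of_eq (mul_nonneg (hB 0 x x).1 (sq_nonneg (hexU B g x + hexU B h x + u x))) ?_
    ring
  have c1 : 9 * C ^ 45 * ε ≤ η :=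
    le_trans (mul_le_mul_of_nonneg_right (mul_le_mul_of_nonneg_left
      (pow_le_pow_right₀ hC (by norm_num)) (by norm_num)) hε) hη
  have c2 : ε / 2 * C ^ 3 ≤ 1 / 4 := by
    have : C ^ 3 * ε ≤ C ^ 50 * ε :=
      mul_le_mul_of_nonneg_right (pow_le_pow_right₀ hC (by norm_num)) hε
    linarith
  have hη0 : 0 ≤ η := le_trans (by positivity) hη
  have c3 := mul_le_mul_of_nonneg_right c1 hM
  have c4 := mul_le_mul_of_nonneg_right c2 (hN g)
  have c5 := mul_le_mul_of_nonneg_right c2 (hN h)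
  have key : 0 ≤ hexForm B 2 Φ + hexForm B 3 Φ + hexForm B 4 Φ + hexForm B 5 Φ + hexForm B 6 Φ +
      hexForm B 7 Φ + hexForm B 8 Φ + hexForm B 9 Φ + hexForm B 10 Φ + hexForm B 11 Φ +
      hexForm B 12 Φ := by
    rw [t6, t7, t8, t9, t10, t11, t12]
    linarith
  have hsum : ∑ t : Fin 13, (if t = 0 then 1 else η) * hexForm B t Φ =
      hexForm B 0 Φ + η * hexForm B 1 Φ + η * (hexForm B 2 Φ + hexForm B 3 Φ + hexForm B 4 Φ +
      hexForm B 5 Φ + hexForm B 6 Φ + hexForm B 7 Φ + hexForm B 8 Φ + hexForm B 9 Φ +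
      hexForm B 10 Φ + hexForm B 11 Φ + hexForm B 12 Φ) := by
    simp only [Fin.sum_univ_succ, Fin.succ_ne_zero, if_false, if_true, Fin.sum_univ_zero]
    change 1 * hexForm B 0 Φ + (η * hexForm B 1 Φ + (η * hexForm B 2 Φ + (η * hexForm B 3 Φ +
      (η * hexForm B 4 Φ + (η * hexForm B 5 Φ + (η * hexForm B 6 Φ + (η * hexForm B 7 Φ +
      (η * hexForm B 8 Φ + (η * hexForm B 9 Φ + (η * hexForm B 10 Φ + (η * hexForm B 11 Φ +
      (η * hexForm B 12 Φ + 0)))))))))))) = _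
    ring
  rw [hsum, t1]
  have := mul_nonneg hη0 key
  linarith

end Vale.Agent.P042U
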