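import Vale.Agent.P042U.PatDefs

/-! Expectations over function spaces and the graph lemma. -/

namespace Vale.Agent.P042U

open Finset
open scoped BigOperators

section Upd

variable {W A : Type} [Fintype W] [DecidableEq W] [Fintype A] [Nonempty A]

theorem hexUpd (u : W) (f : (W → A) → ℝ) :
    𝔼 x, f x = 𝔼 x, 𝔼 c, f (Function.update x u c) := by
  have h1 : 𝔼 x, 𝔼 c, f (Function.update x u c) =
      𝔼 p : (W → A) × A, f (Function.update p.1 u p.2) := by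
    rw [← Finset.univ_product_univ, Finset.expect_product]
  have h2 : 𝔼 p : (W → A) × A, f p.1 = 𝔼 x, f x := by
    rw [← Finset.univ_product_univ, Finset.expect_product]
    simp only [Fintype.expect_const]
  rw [h1, ← h2]
  let e : (W → A) × A ≃ (W → A) × A :=
    { toFun := fun p => (Function.update p.1 u p.2, p.1 u)
      invFun := fun p => (Function.update p.1 u p.2, p.1 u)
      left_inv := fun p => by simp
      right_inv := fun p => by simp }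
  exact (Fintype.expect_equiv e _ _ fun p => rfl).symm

theorem hexStep (u : W) (h : A → (W → A) → ℝ)
    (hh : ∀ c x d, h c (Function.update x u d) = h c x) :
    𝔼 x, h (x u) x = 𝔼 c, 𝔼 x, h c x := by
  rw [hexUpd u, Finset.expect_comm]
  simp only [Function.update_self, hh]

theorem hexE1 (i : W) (g : A → ℝ) : 𝔼 l : W → A, g (l i) = 𝔼 x, g x := by
  rw [hexStep i (fun c _ => g c) fun _ _ _ => rfl]
  simp only [Fintype.expect_const]

theorem hexE2 {i j : W} (hij : j ≠ i) (g : A → A → ℝ) :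
    𝔼 l : W → A, g (l i) (l j) = 𝔼 x, 𝔼 y, g x y := by
  rw [hexStep i (fun c l => g c (l j)) fun _ _ _ => by rw [Function.update_of_ne hij]]
  exact Finset.expect_congr rfl fun x _ => hexE1 j (g x)

theorem hexE3 {i j k : W} (hij : j ≠ i) (hik : k ≠ i) (hjk : k ≠ j) (g : A → A → A → ℝ) :
    𝔼 l : W → A, g (l i) (l j) (l k) = 𝔼 x, 𝔼 y, 𝔼 z, g x y z := by
  rw [hexStep i (fun c l => g c (l j) (l k)) fun _ _ _ => by
    rw [Function.update_of_ne hij, Function.update_of_ne hik]]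
  exact Finset.expect_congr rfl fun x _ => hexE2 hjk (g x)

theorem hexAbsE {X : Type} [Fintype X] (f g : X → ℝ) (h : ∀ x, |f x| ≤ g x) :
    |𝔼 x, f x| ≤ 𝔼 x, g x :=
  (Finset.abs_expect_le _ _).trans (Finset.expect_le_expect fun x _ => h x)

/-- one edge -/
theorem hexEdge {u v : W} (huv : u ≠ v) (K : A → A → ℝ) {ε : ℝ}
    (hK : ∀ F G : A → ℝ, |𝔼 x, 𝔼 y, F x * G y * K x y| ≤ ε / 2 * (𝔼 x, F x ^ 2 + 𝔼 y, G y ^ 2))
    (P Q : (W → A) → ℝ) (hP : ∀ x c, P (Function.update x v c) = P x)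
    (hQ : ∀ x c, Q (Function.update x u c) = Q x) :
    |𝔼 x, P x * Q x * K (x u) (x v)| ≤ ε / 2 * (𝔼 x, P x ^ 2 + 𝔼 x, Q x ^ 2) := by
  have h1 : 𝔼 x, P x * Q x * K (x u) (x v) =
      𝔼 x, 𝔼 c, 𝔼 d, P (Function.update x u c) * Q (Function.update x v d) * K c d := by
    rw [hexUpd v, hexUpd u]
    refine Finset.expect_congr rfl fun x _ => Finset.expect_congr rfl fun c _ =>
      Finset.expect_congr rfl fun d _ => ?_
    rw [hP, Function.update_comm huv, hQ, Function.update_self, Function.update_of_ne huv.symm,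
      Function.update_self]
  rw [h1, hexUpd u fun x => P x ^ 2, hexUpd v fun x => Q x ^ 2, ← Finset.expect_add_distrib,
    Finset.mul_expect]
  exact hexAbsE _ _ fun x => hK _ _

theorem hexSqLe {X : Type} [Fintype X] (P w : X → ℝ) {D : ℝ} (hw : ∀ x, 0 ≤ w x ∧ w x ≤ D) :
    𝔼 x, (P x * w x) ^ 2 ≤ D ^ 2 * 𝔼 x, P x ^ 2 := by
  rw [Finset.mul_expect]
  refine Finset.expect_le_expect fun x _ => ?_
  rw [mul_pow, mul_comm]
  exact mul_le_mul_of_nonneg_right (pow_le_pow_left₀ (hw x).1 (hw x).2 2) (sq_nonneg _)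

omit [Fintype W] [DecidableEq W] [Fintype A] [Nonempty A] in
theorem hexProdBd (E : Finset (W × W)) (a : W × W → A → A → ℝ) {C : ℝ} (hC : 1 ≤ C)
    (ha : ∀ e x y, 0 ≤ a e x y ∧ a e x y ≤ C) {n : ℕ} (hn : E.card ≤ n) (x : W → A) :
    0 ≤ ∏ e ∈ E, a e (x e.1) (x e.2) ∧ ∏ e ∈ E, a e (x e.1) (x e.2) ≤ C ^ n := by
  refine ⟨Finset.prod_nonneg fun e _ => (ha _ _ _).1, ?_⟩
  calc ∏ e ∈ E, a e (x e.1) (x e.2) ≤ ∏ _e ∈ E, C :=
        Finset.prod_le_prod (fun e _ => (ha _ _ _).1) fun e _ => (ha _ _ _).2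
    _ = C ^ E.card := Finset.prod_const C
    _ ≤ C ^ n := pow_le_pow_right₀ hC hn

omit [Fintype W] [Fintype A] [Nonempty A] in
theorem hexProdUpd (E : Finset (W × W)) (a : W × W → A → A → ℝ) {u : W}
    (hu : ∀ e ∈ E, e.1 ≠ u ∧ e.2 ≠ u) (x : W → A) (c : A) :
    ∏ e ∈ E, a e (Function.update x u c e.1) (Function.update x u c e.2) =
      ∏ e ∈ E, a e (x e.1) (x e.2) :=
  Finset.prod_congr rfl fun e he => by
    rw [Function.update_of_ne (hu e he).1, Function.update_of_ne (hu e he).2]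

/-- one edge in the presence of other edges -/
theorem hexEdge2 (E : Finset (W × W)) (a : W × W → A → A → ℝ) {C ε : ℝ} (hC : 1 ≤ C)
    (hε : 0 ≤ ε) (ha : ∀ e x y, 0 ≤ a e x y ∧ a e x y ≤ C) {u v : W} (huv : u ≠ v)
    (h1 : (u, v) ∉ E) (h2 : (v, u) ∉ E) (K : A → A → ℝ)
    (hK : ∀ F G : A → ℝ, |𝔼 x, 𝔼 y, F x * G y * K x y| ≤ ε / 2 * (𝔼 x, F x ^ 2 + 𝔼 y, G y ^ 2))
    (P Q : (W → A) → ℝ) (hP : ∀ x c, P (Function.update x v c) = P x)
    (hQ : ∀ x c, Q (Function.update x u c) = Q x) :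
    |𝔼 x, P x * Q x * ((∏ e ∈ E, a e (x e.1) (x e.2)) * K (x u) (x v))| ≤
      C ^ (2 * E.card) * ε / 2 * (𝔼 x, P x ^ 2 + 𝔼 x, Q x ^ 2) := by
  set E₁ := E.filter fun e => e.1 = u ∨ e.2 = u with hE₁
  set E₂ := E.filter fun e => ¬ (e.1 = u ∨ e.2 = u) with hE₂
  have hs : ∀ x : W → A, P x * Q x * ((∏ e ∈ E, a e (x e.1) (x e.2)) * K (x u) (x v)) =
      (P x * ∏ e ∈ E₁, a e (x e.1) (x e.2)) * (Q x * ∏ e ∈ E₂, a e (x e.1) (x e.2)) *
        K (x u) (x v) := by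
    intro x
    rw [← Finset.prod_filter_mul_prod_filter_not E fun e => e.1 = u ∨ e.2 = u]
    ring
  have hv : ∀ e ∈ E₁, e.1 ≠ v ∧ e.2 ≠ v := by
    rintro ⟨p, q⟩ he
    rw [hE₁, Finset.mem_filter] at he
    obtain ⟨he, hh | hh⟩ := he
    · simp only at hh
      subst hh
      refine ⟨huv, ?_⟩
      rintro rfl
      exact h1 he
    · simp only at hh
      subst hh
      refine ⟨?_, huv⟩
      rintro rfl
      exact h2 he
  have hu : ∀ e ∈ E₂, e.1 ≠ u ∧ e.2 ≠ u := by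
    intro e he
    rw [hE₂, Finset.mem_filter] at he
    exact not_or.1 he.2
  simp only [hs]
  refine (hexEdge huv K hK (fun x => P x * ∏ e ∈ E₁, a e (x e.1) (x e.2))
    (fun x => Q x * ∏ e ∈ E₂, a e (x e.1) (x e.2)) (fun x c => ?_) fun x c => ?_).trans ?_
  · simp only [hP, hexProdUpd E₁ a hv]
  · simp only [hQ, hexProdUpd E₂ a hu]
  · have b1 := hexSqLe P _ (hexProdBd E₁ a hC ha (Finset.card_filter_le _ _))
    have b2 := hexSqLe Q _ (hexProdBd E₂ a hC ha (Finset.card_filter_le _ _))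
    rw [← pow_mul, mul_comm E.card 2] at b1 b2
    calc _ ≤ ε / 2 * (C ^ (2 * E.card) * 𝔼 x, P x ^ 2 + C ^ (2 * E.card) * 𝔼 x, Q x ^ 2) :=
          mul_le_mul_of_nonneg_left (add_le_add b1 b2) (by positivity)
      _ = _ := by ring

theorem hexGraph (E : Finset (W × W)) (a : W × W → A → A → ℝ) {C ε : ℝ} (hC : 1 ≤ C) (hε : 0 ≤ ε)
    (ha : ∀ e x y, 0 ≤ a e x y ∧ a e x y ≤ C) (Φ Ψ : (W → A) → ℝ)
    (hsm : ∀ e ∈ E, ∀ F G : A → ℝ, |𝔼 x, 𝔼 y, F x * G y * (a e x y - 1)| ≤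
      ε / 2 * (𝔼 x, F x ^ 2 + 𝔼 y, G y ^ 2))
    (hloop : ∀ e ∈ E, e.1 ≠ e.2) (hdig : ∀ e ∈ E, e.swap ∉ E)
    (hsep : ∀ e ∈ E, ((∀ x c, Φ (Function.update x e.2 c) = Φ x) ∧
        ∀ x c, Ψ (Function.update x e.1 c) = Ψ x) ∨
      ((∀ x c, Φ (Function.update x e.1 c) = Φ x) ∧ ∀ x c, Ψ (Function.update x e.2 c) = Ψ x)) :
    |𝔼 x, Φ x * Ψ x * (∏ e ∈ E, a e (x e.1) (x e.2) - 1)| ≤
      E.card * C ^ (2 * E.card) * ε / 2 * (𝔼 x, Φ x ^ 2 + 𝔼 x, Ψ x ^ 2) := by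
  induction E using Finset.induction_on with
  | empty => simp
  | insert e E he ih =>
    have ih' := ih (fun f hf => hsm f (Finset.mem_insert_of_mem hf))
      (fun f hf => hloop f (Finset.mem_insert_of_mem hf))
      (fun f hf h => hdig f (Finset.mem_insert_of_mem hf) (Finset.mem_insert_of_mem h))
      (fun f hf => hsep f (Finset.mem_insert_of_mem hf))
    have hm := Finset.mem_insert_self e E
    have h2 : (e.2, e.1) ∉ E := fun h => hdig e hm (Finset.mem_insert_of_mem h)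
    have hN : 0 ≤ 𝔼 x, Φ x ^ 2 + 𝔼 x, Ψ x ^ 2 :=
      add_nonneg (Finset.expect_nonneg fun _ _ => sq_nonneg _)
        (Finset.expect_nonneg fun _ _ => sq_nonneg _)
    have hb : |𝔼 x, Φ x * Ψ x * ((∏ f ∈ E, a f (x f.1) (x f.2)) * (a e (x e.1) (x e.2) - 1))| ≤
        C ^ (2 * E.card) * ε / 2 * (𝔼 x, Φ x ^ 2 + 𝔼 x, Ψ x ^ 2) := by
      rcases hsep e hm with ⟨p, q⟩ | ⟨p, q⟩
      · exact hexEdge2 E a hC hε ha (hloop e hm) he h2 (fun x y => a e x y - 1) (hsm e hm) Φ Ψ p q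
      · have := hexEdge2 E a hC hε ha (hloop e hm) he h2 (fun x y => a e x y - 1) (hsm e hm)
          Ψ Φ q p
        simp only [mul_comm (Ψ _) (Φ _)] at this
        rwa [add_comm] at this
    have hs : 𝔼 x, Φ x * Ψ x * (∏ f ∈ insert e E, a f (x f.1) (x f.2) - 1) =
        𝔼 x, Φ x * Ψ x * (∏ f ∈ E, a f (x f.1) (x f.2) - 1) +
        𝔼 x, Φ x * Ψ x * ((∏ f ∈ E, a f (x f.1) (x f.2)) * (a e (x e.1) (x e.2) - 1)) := by
      rw [← Finset.expect_add_distrib]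
      refine Finset.expect_congr rfl fun x _ => ?_
      rw [Finset.prod_insert he]
      ring
    rw [hs, Finset.card_insert_of_notMem he]
    refine (abs_add_le _ _).trans ((add_le_add ih' hb).trans ?_)
    have hp : C ^ (2 * E.card) ≤ C ^ (2 * (E.card + 1)) := pow_le_pow_right₀ hC (by omega)
    calc _ = ((E.card + 1 : ℕ) : ℝ) * C ^ (2 * E.card) * ε / 2 *
          (𝔼 x, Φ x ^ 2 + 𝔼 x, Ψ x ^ 2) := by push_cast; ring
      _ ≤ _ := by gcongr

end Upd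

end Vale.Agent.P042U
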