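import Vale.Agent.P042U.Model

/-! Definitions on the integer side. -/

namespace Vale.Agent.P042U

open Finset Polynomial
open scoped BigOperators

/-- the exponential `e(x)` -/
noncomputable def ee (x : ℝ) : ℂ := Complex.exp (2 * Real.pi * Complex.I * x)

/-- the average over a period -/
noncomputable def avg (M : ℕ) (f : ℤ → ℂ) : ℂ := (∑ s ∈ range M, f s) / M

/-- the primes in `(w, D]` -/
def PI (w D : ℕ) : Type := {p : ℕ // p ∈ (Finset.Ioc w D).filter Nat.Prime}

instance (w D : ℕ) : Fintype (PI w D) := inferInstanceAs (Fintype {p : ℕ // p ∈ _})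
instance (w D : ℕ) : DecidableEq (PI w D) := inferInstanceAs (DecidableEq {p : ℕ // p ∈ _})
instance {w D : ℕ} (p : PI w D) : Fact p.1.Prime := ⟨(mem_filter.1 p.2).2⟩

/-- the residue rings -/
abbrev Om (w D : ℕ) (p : PI w D) : Type := ZMod p.1

/-- reduction of an integer modulo all the primes -/
def red (w D : ℕ) (x : ℤ) : ∀ p : PI w D, Om w D p := fun p => (x : ZMod p.1)

/-- the density of the values of `g` at the points where the derivative does not vanish -/
noncomputable def alpha (g : ℤ[X]) (p : ℕ) [Fact p.Prime] (s : ZMod p) : ℝ :=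
  p * (univ.filter fun t : ZMod p => aeval t (derivative g) ≠ 0 ∧ aeval t g = s).card /
    (univ.filter fun t : ZMod p => aeval t (derivative g) ≠ 0).card

/-- the density on the product of `f` placed on the progression `a + b s`, `s < n` -/
noncomputable def push (w D : ℕ) (f : ℕ → ℝ) (n : ℕ) (a b : ℤ) (x : ∀ p : PI w D, Om w D p) : ℝ :=
  (Fintype.card (∀ p : PI w D, Om w D p) : ℝ) / n *
    ∑ s ∈ range n, if x = red w D (a + b * s) then f s else 0

/-- no difference of `A` is a nonzero value of `g` -/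
def Free (g : ℤ[X]) (A : Set ℕ) : Prop :=
  ∀ x ∈ A, ∀ y ∈ A, ∀ t : ℕ, 1 ≤ t → (y : ℤ) - x = g.eval (t : ℤ) → g.eval (t : ℤ) = 0

/-- the auxiliary polynomials of an intersective polynomial -/
structure Fam (h : ℤ[X]) (g : ℕ → ℤ[X]) (lam r : ℕ → ℕ) (e w₀ : ℕ) : Prop where
  one : g 1 = h
  expl : ∀ d, 1 ≤ d → r d < d ∧ C (lam d : ℤ) * g d = h.comp (C (r d : ℤ) + C (d : ℤ) * X)
  dvd : ∀ q, 1 ≤ q → q ∣ lam q ∧ lam q ∣ q ^ h.natDegree
  mul : ∀ a b, 1 ≤ a → 1 ≤ b → lam (a * b) = lam a * lam b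
  step : ∀ d q, 1 ≤ d → 1 ≤ q → ∃ ρ : ℕ,
    C (lam q : ℤ) * g (d * q) = (g d).comp (C (ρ : ℤ) + C (q : ℤ) * X)
  small : ∀ d, 1 ≤ d → ∀ p : ℕ, p.Prime → ∃ t : ℤ, ¬ (p : ℤ) ^ e ∣ (derivative (g d)).eval t
  large : ∀ d, 1 ≤ d → ∀ p : ℕ, p.Prime → w₀ < p → ∃ t : ℤ, ¬ (p : ℤ) ∣ (derivative (g d)).eval t

/-- start and length of the pieces of `[0, n)`: three blocks, residue classes modulo `L` -/
def st (n L : ℕ) (i : ℕ × ℕ) : ℕ := i.1 * (L * (n / (3 * L))) + i.2
def ln (n L : ℕ) (i : ℕ × ℕ) : ℕ := if i.1 < 2 then n / (3 * L) else (n - st n L i + L - 1) / L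

theorem card_Om {w D : ℕ} (p : PI w D) : Fintype.card (Om w D p) = p.1 := ZMod.card _

end Vale.Agent.P042U
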