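import Vale.Agent.P042U.LocRP

/-! The local kernels have all the required properties (task I). -/

namespace Vale.Agent.P042U

open Finset
open scoped BigOperators

section
variable {V A : Type} [Fintype V] [DecidableEq V] [Fintype A]

lemma loc_update [Nonempty A] (u : V) (f : (V → A) → ℝ) :
    𝔼 x, f x = 𝔼 x, 𝔼 a, f (Function.update x u a) := by
  have h : Function.Involutive fun z : (V → A) × A => (Function.update z.1 u z.2, z.1 u) :=
    fun z => by simp
  rw [← expect_product', univ_product_univ,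
    ← Fintype.expect_bijective _ h.bijective (fun z => f z.1) _ fun z => by simp,
    ← univ_product_univ, expect_product]
  simp

lemma loc_coord [Nonempty A] (u : V) (H : A → ℝ) : 𝔼 x : V → A, H (x u) = 𝔼 a, H a := by
  rw [loc_update u]
  simp

variable [AddCommGroup A]

lemma loc_diff {a b : V} (h : a ≠ b) (H : A → ℝ) : 𝔼 x : V → A, H (x b - x a) = 𝔼 d, H d := by
  rw [loc_update b]
  simp only [Function.update_self, Function.update_of_ne h]
  exact (expect_congr rfl fun x _ => Fintype.expect_equiv (Equiv.subRight (x a)) _ H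
    fun _ => rfl).trans (Fintype.expect_const _)

variable {α : A → ℝ} {C ε : ℝ} (hC : 1 ≤ C) (hα : ∀ d, 0 ≤ α d ∧ α d ≤ C) (hs : Small α ε)
  (hε : 0 ≤ ε) {E : Finset (V × V)} (h1 : ∀ e ∈ E, e.1 ≠ e.2) (h2 : ∀ e ∈ E, e.swap ∉ E)

omit [DecidableEq V] in
include hC hε in
lemma loc_const (E : Finset (V × V)) : E.card * C ^ (2 * E.card) * ε ≤
    Fintype.card (V × V) * (C ^ Fintype.card (V × V)) ^ 2 * ε := by
  have := card_le_univ E
  rw [← pow_mul, mul_comm _ 2]
  gcongr

include hC hα hs hε h1 h2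

lemma loc_mean : 1 - Fintype.card (V × V) * (C ^ Fintype.card (V × V)) ^ 2 * ε ≤
    𝔼 x : V → A, ∏ e ∈ E, α (x e.2 - x e.1) := by
  have := graph_lemma E (fun _ x y => α (y - x)) hC hε (fun _ _ _ => hα _) (fun _ _ => hs) h1 h2
    (fun _ => 1) (fun _ => 1) fun _ _ => Or.inl ⟨fun _ _ => rfl, fun _ _ => rfl⟩
  simp only [mul_one, one_mul, one_pow, Fintype.expect_const, expect_sub_distrib] at this
  linarith [neg_le_of_abs_le this, loc_const hC hε E]

lemma loc_flat (u : V) (F : A → ℝ) (G : (V → A) → ℝ) (hF : 𝔼 a, F a = 0)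
    (hG : ∀ x a, G (Function.update x u a) = G x) :
    |𝔼 x, F (x u) * G x * ∏ e ∈ E, α (x e.2 - x e.1)| ≤
      Fintype.card (V × V) * (C ^ Fintype.card (V × V)) ^ 4 * ε / 2 *
        (𝔼 a, F a ^ 2 + 𝔼 x, G x ^ 2) := by
  obtain ⟨Ψ, hΨ⟩ : ∃ Ψ : (V → A) → ℝ, Ψ = fun x =>
    G x * ∏ e ∈ E with ¬ (e.1 = u ∨ e.2 = u), α (x e.2 - x e.1) := ⟨_, rfl⟩
  have h3 : ∀ x a, Ψ (Function.update x u a) = Ψ x := fun x a => by
    simp only [hΨ, hG]
    refine congrArg _ (prod_congr rfl fun e he => ?_)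
    have := not_or.1 (mem_filter.1 he).2
    rw [Function.update_of_ne this.1, Function.update_of_ne this.2]
  have h4 : 𝔼 x, F (x u) * Ψ x = 0 := by
    rw [loc_update u]
    simp only [h3, Function.update_self, ← expect_mul, hF, zero_mul, expect_const_zero]
  have h5 := graph_lemma (E.filter fun e => e.1 = u ∨ e.2 = u) (fun _ x y => α (y - x)) hC hε
    (fun _ _ _ => hα _) (fun _ _ => hs) (fun e he => h1 e (mem_filter.1 he).1)
    (fun e he h => h2 e (mem_filter.1 he).1 (mem_filter.1 h).1) (fun x => F (x u)) Ψ fun e he => by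
      obtain ⟨h, rfl | rfl⟩ := mem_filter.1 he
      · exact Or.inl ⟨fun x c => by rw [Function.update_of_ne (h1 e h)], h3⟩
      · exact Or.inr ⟨fun x c => by rw [Function.update_of_ne (h1 e h).symm], h3⟩
  have hM : 1 ≤ (C ^ Fintype.card (V × V)) ^ 2 := one_le_pow₀ (one_le_pow₀ hC)
  have h6 : 𝔼 x, Ψ x ^ 2 ≤ (C ^ Fintype.card (V × V)) ^ 2 * 𝔼 x, G x ^ 2 := by
    rw [mul_expect]
    refine expect_le_expect fun x _ => ?_
    have := locrp_prod_le (E.filter fun e => ¬ (e.1 = u ∨ e.2 = u)) (fun e => α (x e.2 - x e.1))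
      hC fun _ => hα _
    rw [hΨ, mul_pow, mul_comm]
    exact mul_le_mul_of_nonneg_right (pow_le_pow_left₀ this.1 this.2 2) (sq_nonneg _)
  have h7 : 0 ≤ 𝔼 a, F a ^ 2 := expect_nonneg fun _ _ => sq_nonneg _
  have h8 : 0 ≤ 𝔼 a, Ψ a ^ 2 := expect_nonneg fun _ _ => sq_nonneg _
  simp only [mul_sub, mul_one, expect_sub_distrib, h4, sub_zero,
    loc_coord u fun a => F a ^ 2] at h5
  have h9 : ∀ x : V → A, F (x u) * G x * ∏ e ∈ E, α (x e.2 - x e.1) =
      F (x u) * Ψ x * ∏ e ∈ E with e.1 = u ∨ e.2 = u, α (x e.2 - x e.1) := fun x => by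
    rw [← prod_filter_not_mul_prod_filter E fun e => e.1 = u ∨ e.2 = u, hΨ]
    ring
  simp only [h9]
  refine h5.trans ((mul_le_mul (div_le_div_of_nonneg_right (loc_const hC hε _) two_pos.le)
    (add_le_add (le_mul_of_one_le_left h7 hM) h6) (by positivity) (by positivity)).trans_eq ?_)
  ring

end

variable {N : Type} [Fintype N] [DecidableEq N] {A : Type} [Fintype A] [DecidableEq A]
  [AddCommGroup A]

lemma loc_affine (α : A → ℝ) (π : N → Fin 13) (β : A ≃+ A) (a : A) (x : (N → Fin 6) → A) :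
    dens (fun d => α (β d)) π x = dens α π fun v => a + β (x v) := by
  refine Fintype.sum_equiv (Equiv.piCongrRight fun _ => β.toEquiv.trans (Equiv.addLeft a)) _ _
    fun y => ?_
  simp [wt, funext_iff]

omit [Fintype A] [DecidableEq A] in
lemma loc_wt_eq (α : A → ℝ) (π : N → Fin 13) (y : (N → Fin 6) → A) : wt α π y =
    ∏ e ∈ (univ.filter fun a : N → Fin 6 => ∀ n, used (π n) (a n)) ×ˢ
      (univ.filter fun a : N → Fin 6 => ∀ n, used (π n) (a n)),
      if 0 < ∑ n, tau (π n) (e.1 n) (e.2 n) then α (y e.2 - y e.1) else 1 := by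
  rw [prod_product, wt]

omit [Fintype A] [DecidableEq A] in
lemma loc_wt_zero (α : A → ℝ) (y : (N → Fin 6) → A) : wt α 0 y =
    ∏ e : (N → Fin 6) × (N → Fin 6) with 0 < ∑ n, tau 0 (e.1 n) (e.2 n), α (y e.2 - y e.1) := by
  simp [loc_wt_eq, used, blk_zero, prod_filter]

lemma loc_dens_zero (α : A → ℝ) (x : (N → Fin 6) → A) : dens α 0 x = wt α 0 x := by
  simp [dens, blk_zero]

lemma loc_pw {η : ℝ} (h0 : 0 ≤ η) (h1 : η ≤ 1) (π : N → Fin 13) :
    0 ≤ pw η π ∧ pw η π ≤ 1 ∧ (π ≠ 0 → pw η π ≤ η) := by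
  have a : ∀ n, 0 ≤ (if π n = 0 then 1 else η) := fun n => by positivity
  have b : ∀ n, (if π n = 0 then 1 else η) ≤ 1 := fun n => by split_ifs; exacts [le_rfl, h1]
  refine ⟨prod_nonneg fun n _ => a n, prod_le_one (fun n _ => a n) fun n _ => b n, fun h => ?_⟩
  obtain ⟨n, hn⟩ := Function.ne_iff.1 h
  rw [pw, ← mul_prod_erase _ _ (mem_univ n), if_neg (show ¬ π n = 0 from hn)]
  exact mul_le_of_le_one_right h0 (prod_le_one (fun n _ => a n) fun n _ => b n)

section
variable {α : A → ℝ} {C : ℝ} (hC : 1 ≤ C) (hα : ∀ d, 0 ≤ α d ∧ α d ≤ C)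
include hC hα

omit [Fintype A] [DecidableEq A] in
lemma loc_wt_bd (π : N → Fin 13) (y : (N → Fin 6) → A) :
    0 ≤ wt α π y ∧ wt α π y ≤ C ^ Fintype.card ((N → Fin 6) × (N → Fin 6)) := by
  rw [loc_wt_eq]
  refine locrp_prod_le _ _ hC fun e => ?_
  split_ifs
  exacts [hα _, ⟨zero_le_one, hC⟩]

omit [Fintype A] [DecidableEq A] in
lemma loc_wt_le {π : N → Fin 13} (h : ∃ n, π n = 0) (y : (N → Fin 6) → A) :
    wt α π y ≤ α (y (fun n => blk (π n) (v₀ n)) - y fun n => blk (π n) (u₀ n)) *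
      C ^ Fintype.card ((N → Fin 6) × (N → Fin 6)) := by
  obtain ⟨n, hn⟩ := h
  rw [loc_wt_eq, ← mul_prod_erase _ _ (a := (fun n => blk (π n) (u₀ n), fun n => blk (π n) (v₀ n)))
    (by simp [blk_used]), if_pos (by
      exact sum_pos' (fun n _ => tau_e0 _) ⟨n, mem_univ n, by
        simp only [hn, u₀, v₀, tau_e0', one_pos]⟩)]
  refine mul_le_mul_of_nonneg_left (locrp_prod_le _ _ hC fun e => ?_).2 (hα _).1
  split_ifs
  exacts [hα _, ⟨zero_le_one, hC⟩]

lemma loc_dens_bd (π : N → Fin 13) (x : (N → Fin 6) → A) : 0 ≤ dens α π x ∧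
    dens α π x ≤ C ^ Fintype.card ((N → Fin 6) × (N → Fin 6)) * dens (fun _ => 1) π x := by
  simp only [dens, mul_sum]
  refine ⟨sum_nonneg fun y _ => ?_, sum_le_sum fun y _ => ?_⟩ <;> split_ifs
  exacts [(loc_wt_bd hC hα π y).1, le_rfl, by simpa [wt] using (loc_wt_bd hC hα π y).2, by simp]

end

theorem om_affine (α : A → ℝ) (η : ℝ) (β : A ≃+ A) (a : A) (x : (N → Fin 6) → A) :
    om (fun d => α (β d)) η x = om α η fun v => a + β (x v) := by
  simp only [om, raw, loc_affine α _ β a]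
  exact congrArg (_ / ·) (Fintype.expect_equiv (Equiv.piCongrRight fun _ =>
    β.toEquiv.trans (Equiv.addLeft a)) _ (fun y => ∑ π, pw η π * dens α π y) fun y => rfl)

theorem local_ok (N : Type) [Fintype N] [DecidableEq N] [Nonempty N] {Ca : ℝ} (hCa : 1 ≤ Ca) :
    ∃ C : ℝ, 1 ≤ C ∧ ∀ (A : Type) [Fintype A] [DecidableEq A] [AddCommGroup A] (α : A → ℝ)
      (ε η : ℝ), (∀ d, 0 ≤ α d ∧ α d ≤ Ca) → Small α ε → 0 ≤ ε → C * ε ≤ η → C * η ≤ 1 →
      LocOK (N := N) α (om α η) (ps α η) C (C * η) (C * η ^ Fintype.card N) := by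
  obtain ⟨K, hK, hrp⟩ := raw_rp N hCa
  obtain ⟨M, hM⟩ : ∃ M, M = Ca ^ Fintype.card ((N → Fin 6) × (N → Fin 6)) := ⟨_, rfl⟩
  obtain ⟨q, hq⟩ : ∃ q : ℝ, q = Fintype.card ((N → Fin 6) × (N → Fin 6)) := ⟨_, rfl⟩
  obtain ⟨P, hP⟩ : ∃ P : ℝ, P = Fintype.card (N → Fin 13) := ⟨_, rfl⟩
  have M1 : 1 ≤ M := hM ▸ one_le_pow₀ hCa
  have q0 : 0 ≤ q := hq ▸ Nat.cast_nonneg _
  have P1 : 1 ≤ P := hP ▸ Nat.one_le_cast.2 Fintype.card_pos
  obtain ⟨C, hC1, hC2, hC3⟩ : ∃ C, K ≤ C ∧ 2 * (q * M ^ 4) ≤ C ∧ 2 * (M * P) ≤ C :=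
    ⟨max K (max _ _), le_max_left _ _, le_max_of_le_right (le_max_left _ _),
      le_max_of_le_right (le_max_right _ _)⟩
  have C1 := hK.trans hC1
  refine ⟨C, C1, fun A _ _ _ α ε η hα hs hε h1 h2 => ?_⟩
  have η0 : 0 ≤ η := le_trans (by positivity) h1
  have η1 : η ≤ C * η := le_mul_of_one_le_left η0 C1
  have hpw := loc_pw (N := N) η0 (η1.trans h2)
  have hwt := loc_wt_bd (N := N) hCa hα
  have hd := loc_dens_bd (N := N) hCa hα
  have hd1 := fun π x => (loc_dens_bd (N := N) (α := fun _ : A => 1) le_rfl (by simp) π x).1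
  have hn := fun π x => mul_nonneg (hpw π).1 (hd π x).1
  have ed : ∀ π : N → Fin 13, 𝔼 x, dens α π x = 𝔼 y, wt α π y := fun π => by
    simpa using expect_dens α π fun _ => 1
  rw [← hM] at hwt hd
  have e1 : ∀ e ∈ univ.filter fun e : (N → Fin 6) × (N → Fin 6) =>
      0 < ∑ n, tau 0 (e.1 n) (e.2 n), e.swap ∉ univ.filter fun e : (N → Fin 6) × (N → Fin 6) =>
        0 < ∑ n, tau 0 (e.1 n) (e.2 n) := fun e he h => by
    have a := (mem_filter.1 h).2
    rw [sum_congr rfl fun n _ => tau_anti 0 (e.swap.2 n) (e.swap.1 n), sum_neg_distrib] at a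
    exact lt_asymm (mem_filter.1 he).2 (neg_pos.1 a)
  have e2 := fun e he (h : e.1 = e.2) => e1 e he ((Prod.ext h.symm h : e.swap = e).symm ▸ he)
  have e3 : 2 * (q * M ^ 4 * ε) ≤ η := by nlinarith
  obtain ⟨Z, hZ⟩ : ∃ Z, Z = 𝔼 y : (N → Fin 6) → A, raw α η y := ⟨_, rfl⟩
  have Z1 : 1 / 2 ≤ Z := by
    have a := loc_mean hCa hα hs hε e2 e1
    simp only [← loc_wt_zero, ← loc_dens_zero, ← hM, ← hq] at a
    have b : 𝔼 x : (N → Fin 6) → A, dens α 0 x ≤ Z := hZ ▸ expect_le_expect fun x _ => by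
      simpa [pw, raw] using single_le_sum (fun π _ => hn π x) (mem_univ 0)
    have c : q * M ^ 2 * ε ≤ q * M ^ 4 * ε := by gcongr; norm_num
    linarith
  have Z0 : 0 < Z := by linarith
  have hCZ : M * P ≤ C * Z := by nlinarith
  have hle : ∀ (S : Finset (N → Fin 13)) x, (∑ π ∈ S, pw η π * dens α π x) / Z ≤ om α η x :=
    fun S x => by
    rw [om, ← hZ]
    exact div_le_div_of_nonneg_right (sum_le_univ_sum_of_nonneg fun π => hn π x) Z0.le
  have hge : ∀ (S : Finset (N → Fin 13)) x, 0 ≤ (∑ π ∈ S, pw η π * dens α π x) / Z :=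
    fun S x => div_nonneg (sum_nonneg fun π _ => hn π x) Z0.le
  have hm : 𝔼 x : (N → Fin 6) → A, om α η x = 1 := by
    simp only [om, ← expect_div, ← hZ, div_self Z0.ne']
  have adm : ∀ S : Finset (N → Fin 13), 0 ∈ S → Adm (fun x => (∑ π ∈ S, pw η π * dens α π x) / Z)
      (fun x => wt α 0 x / Z) (fun x => (∑ π : N → Fin 13, dens (fun _ : A => 1) π x) / P) C
        (C * η) := fun S hS => by
    refine ⟨fun x c => ?_, ?_, fun x => ?_, fun u F G hF hG => ?_,
      fun x => div_nonneg (sum_nonneg fun π _ => hd1 π x) (by positivity), fun v H => ?_,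
      fun x => ?_⟩
    · simp only [add_comm _ c]
      exact congrArg (· / Z) (sum_congr rfl fun π _ => congrArg _
        (loc_affine α π (AddEquiv.refl A) c x).symm)
    · rw [abs_of_nonneg (expect_nonneg fun x _ => hge S x), ← hm]
      exact expect_le_expect fun x _ => hle S x
    · rw [abs_of_nonneg (div_nonneg (hwt _ _).1 Z0.le), div_le_iff₀ Z0]
      nlinarith [(hwt 0 x).2]
    · have a := loc_flat hCa hα hs hε e2 e1 u F G hF hG
      simp only [← loc_wt_zero, ← hM, ← hq] at a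
      have b : 0 ≤ 𝔼 a, F a ^ 2 + 𝔼 x, G x ^ 2 := add_nonneg (expect_nonneg fun _ _ => sq_nonneg _)
        (expect_nonneg fun _ _ => sq_nonneg _)
      simp only [← mul_div_assoc, ← expect_div, abs_div, abs_of_pos Z0, div_le_iff₀ Z0]
      refine a.trans ?_
      rw [mul_right_comm _ _ Z]
      exact mul_le_mul_of_nonneg_right (by nlinarith) b
    · simp only [div_mul_eq_mul_div, ← expect_div, sum_mul, expect_sum_comm, expect_dens _ _
        fun x => H (x v), wt, ite_self, prod_const_one, one_mul, loc_coord, sum_const, card_univ,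
        nsmul_eq_mul, ← hP]
      field_simp
    · have a : ∑ π ∈ S.erase 0, pw η π * dens α π x ≤ η * M * ∑ π, dens (fun _ : A => 1) π x := by
        rw [mul_sum]
        refine (sum_le_sum fun π h => ?_).trans (sum_le_univ_sum_of_nonneg fun π =>
          mul_nonneg (by positivity) (hd1 π x))
        rw [mul_assoc]
        exact mul_le_mul ((hpw π).2.2 (ne_of_mem_erase h)) (hd π x).2 (hd π x).1 η0
      have b : 0 ≤ η * ∑ π, dens (fun _ : A => 1) π x :=
        mul_nonneg η0 (sum_nonneg fun π _ => hd1 π x)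
      rw [← add_sum_erase _ _ hS, loc_dens_zero, show pw η (0 : N → Fin 13) = 1 by simp [pw],
        one_mul, ← sub_div, add_sub_cancel_left, abs_of_nonneg (hge _ x), ← mul_div_assoc,
        div_le_div_iff₀ Z0 (by positivity)]
      nlinarith [mul_le_mul_of_nonneg_right a (zero_le_one.trans P1), mul_le_mul_of_nonneg_right
        hCZ b]
  have rp := hrp A α ε η hα hs hε (le_trans (by gcongr) h1) (η1.trans h2)
  refine ⟨⟨fun n x => by simp only [om, raw_rot], fun n x => by simp only [om, raw_rfx],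
    fun n F => ?_⟩, hm, by subst hZ; exact ⟨_, _, adm univ (mem_univ _), adm _ (by simp)⟩,
    fun x => by subst hZ; exact hge _ x, fun x => by subst hZ; exact hle _ x, ?_,
    fun x hx h => hx ?_, fun d => ?_⟩
  · simp only [om, ← hZ, div_mul_eq_mul_div, ← expect_div]
    exact div_nonneg (rp.pos n F) Z0.le
  · have a : 𝔼 x, ∑ π : N → Fin 13 with ¬ ∃ n, π n = 0, pw η π * dens α π x ≤
        P * (η ^ Fintype.card N * M) := by
      rw [expect_sum_comm, hP, ← nsmul_eq_mul, ← card_univ, ← sum_const]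
      refine (sum_le_sum fun π h => ?_).trans (sum_le_univ_sum_of_nonneg fun π => by positivity)
      rw [← mul_expect, ed, show pw η π = η ^ Fintype.card N by
        simp [pw, not_exists.1 (mem_filter.1 h).2]]
      exact mul_le_mul_of_nonneg_left (expect_le univ_nonempty fun y _ => (hwt π y).2)
        (by positivity)
    have b := hZ
    simp only [raw, ← sum_filter_add_sum_filter_not univ fun π : N → Fin 13 => ∃ n, π n = 0,
      expect_add_distrib] at b
    simp only [ps, ← hZ, ← expect_div, le_div_iff₀ Z0]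
    nlinarith [mul_le_mul_of_nonneg_right hCZ (pow_nonneg η0 (Fintype.card N))]
  · rw [ps, sum_eq_zero fun π hπ => ?_, zero_div]
    refine mul_eq_zero_of_right _ (sum_eq_zero fun y _ => ite_eq_right_iff.2 fun e => ?_)
    subst e
    have := loc_wt_le hCa hα (mem_filter.1 hπ).2 y
    rw [h, zero_mul] at this
    exact le_antisymm this (hwt π y).1
  · simp only [marg, ps, ← hZ, div_mul_eq_mul_div, ← expect_div, div_le_iff₀ Z0, sum_mul,
      expect_sum_comm, mul_assoc, ← mul_expect]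
    have c := mul_le_mul_of_nonneg_right hCZ (hα d).1
    refine le_trans ?_ (show P * (α d * M) ≤ _ by linarith)
    rw [hP, ← nsmul_eq_mul, ← card_univ (α := N → Fin 13), ← sum_const]
    refine (sum_le_sum fun π h => ?_).trans (sum_le_univ_sum_of_nonneg fun π =>
      mul_nonneg (hα d).1 (by positivity))
    have a : (fun n => blk (π n) (u₀ n)) ≠ fun n => blk (π n) (v₀ n) := fun e => by
      obtain ⟨n, hn⟩ := (mem_filter.1 h).2
      simpa [hn, u₀, v₀, blk_zero] using congrFun e n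
    have b := loc_diff a fun t => α d * M * if t = d then (Fintype.card A : ℝ) else 0
    rw [← mul_expect _ fun t => if t = d then _ else _, Fintype.expect_eq_sum_div_card
      fun t => if t = d then _ else _, sum_ite_eq', if_pos (mem_univ d),
      div_self (by simp), mul_one] at b
    refine (mul_le_of_le_one_left (expect_nonneg fun x _ => mul_nonneg (hd π x).1
      (by positivity)) (hpw π).2.1).trans ?_
    rw [expect_dens, ← b]
    refine expect_le_expect fun y _ => ?_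
    split_ifs with e
    · exact mul_le_mul_of_nonneg_right (e ▸ hM ▸ loc_wt_le hCa hα (mem_filter.1 h).2 y)
        (by positivity)
    · simp

end Vale.Agent.P042U
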