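import Vale.Agent.P042U.Hex

/-! Reflection positivity of the local kernel (task H). -/

namespace Vale.Agent.P042U

open Finset
open scoped BigOperators

section Layers

variable {V A : Type} [Fintype V] [DecidableEq V] [Fintype A] [AddCommGroup A]

/-- the weight between two layers -/
noncomputable def locrp_B (U : V → Prop) [DecidablePred U] (T : V → V → ℤ) (α : A → ℝ) (σ : ℤ)
    (x y : V → A) : ℝ :=
  ∏ a with U a, ∏ b with U b, if 0 < σ + T a b then α (y b - x a) else 1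

omit [DecidableEq V] in
lemma locrp_prod_le (s : Finset V) (f : V → ℝ) {C : ℝ} (hC : 1 ≤ C)
    (hf : ∀ a, 0 ≤ f a ∧ f a ≤ C) :
    0 ≤ ∏ a ∈ s, f a ∧ ∏ a ∈ s, f a ≤ C ^ Fintype.card V := by
  refine ⟨prod_nonneg fun a _ => (hf a).1, ?_⟩
  refine (prod_le_prod (fun a _ => (hf a).1) fun a _ => (hf a).2).trans ?_
  rw [prod_const]
  exact pow_le_pow_right₀ hC (card_le_univ s)

omit [DecidableEq V] [Fintype A] in
lemma locrp_B_bd (U : V → Prop) [DecidablePred U] (T : V → V → ℤ) {α : A → ℝ} {C : ℝ}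
    (hC : 1 ≤ C) (hα : ∀ d, 0 ≤ α d ∧ α d ≤ C) (σ : ℤ) (x y : V → A) :
    0 ≤ locrp_B U T α σ x y ∧ locrp_B U T α σ x y ≤ (C ^ Fintype.card V) ^ Fintype.card V :=
  locrp_prod_le _ _ (one_le_pow₀ hC) fun a => locrp_prod_le _ _ hC fun b => by
    split_ifs
    · exact hα _
    · exact ⟨zero_le_one, hC⟩

omit [AddCommGroup A] in
lemma locrp_pair (H : (V → A) → (V → A) → ℝ) :
    𝔼 z : V ⊕ V → A, H (fun a => z (Sum.inl a)) (fun a => z (Sum.inr a)) = 𝔼 x, 𝔼 y, H x y := by
  rw [← expect_product', univ_product_univ]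
  exact Fintype.expect_equiv (Equiv.sumArrowEquivProdArrow V V A) _ _ fun z => rfl

/-- the edges between two layers -/
def locrp_E (U : V → Prop) (T : V → V → ℤ) (σ : ℤ) : (V ⊕ V) × (V ⊕ V) → Prop
  | (Sum.inl a, Sum.inr b) => U a ∧ U b ∧ 0 < σ + T a b
  | (Sum.inr b, Sum.inl a) => U b ∧ U a ∧ 0 < -σ + T b a
  | _ => False

lemma locrp_small (U : V → Prop) [DecidablePred U] (T : V → V → ℤ) (hT : ∀ a b, T b a = -T a b)
    {α : A → ℝ} {C ε : ℝ} (hC : 1 ≤ C) (hα : ∀ d, 0 ≤ α d ∧ α d ≤ C) (hs : Small α ε)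
    (hε : 0 ≤ ε) (σ : ℤ) (F G : (V → A) → ℝ) :
    |𝔼 x, 𝔼 y, F x * G y * (locrp_B U T α σ x y * locrp_B U T α (-σ) y x - 1)| ≤
      (Fintype.card ((V ⊕ V) × (V ⊕ V)) * C ^ (2 * Fintype.card ((V ⊕ V) × (V ⊕ V))) * ε) / 2 *
        (𝔼 x, F x ^ 2 + 𝔼 y, G y ^ 2) := by
  classical
  have h := graph_lemma (W := V ⊕ V) (A := A) (univ.filter (locrp_E U T σ))
    (fun _ x y => α (y - x)) hC hε (fun _ _ _ => hα _) (fun _ _ => hs)
    (by
      rintro ⟨a | a, b | b⟩ he <;> simp [locrp_E] at he ⊢)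
    (by
      rintro ⟨a | a, b | b⟩ he <;> simp only [locrp_E, mem_filter, mem_univ, true_and,
        Prod.swap_prod_mk] at he ⊢
      · have := hT a b; omega
      · have := hT a b; omega)
    (fun z => F fun a => z (Sum.inl a)) (fun z => G fun a => z (Sum.inr a))
    (by
      rintro ⟨a | a, b | b⟩ he <;> simp [locrp_E] at he ⊢)
  have e1 : ∀ z : V ⊕ V → A, ∏ e ∈ univ.filter (locrp_E U T σ), α (z e.2 - z e.1) =
      locrp_B U T α σ (fun a => z (Sum.inl a)) (fun a => z (Sum.inr a)) *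
        locrp_B U T α (-σ) (fun a => z (Sum.inr a)) (fun a => z (Sum.inl a)) := fun z => by
    have a1 : ∀ a b, locrp_E U T σ (Sum.inl a, Sum.inl b) ↔ False := fun _ _ => Iff.rfl
    have a2 : ∀ a b, locrp_E U T σ (Sum.inr a, Sum.inr b) ↔ False := fun _ _ => Iff.rfl
    have a3 : ∀ a b, locrp_E U T σ (Sum.inl a, Sum.inr b) ↔ U a ∧ U b ∧ 0 < σ + T a b :=
      fun _ _ => Iff.rfl
    have a4 : ∀ a b, locrp_E U T σ (Sum.inr a, Sum.inl b) ↔ U a ∧ U b ∧ 0 < -σ + T a b :=
      fun _ _ => Iff.rfl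
    simp only [locrp_B, prod_filter, Fintype.prod_prod_type, Fintype.prod_sum_type, a1, a2, a3, a4,
      if_false, prod_const_one, one_mul, mul_one, ite_and, prod_ite_irrel]
  simp only [e1] at h
  rw [locrp_pair (fun x y => F x * G y * (locrp_B U T α σ x y * locrp_B U T α (-σ) y x - 1)),
    locrp_pair (fun x _ => F x ^ 2), locrp_pair (fun _ y => G y ^ 2)] at h
  simp only [expect_const univ_nonempty] at h
  refine h.trans (mul_le_mul_of_nonneg_right ?_
    (add_nonneg (expect_nonneg fun _ _ => sq_nonneg _) (expect_nonneg fun _ _ => sq_nonneg _)))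
  have hc := card_le_univ (univ.filter (locrp_E U T σ))
  gcongr

end Layers

variable {N : Type} [Fintype N] [DecidableEq N] {A : Type} [Fintype A] [DecidableEq A]
  [AddCommGroup A]

theorem expect_dens (α : A → ℝ) (π : N → Fin 13) (Φ : ((N → Fin 6) → A) → ℝ) :
    𝔼 x, dens α π x * Φ x = 𝔼 y, wt α π y * Φ fun v => y fun n => blk (π n) (v n) := by
  simp only [dens, Fintype.expect_eq_sum_div_card, sum_mul, ite_mul, zero_mul]
  rw [sum_comm]
  simp only [sum_ite_eq, mem_univ, if_true]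

/-- apply a permutation in one coordinate -/
def locrp_up {β : Type} (s : Equiv.Perm β) (n : N) : Equiv.Perm (N → β) where
  toFun v := Function.update v n (s (v n))
  invFun v := Function.update v n (s.symm (v n))
  left_inv v := by simp
  right_inv v := by simp

omit [Fintype N] in
lemma locrp_up_apply {β : Type} (s : Equiv.Perm β) (n : N) (v : N → β) (m : N) :
    locrp_up s n v m = if m = n then s (v m) else v m := by
  by_cases h : m = n
  · subst h; simp [locrp_up]
  · simp [locrp_up, h]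

lemma locrp_sym (α : A → ℝ) (η : ℝ) (n : N) (x : (N → Fin 6) → A) {σ : Fin 6 → Fin 6}
    (hσ : Function.Bijective σ) (h : ∃ s : Equiv.Perm (Fin 13), s 0 = 0 ∧ ∀ t,
      ∃ κ : Equiv.Perm (Fin 6), (∀ j, blk (s t) (σ j) = κ (blk t j)) ∧
        (∀ a, used (s t) (κ a) ↔ used t a) ∧
          ∀ a b, used t a → used t b → tau (s t) (κ a) (κ b) = tau t a b) :
    raw α η (fun v => x (act σ n v)) = raw α η x := by
  obtain ⟨s, hs, h⟩ := h
  refine Fintype.sum_equiv (locrp_up s n) _ _ fun π => ?_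
  obtain ⟨κ, h1, h2, h3⟩ := h (π n)
  have e0 : pw η (locrp_up s n π) = pw η π := by
    refine prod_congr rfl fun m _ => ?_
    rw [locrp_up_apply]
    by_cases hm : m = n
    · rw [if_pos hm]
      exact if_congr (by rw [← hs, s.apply_eq_iff_eq, hs]) rfl rfl
    · rw [if_neg hm]
  rw [e0]
  refine congrArg _ (Fintype.sum_equiv ((locrp_up κ n).arrowCongr (Equiv.refl A)) _ _ fun y => ?_)
  have eu : ∀ a : N → Fin 6, (∀ m, used (locrp_up s n π m) (locrp_up κ n a m)) ↔
      ∀ m, used (π m) (a m) := fun a => forall_congr' fun m => by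
    rw [locrp_up_apply, locrp_up_apply]
    split_ifs with hm
    · subst hm; exact h2 _
    · rfl
  have eb : ∀ v : N → Fin 6, (fun m => blk (locrp_up s n π m) (act σ n v m)) =
      locrp_up κ n fun m => blk (π m) (v m) := fun v => funext fun m => by
    rw [locrp_up_apply, locrp_up_apply]
    split_ifs with hm
    · subst hm; simp only [act, Function.update_self, h1]
    · simp only [act, Function.update_of_ne hm]
  refine if_congr ⟨fun hy => funext fun v => ?_, fun hy => funext fun v => ?_⟩ ?_ rfl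
  · obtain ⟨v, rfl⟩ := (locrp_up (Equiv.ofBijective σ hσ) n).surjective v
    have := congrFun hy v
    change _ = x (act σ n v)
    rw [← this]
    exact congrArg y ((locrp_up κ n).symm_apply_eq.2 (eb v))
  · rw [← hy]
    exact congrArg y ((locrp_up κ n).symm_apply_eq.2 (eb v)).symm
  · refine prod_equiv (locrp_up κ n) (fun a => by simp only [mem_filter, mem_univ, true_and, eu])
      fun a ha => prod_equiv (locrp_up κ n)
        (fun b => by simp only [mem_filter, mem_univ, true_and, eu]) fun b hb => ?_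
    have : ∑ m, tau (locrp_up s n π m) (locrp_up κ n a m) (locrp_up κ n b m) =
        ∑ m, tau (π m) (a m) (b m) := sum_congr rfl fun m _ => by
      simp only [locrp_up_apply]
      split_ifs with hm
      · subst hm
        exact h3 _ _ ((mem_filter.1 ha).2 _) ((mem_filter.1 hb).2 _)
      · rfl
    simp [this]

theorem raw_rot (α : A → ℝ) (η : ℝ) (n : N) (x : (N → Fin 6) → A) :
    raw α η (fun v => x (act rot n v)) = raw α η x :=
  locrp_sym α η n x (by decide) pat_rot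

theorem raw_rfx (α : A → ℝ) (η : ℝ) (n : N) (x : (N → Fin 6) → A) :
    raw α η (fun v => x (act rfx n v)) = raw α η x :=
  locrp_sym α η n x (by decide) pat_rfx

omit [DecidableEq A] in
lemma locrp_term (α : A → ℝ) (n : N) (π : N → Fin 13) (F : ((N → Fin 6) → A) → ℝ) {t : Fin 13}
    {π' : {j // j ≠ n} → Fin 13} (ht : π n = t) (hπ : (fun j : {j // j ≠ n} => π j) = π') :
    𝔼 y, wt α π y * (F (fun v => y fun m => blk (π m) (act fdp n v m)) *
      F fun v => y fun m => blk (π m) (act fdm n v m)) =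
    hexForm (locrp_B (fun a : {j // j ≠ n} → Fin 6 => ∀ j : {j // j ≠ n}, used (π' j) (a j))
      (fun a b => ∑ j : {j // j ≠ n}, tau (π' j) (a j) (b j)) α) t fun l =>
        F (fun v => l (fdp (v n)) fun j => blk (π' j) (v j)) *
          F fun v => l (fdm (v n)) fun j => blk (π' j) (v j) := by
  subst ht hπ
  let e := Equiv.funSplitAt n (Fin 6)
  symm
  refine Fintype.expect_equiv ((Equiv.curry _ _ _).symm.trans (e.symm.arrowCongr (Equiv.refl A)))
    _ _ fun l => ?_
  have hy : ∀ v, ((Equiv.curry _ _ _).symm.trans (e.symm.arrowCongr (Equiv.refl A))) l v =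
      l (v n) fun j => v j := fun v => rfl
  have hb : ∀ σ (v : N → Fin 6) (j : {j // j ≠ n}), act σ n v j = v j := fun σ v j =>
    Function.update_of_ne j.2 _ _
  have hn : ∀ σ (v : N → Fin 6), act σ n v n = σ (v n) := fun σ v => Function.update_self _ _ _
  simp only [hy, hb, hn, wt]
  rw [mul_comm]
  congr 1
  have hu : ∀ a : N → Fin 6, (∀ m, used (π m) (a m)) ↔
      used (π n) (a n) ∧ ∀ j : {j // j ≠ n}, used (π j) (a j) := fun a =>
    ⟨fun h => ⟨h n, fun j => h j⟩, fun h m => if hm : m = n then hm ▸ h.1 else h.2 ⟨m, hm⟩⟩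
  have hp : ∀ f : Fin 6 → ({j // j ≠ n} → Fin 6) → ℝ,
      ∏ a : N → Fin 6 with ∀ m, used (π m) (a m), f (a n) (fun j => a j) =
        ∏ a with used (π n) a, ∏ a' : {j // j ≠ n} → Fin 6 with
          ∀ j : {j // j ≠ n}, used (π j) (a' j), f a a' := by
    intro f
    rw [← prod_product']
    exact prod_equiv e (fun a => by simp [hu, e]) fun a _ => rfl
  have hs : ∀ a b : N → Fin 6, ∑ m, tau (π m) (a m) (b m) =
      tau (π n) (a n) (b n) + ∑ j : {j // j ≠ n}, tau (π j) (a j) (b j) := fun a b =>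
    Fintype.sum_eq_add_sum_subtype_ne _ n
  simp only [hs, locrp_B]
  rw [hp fun a a' => ∏ b : N → Fin 6 with ∀ m, used (π m) (b m),
    if 0 < tau (π n) a (b n) + ∑ j : {j // j ≠ n}, tau (π j) (a' j) (b j) then
      α (l (b n) (fun j => b j) - l a a') else 1]
  refine prod_congr rfl fun a _ => ?_
  rw [prod_comm]
  refine prod_congr rfl fun a' _ => ?_
  exact (hp fun b b' => if 0 < tau (π n) a b + ∑ j : {j // j ≠ n}, tau (π j) (a' j) (b' j) then
      α (l b b' - l a a') else 1).symm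

lemma locrp_pos (n : N) {Ca : ℝ} (hCa : 1 ≤ Ca) :
    ∃ K : ℝ, 0 ≤ K ∧ ∀ (A : Type) [Fintype A] [DecidableEq A] [AddCommGroup A] (α : A → ℝ)
      (ε η : ℝ), (∀ d, 0 ≤ α d ∧ α d ≤ Ca) → Small α ε → 0 ≤ ε → K * ε ≤ η → η ≤ 1 →
      ∀ F : ((N → Fin 6) → A) → ℝ, 0 ≤ 𝔼 x, raw α η x * F (fun v => x (act fdp n v)) *
        F (fun v => x (act fdm n v)) := by
  obtain ⟨m, hm⟩ : ∃ m, Fintype.card ({j // j ≠ n} → Fin 6) = m := ⟨_, rfl⟩
  obtain ⟨M, hM⟩ : ∃ M, Fintype.card ((({j // j ≠ n} → Fin 6) ⊕ ({j // j ≠ n} → Fin 6)) ×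
    (({j // j ≠ n} → Fin 6) ⊕ ({j // j ≠ n} → Fin 6))) = M := ⟨_, rfl⟩
  have hK : 0 ≤ 9 * ((Ca ^ m) ^ m) ^ 50 * (M * Ca ^ (2 * M)) := by positivity
  refine ⟨_, hK, fun A _ _ _ α ε η hα hs hε hη hη1 F => ?_⟩
  have hη0 : 0 ≤ η := (mul_nonneg hK hε).trans hη
  have e0 : 𝔼 x, raw α η x * F (fun v => x (act fdp n v)) * F (fun v => x (act fdm n v)) =
      ∑ π : N → Fin 13, pw η π * 𝔼 x, dens α π x *
        (F (fun v => x (act fdp n v)) * F (fun v => x (act fdm n v))) := by
    simp only [raw, sum_mul, mul_assoc, expect_sum_comm, mul_expect]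
  rw [e0, ← (Equiv.funSplitAt n (Fin 13)).symm.sum_comp, Fintype.sum_prod_type_right]
  refine sum_nonneg fun π _ => ?_
  have e1 : ∀ t (j : {j // j ≠ n}), (Equiv.funSplitAt n (Fin 13)).symm (t, π) j = π j :=
    fun t j => by simp [j.2]
  have e2 : ∀ t, (Equiv.funSplitAt n (Fin 13)).symm (t, π) n = t := fun t => by simp
  have e3 : ∀ t, pw η ((Equiv.funSplitAt n (Fin 13)).symm (t, π)) =
      pw η π * if t = 0 then 1 else η := fun t => by
    rw [pw, Fintype.prod_eq_mul_prod_subtype_ne _ n, mul_comm]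
    simp only [e1, e2, pw]
  simp only [expect_dens, fun t => locrp_term α n _ F (e2 t) (funext (e1 t)), e3, mul_assoc,
    ← mul_sum]
  refine mul_nonneg (prod_nonneg fun j _ => by split_ifs <;> positivity) ?_
  have h1 := locrp_B_bd (fun a : {j // j ≠ n} → Fin 6 => ∀ j : {j // j ≠ n}, used (π j) (a j))
    (fun a b => ∑ j : {j // j ≠ n}, tau (π j) (a j) (b j)) hCa hα
  have h2 := locrp_small (fun a : {j // j ≠ n} → Fin 6 => ∀ j : {j // j ≠ n}, used (π j) (a j))
    (fun a b => ∑ j : {j // j ≠ n}, tau (π j) (a j) (b j))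
    (fun a b => by simp only [← sum_neg_distrib, ← tau_anti]) hCa hα hs hε
  rw [hm] at h1
  rw [hM] at h2
  exact hex_pos _ (one_le_pow₀ (one_le_pow₀ hCa)) (by positivity) h1 h2
    (by rwa [← mul_assoc]) hη1 fun l => F fun v => l (v n) fun j => blk (π j) (v j)

theorem raw_rp (N : Type) [Fintype N] [DecidableEq N] {Ca : ℝ} (hCa : 1 ≤ Ca) :
    ∃ K : ℝ, 1 ≤ K ∧ ∀ (A : Type) [Fintype A] [DecidableEq A] [AddCommGroup A] (α : A → ℝ)
      (ε η : ℝ), (∀ d, 0 ≤ α d ∧ α d ≤ Ca) → Small α ε → 0 ≤ ε → K * ε ≤ η → η ≤ 1 →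
      RPK (N := N) (raw α η) := by
  choose K hK h using fun n : N => locrp_pos n hCa
  refine ⟨1 + ∑ n, K n, le_add_of_nonneg_right (sum_nonneg fun n _ => hK n),
    fun A _ _ _ α ε η hα hs hε hη hη1 => ⟨raw_rot α η, raw_rfx α η, fun n =>
      h n A α ε η hα hs hε (le_trans (mul_le_mul_of_nonneg_right ?_ hε) hη) hη1⟩⟩
  have := single_le_sum (fun n _ => hK n) (mem_univ n)
  linarith

end Vale.Agent.P042U
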