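import Vale.Agent.P042U.Tail

/-! Auxiliary identities for the model theorem. -/

set_option linter.unusedSectionVars false

namespace Vale.Agent.P042U

open Finset
open scoped BigOperators

section One

variable {A : Type} [Fintype A] [DecidableEq A] [AddCommGroup A]

theorem mt_delta (a : A) (f : A → ℝ) :
    𝔼 s, (if a = s then (Fintype.card A : ℝ) else 0) * f s = f a := by
  have : (Fintype.card A : ℝ) ≠ 0 := by positivity
  simp only [ite_mul, zero_mul]
  rw [Fintype.expect_eq_sum_div_card, Finset.sum_ite_eq, if_pos (Finset.mem_univ _)]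
  field_simp

theorem mt_delta_one (a : A) : 𝔼 s, (if a = s then (Fintype.card A : ℝ) else 0) = 1 := by
  simpa using mt_delta a fun _ => 1

theorem mt_delta_one' (a : A) : 𝔼 s, (if s = a then (Fintype.card A : ℝ) else 0) = 1 := by
  simpa only [eq_comm] using mt_delta_one a

theorem mt_pair {κ : A → ℝ} (hκ : 𝔼 d, κ d = 1) (p q : Prop) [Decidable p] [Decidable q]
    (a b : A) :
    𝔼 s, 𝔼 t, (if p then (if a = s then (Fintype.card A : ℝ) else 0) - 1 else 1) *
      (if q then (if b = t then (Fintype.card A : ℝ) else 0) - 1 else 1) * κ (t - s) =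
      if p ↔ q then (if p then κ (b - a) - 1 else 1) else 0 := by
  have h1 : ∀ s, 𝔼 t, κ (t - s) = 1 := fun s =>
    (Fintype.expect_equiv (Equiv.subRight s) _ _ fun _ => rfl).trans hκ
  have h2 : ∀ t, 𝔼 s, κ (t - s) = 1 := fun t =>
    (Fintype.expect_equiv (Equiv.subLeft t) _ _ fun _ => rfl).trans hκ
  simp only [mul_assoc, ← Finset.mul_expect]
  by_cases hq : q
  · simp only [hq, if_true, sub_mul, one_mul, Finset.expect_sub_distrib, mt_delta, h1]
    by_cases hp : p
    · simp [hp, sub_mul, Finset.expect_sub_distrib, mt_delta a fun s => κ (b - s) - 1, h2,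
        -ite_mul]
    · simp [hp, Finset.expect_sub_distrib, h2]
  · simp only [hq, if_false, one_mul, h1, mul_one]
    by_cases hp : p
    · simp [hp, Finset.expect_sub_distrib, mt_delta_one, -Finset.expect_ite_eq]
    · simp [hp]

theorem mt_marg_mean {V : Type} [Fintype V] [DecidableEq V] (k : (V → A) → ℝ) (u v : V) :
    𝔼 d, marg k u v d = 𝔼 x, k x := by
  simp only [marg]
  rw [Finset.expect_comm]
  simp only [← Finset.mul_expect, mt_delta_one, mul_one]

end One

variable {ι : Type} [Fintype ι] [DecidableEq ι] {Ω : ι → Type} [∀ i, Fintype (Ω i)]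
  [∀ i, DecidableEq (Ω i)] [∀ i, AddCommGroup (Ω i)] {V : Type} [Fintype V] [DecidableEq V]

theorem mt_expect_prod (g : ∀ i, (V → Ω i) → ℝ) :
    𝔼 x : V → ∀ i, Ω i, ∏ i, g i (fun v => x v i) = ∏ i, 𝔼 a, g i a := by
  rw [← expect_prod_coord (Ω := fun i => V → Ω i)]
  exact Fintype.expect_equiv (Equiv.piComm _) _ _ fun x => rfl

theorem mt_expect_prodS (S : Finset ι) (g : ∀ i, (V → Ω i) → ℝ) :
    𝔼 x : V → ∀ i, Ω i, ∏ i ∈ S, g i (fun v => x v i) = ∏ i ∈ S, 𝔼 a, g i a := by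
  have h1 := mt_expect_prod fun i a => if i ∈ S then g i a else 1
  simp only [Fintype.prod_ite_mem] at h1
  rw [h1, ← Fintype.prod_ite_mem S]
  refine Finset.prod_congr rfl fun i _ => ?_
  split_ifs
  · rfl
  · exact Fintype.expect_const _

theorem mt_expect_pw (S : Finset ι) (Φ : (V → ∀ i, Ω i) → ℝ) :
    𝔼 x, Φ x = 𝔼 z : V → ∀ i, Ω i, 𝔼 y : V → ∀ i, Ω i, Φ fun v => S.piecewise (z v) (y v) := by
  rw [Fintype.expect_equiv (Equiv.piComm _) Φ (fun x : ∀ i, V → Ω i => Φ fun v i => x i v)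
    fun _ => rfl, expect_piecewise (Ω := fun i => V → Ω i) S]
  symm
  refine Fintype.expect_equiv (Equiv.piComm _) _ _ fun z => ?_
  refine Fintype.expect_equiv (Equiv.piComm _) _ _ fun y => ?_
  congr 1
  funext v i
  by_cases h : i ∈ S <;> simp [Finset.piecewise, h, Function.swap]

theorem mt_prod_pw (S : Finset ι) (φ k : ∀ i, (V → Ω i) → ℝ) (z y : V → ∀ i, Ω i) :
    (∏ i, S.piecewise φ k i fun v => S.piecewise (z v) (y v) i) =
      (∏ i ∈ S, φ i fun v => z v i) * ∏ i ∈ Sᶜ, k i fun v => y v i := by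
  rw [← Finset.prod_mul_prod_compl S]
  congr 1
  · exact Finset.prod_congr rfl fun i hi => by simp [Finset.piecewise, hi]
  · exact Finset.prod_congr rfl fun i hi => by simp [Finset.piecewise, Finset.mem_compl.1 hi]

theorem mt_expect_dl (f : (∀ i, Ω i) → ℝ) (d x : ∀ i, Ω i) :
    𝔼 y : ∀ i, Ω i, (∏ i, if d i = y i - x i then (Fintype.card (Ω i) : ℝ) else 0) * f y =
      f (d + x) := by
  rw [← mt_delta (d + x) f]
  refine Finset.expect_congr rfl fun y _ => ?_
  rw [Fintype.prod_ite_zero, Fintype.card_pi, Nat.cast_prod]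
  congr 2
  simp [funext_iff, eq_sub_iff_add_eq]

theorem mt_low_sub {I T : Finset ι} {D : ℝ} (h : T ∈ low Ω I D) : T ⊆ I ∧ (sz Ω T : ℝ) ≤ D := by
  simpa [low] using h

theorem mt_bil (κ : ∀ i, Ω i → ℝ) (hκ : ∀ i, 𝔼 d, κ i d = 1) (I : Finset ι) (D : ℝ)
    (μ μ' : (∀ i, Ω i) → ℝ) :
    𝔼 x, 𝔼 y, part (low Ω I D) μ x * part (low Ω I D) μ' y * ∏ i, κ i (y i - x i) =
      𝔼 x, 𝔼 y, μ x * μ' y * ker κ I D (y - x) := by
  have h1 : ∀ (T T' : Finset ι) (a b : ∀ i, Ω i),
      𝔼 x, 𝔼 y, cc T a x * cc T' b y * ∏ i, κ i (y i - x i) =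
        if T = T' then ∏ i ∈ T, (κ i (b i - a i) - 1) else 0 := by
    intro T T' a b
    simp only [cc, ← Fintype.prod_ite_mem T, ← Fintype.prod_ite_mem T', ← Finset.prod_mul_distrib]
    have h2 := fun x : ∀ i, Ω i => expect_prod_coord (Ω := Ω) fun i t =>
      (if i ∈ T then (if a i = x i then (Fintype.card (Ω i) : ℝ) else 0) - 1 else 1) *
      (if i ∈ T' then (if b i = t then (Fintype.card (Ω i) : ℝ) else 0) - 1 else 1) *
        κ i (t - x i)
    simp only [h2]
    rw [expect_prod_coord (Ω := Ω) fun i s => 𝔼 t,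
      (if i ∈ T then (if a i = s then (Fintype.card (Ω i) : ℝ) else 0) - 1 else 1) *
      (if i ∈ T' then (if b i = t then (Fintype.card (Ω i) : ℝ) else 0) - 1 else 1) *
        κ i (t - s)]
    simp only [mt_pair (hκ _), Fintype.prod_ite_zero, Finset.ext_iff]
  have h3 : ∀ T T' : Finset ι, 𝔼 x, 𝔼 y, ES T μ x * ES T' μ' y * ∏ i, κ i (y i - x i) =
      if T = T' then 𝔼 a, 𝔼 b, μ a * μ' b * ∏ i ∈ T, (κ i (b i - a i) - 1) else 0 := by
    intro T T'
    have h4 : ∀ x y : ∀ i, Ω i, ES T μ x * ES T' μ' y * ∏ i, κ i (y i - x i) =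
        𝔼 a, 𝔼 b, μ a * μ' b * (cc T a x * cc T' b y * ∏ i, κ i (y i - x i)) := by
      intro x y
      rw [ES, ES, Finset.expect_mul_expect, Finset.expect_mul]
      refine Finset.expect_congr rfl fun a _ => ?_
      rw [Finset.expect_mul]
      exact Finset.expect_congr rfl fun b _ => by ring
    calc _ = 𝔼 x, 𝔼 a, 𝔼 y, 𝔼 b, μ a * μ' b * (cc T a x * cc T' b y * ∏ i, κ i (y i - x i)) := by
          simp only [h4]
          exact Finset.expect_congr rfl fun x _ => Finset.expect_comm _ _ _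
      _ = 𝔼 a, 𝔼 x, 𝔼 b, 𝔼 y, μ a * μ' b * (cc T a x * cc T' b y * ∏ i, κ i (y i - x i)) := by
          rw [Finset.expect_comm]
          exact Finset.expect_congr rfl fun a _ => Finset.expect_congr rfl fun x _ =>
            Finset.expect_comm _ _ _
      _ = 𝔼 a, 𝔼 b, μ a * μ' b * 𝔼 x, 𝔼 y, cc T a x * cc T' b y * ∏ i, κ i (y i - x i) := by
          simp only [Finset.mul_expect]
          exact Finset.expect_congr rfl fun a _ => Finset.expect_comm _ _ _
      _ = _ := by
          simp only [h1]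
          split_ifs <;> simp
  simp only [part, Finset.sum_mul, Finset.expect_sum_comm, h3,
    Finset.sum_ite_eq', ker, Finset.mul_sum, Pi.sub_apply]
  exact Finset.sum_congr rfl fun T hT => if_pos hT

theorem mt_ker_congr {κ κ' : ∀ i, Ω i → ℝ} {I : Finset ι} (h : ∀ i ∈ I, κ i = κ' i) (D : ℝ) :
    ker κ I D = ker κ' I D := by
  funext d
  refine Finset.sum_congr rfl fun T hT => Finset.prod_congr rfl fun i hi => ?_
  rw [h i ((mt_low_sub hT).1 hi)]

theorem mt_form_add (k : ∀ i, (V → Ω i) → ℝ) {H H1 H2 : V → (∀ i, Ω i) → ℝ} (u : V)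
    (h1 : ∀ v, v ≠ u → H1 v = H v) (h2 : ∀ v, v ≠ u → H2 v = H v)
    (h : ∀ y, H u y = H1 u y + H2 u y) : Form k H = Form k H1 + Form k H2 := by
  simp only [Form, ← Finset.expect_add_distrib]
  refine Finset.expect_congr rfl fun x _ => ?_
  rw [← Finset.mul_prod_erase _ _ (Finset.mem_univ u),
    ← Finset.mul_prod_erase _ (fun v => H1 v (x v)) (Finset.mem_univ u),
    ← Finset.mul_prod_erase _ (fun v => H2 v (x v)) (Finset.mem_univ u), h,
    Finset.prod_congr rfl fun v hv => congrFun (h1 v (Finset.ne_of_mem_erase hv)) (x v),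
    Finset.prod_congr rfl fun v hv => congrFun (h2 v (Finset.ne_of_mem_erase hv)) (x v)]
  ring

theorem mt_form_smul (k : ∀ i, (V → Ω i) → ℝ) (c : V → ℝ) (H : V → (∀ i, Ω i) → ℝ) :
    (Form k fun v y => c v * H v y) = (∏ v, c v) * Form k H := by
  rw [Form, Form, Finset.mul_expect]
  refine Finset.expect_congr rfl fun x _ => ?_
  rw [Finset.prod_mul_distrib]
  ring

theorem mt_form_expand (ω ψ : ∀ i, (V → Ω i) → ℝ) (H : V → (∀ i, Ω i) → ℝ) :
    Form ω H ≤ |Form ψ H| +
      ∑ S ∈ (univ : Finset (Finset ι)).erase ∅, |Form (S.piecewise (ω - ψ) ω) H| := by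
  have h1 : Form ψ H = ∑ S : Finset ι, (-1) ^ S.card * Form (S.piecewise (ω - ψ) ω) H := by
    simp only [Form, Finset.mul_expect, ← Finset.expect_sum_comm]
    refine Finset.expect_congr rfl fun x _ => ?_
    have h2 := Finset.prod_sub (fun i => ω i fun v => x v i)
      (fun i => (ω - ψ) i fun v => x v i) univ
    simp only [Pi.sub_apply, sub_sub_cancel, Finset.powerset_univ] at h2
    rw [h2, Finset.sum_mul]
    refine Finset.sum_congr rfl fun S _ => ?_
    have h3 := mt_prod_pw S (ω - ψ) ω x x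
    simp only [Finset.piecewise_same, Pi.sub_apply] at h3
    rw [h3, Finset.compl_eq_univ_sdiff]
    ring
  rw [← Finset.add_sum_erase _ _ (Finset.mem_univ ∅), Finset.card_empty, pow_zero, one_mul,
    Finset.piecewise_empty] at h1
  have h2 := Finset.abs_sum_le_sum_abs
    (fun S : Finset ι => (-1) ^ S.card * Form (S.piecewise (ω - ψ) ω) H) (univ.erase ∅)
  simp only [abs_mul, abs_pow, abs_neg, abs_one, one_pow, one_mul] at h2
  have h3 := neg_abs_le
    (∑ S ∈ (univ : Finset (Finset ι)).erase ∅, (-1) ^ S.card * Form (S.piecewise (ω - ψ) ω) H)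
  have h4 := le_abs_self (Form ψ H)
  linarith

theorem mt_weight (S : Finset ι) {f : ∀ i, (V → Ω i) → ℝ} (hf : ∀ i x, 0 ≤ f i x)
    {G : (V → ∀ i, Ω i) → ℝ} {B : ℝ}
    (h : ∀ z : V → ∀ i, Ω i, (∀ i ∈ S, f i (fun v => z v i) ≠ 0) → |G z| ≤ B) :
    |𝔼 z : V → ∀ i, Ω i, (∏ i ∈ S, f i fun v => z v i) * G z| ≤ (∏ i ∈ S, 𝔼 a, f i a) * B := by
  rw [← mt_expect_prodS, Finset.expect_mul]
  refine (Finset.abs_expect_le _ _).trans (Finset.expect_le_expect fun z _ => ?_)
  have h1 : 0 ≤ ∏ i ∈ S, f i fun v => z v i := Finset.prod_nonneg fun i _ => hf i _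
  rw [abs_mul, abs_of_nonneg h1]
  rcases h1.eq_or_lt with h2 | h2
  · rw [← h2, zero_mul, zero_mul]
  · exact mul_le_mul_of_nonneg_left (h z (Finset.prod_ne_zero_iff.1 h2.ne')) h1

theorem mt_one_le_sz (T : Finset ι) : 1 ≤ sz Ω T :=
  Finset.one_le_prod' fun _ _ => Fintype.card_pos

theorem mt_sz_biUnion (s : Finset V) (T : V → Finset ι) :
    sz Ω (s.biUnion T) ≤ ∏ v ∈ s, sz Ω (T v) := by
  induction s using Finset.induction_on with
  | empty => simp [sz]
  | insert v s hv ih =>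
    rw [Finset.biUnion_insert, Finset.prod_insert hv]
    refine le_trans ?_ (Nat.mul_le_mul_left _ ih)
    rw [sz, sz, sz, ← Finset.prod_union_inter]
    exact Nat.le_mul_of_pos_right _ (mt_one_le_sz _)

theorem mt_pow_le_sz (h3 : ∀ i, 3 ≤ Fintype.card (Ω i)) (T : Finset ι) :
    (3 : ℝ) ^ T.card ≤ sz Ω T := by
  exact_mod_cast Finset.pow_card_le_prod T _ 3 fun i _ => h3 i

theorem mt_prod_rpow (T : Finset ι) (γ : ℝ) :
    ∏ i ∈ T, (Fintype.card (Ω i) : ℝ) ^ γ = (sz Ω T : ℝ) ^ γ := by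
  rw [sz, Nat.cast_prod, Real.finsetProd_rpow _ _ fun _ _ => Nat.cast_nonneg _]

theorem mt_part_one {I : Finset ι} {D : ℝ} (hD : 1 ≤ D) (y : ∀ i, Ω i) :
    part (low Ω I D) (fun _ => 1) y = 1 := by
  rw [part, Finset.sum_eq_single ∅ (fun T _ hT => ES_one (Finset.nonempty_iff_ne_empty.2 hT) y)
    (fun h => (h (by simpa [low, sz] using hD)).elim), ES_empty, Fintype.expect_const]

theorem mt_fib_one (S : Finset ι) {D : ℝ} (hD : 1 ≤ D) (z : ∀ i, Ω i) :
    fib S D (fun _ => 1) z = fun _ => 1 := by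
  funext y
  have h1 : ∀ T : Finset ι, ES T (fun x => 1 * dl S x z) y =
      ∏ i, 𝔼 a : Ω i, (if i ∈ S then (if a = z i then (Fintype.card (Ω i) : ℝ) else 0) else 1) *
        (if i ∈ T then (if a = y i then (Fintype.card (Ω i) : ℝ) else 0) - 1 else 1) := by
    intro T
    rw [← expect_prod_coord, ES]
    refine Finset.expect_congr rfl fun x _ => ?_
    rw [Finset.prod_mul_distrib, Fintype.prod_ite_mem, Fintype.prod_ite_mem, one_mul, dl, cc]
  rw [fib, part, Finset.sum_eq_single ∅ (fun T hT hT' => ?_)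
    (fun h => (h (by simpa [low, sz] using hD)).elim), h1]
  · refine Finset.prod_eq_one fun i _ => ?_
    rw [Finset.expect_congr rfl fun a _ => by rw [if_neg (Finset.notMem_empty i), mul_one]]
    split_ifs
    · exact mt_delta_one' _
    · exact Fintype.expect_const _
  · obtain ⟨i, hi⟩ := Finset.nonempty_iff_ne_empty.2 hT'
    rw [h1]
    refine Finset.prod_eq_zero (Finset.mem_univ i) ?_
    simp only [if_pos hi, if_neg (Finset.mem_compl.1 ((mt_low_sub hT).1 hi)), one_mul,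
      Finset.expect_sub_distrib, mt_delta_one', Fintype.expect_const, sub_self]

theorem mt_rpow_div {s R γ : ℝ} (hs : 1 ≤ s) (hR : 0 < R) (hγ1 : γ ≤ 1) :
    (s / R) ^ γ ≤ s * R ^ (-γ) := by
  rw [Real.div_rpow (by linarith) hR.le, Real.rpow_neg hR.le, div_eq_mul_inv]
  refine mul_le_mul_of_nonneg_right ?_ (by positivity)
  exact (Real.rpow_le_rpow_of_exponent_le hs hγ1).trans_eq (Real.rpow_one s)

theorem mt_sum_prod_le {x : ι → ℝ} (hx : ∀ i, 0 ≤ x i) (h : ∑ i, x i ≤ 1 / 8) :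
    ∑ S ∈ (univ : Finset (Finset ι)).erase ∅, ∏ i ∈ S, x i ≤ 1 / 4 := by
  have h1 := Finset.prod_one_add (f := x) univ
  rw [Finset.powerset_univ, ← Finset.add_sum_erase _ _ (Finset.mem_univ ∅),
    Finset.prod_empty] at h1
  have h2 := Real.prod_one_add_le_exp_sum univ hx
  have h3 := Real.exp_le_exp.2 h
  have h4 := Real.exp_bound_div_one_sub_of_interval (x := 1 / 8) (by norm_num) (by norm_num)
  norm_num at h4
  linarith

theorem mt_CT_nonneg (m : ℕ) : 0 ≤ CT m := by
  unfold CT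
  positivity

end Vale.Agent.P042U
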