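import Vale.Agent.P042U.Tail
import Vale.Agent.P042U.MTAux

/-! The model theorem (task J). -/

set_option linter.unusedSectionVars false

namespace Vale.Agent.P042U

open Finset
open scoped BigOperators

variable {ι : Type} [Fintype ι] [DecidableEq ι] {Ω : ι → Type} [∀ i, Fintype (Ω i)]
  [∀ i, DecidableEq (Ω i)] [∀ i, AddCommGroup (Ω i)]

section

variable {V : Type} [Fintype V] [DecidableEq V]

/-- conditioning on the coordinates in `S` -/
theorem form_fibre (φ k : ∀ i, (V → Ω i) → ℝ) (S : Finset ι) (hk : ∀ i ∈ S, 𝔼 x, k i x = 1)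
    (H : V → (∀ i, Ω i) → ℝ) :
    Form (S.piecewise φ k) H = 𝔼 z : V → ∀ i, Ω i, (∏ i ∈ S, φ i fun v => z v i) *
      Form k fun v y => H v (S.piecewise (z v) y) := by
  have h1 : ∀ z : V → ∀ i, Ω i, (Form k fun v y => H v (S.piecewise (z v) y)) =
      𝔼 y : V → ∀ i, Ω i, (∏ i ∈ Sᶜ, k i fun v => y v i) *
        ∏ v, H v (S.piecewise (z v) (y v)) := by
    intro z
    have h2 := fun w y : V → ∀ i, Ω i => mt_prod_pw S k k w y
    simp only [Finset.piecewise_same] at h2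
    rw [Form, mt_expect_pw S]
    simp only [h2, Finset.piecewise_idem_right, mul_assoc, ← Finset.mul_expect]
    rw [← Finset.expect_mul, mt_expect_prodS, Finset.prod_eq_one hk, one_mul]
  rw [Form, mt_expect_pw S]
  simp only [h1, mt_prod_pw, mul_assoc, Finset.mul_expect]

/-- a form with two nontrivial functions -/
theorem form_two {k : ∀ i, (V → Ω i) → ℝ} (ht : ∀ i x c, k i (fun v => x v + c) = k i x)
    {u v : V} (huv : u ≠ v) {H : V → (∀ i, Ω i) → ℝ} (hH : ∀ w, w ≠ u → w ≠ v → H w = fun _ => 1) :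
    Form k H = 𝔼 x, 𝔼 y, H u x * H v y * ∏ i, marg (k i) u v (y i - x i) := by
  have h1 : ∀ x : V → ∀ i, Ω i, ∏ w, H w (x w) = H u (x u) * H v (x v) := fun x =>
    Finset.prod_eq_mul_of_mem u v (Finset.mem_univ _) (Finset.mem_univ _) huv
      fun w _ hw => by rw [hH w hw.1 hw.2]
  have h2 : ∀ c : ∀ i, Ω i, Form k H = 𝔼 x : V → ∀ i, Ω i,
      (∏ i, k i fun w => x w i) * (H u (x u + c) * H v (x v + c)) := by
    intro c
    symm
    refine Fintype.expect_equiv (Equiv.addRight fun _ => c) _ _ fun x => ?_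
    rw [h1]
    congr 1
    exact Finset.prod_congr rfl fun i _ => (ht i (fun w => x w i) (c i)).symm
  have h3 : ∀ x y : ∀ i, Ω i, H u x * H v y * ∏ i, marg (k i) u v (y i - x i) =
      𝔼 X : V → ∀ i, Ω i, (∏ i, k i fun w => X w i) * (H u x *
        ((∏ i, if (X v - X u) i = y i - x i then (Fintype.card (Ω i) : ℝ) else 0) * H v y)) := by
    intro x y
    simp only [marg]
    rw [← mt_expect_prod fun i a => k i a *
      if a v - a u = y i - x i then (Fintype.card (Ω i) : ℝ) else 0, Finset.mul_expect]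
    refine Finset.expect_congr rfl fun X _ => ?_
    rw [Finset.prod_mul_distrib]
    simp only [Pi.sub_apply]
    ring
  rw [← Fintype.expect_const (ι := ∀ i, Ω i) (Form k H), Finset.expect_congr rfl fun c _ => h2 c,
    Finset.expect_comm]
  simp only [h3]
  refine Eq.trans ?_ ((Finset.expect_congr rfl fun x _ => Finset.expect_comm _ _ _).trans
    (Finset.expect_comm _ _ _)).symm
  refine Finset.expect_congr rfl fun X _ => ?_
  simp only [← Finset.mul_expect, mt_expect_dl]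
  congr 1
  refine Fintype.expect_equiv (Equiv.addLeft (X u)) _ _ fun c => ?_
  simp only [Equiv.coe_addLeft, ← add_assoc, sub_add_cancel]

/-- the bilinear form of two truncations -/
theorem bil_part (κ : ∀ i, Ω i → ℝ) (hκ : ∀ i, 𝔼 d, κ i d = 1) (I : Finset ι) (D : ℝ)
    (μ μ' : (∀ i, Ω i) → ℝ) :
    𝔼 x, 𝔼 y, part (low Ω I D) μ x * part (low Ω I D) μ' y * ∏ i ∈ I, κ i (y i - x i) =
      𝔼 x, 𝔼 y, μ x * μ' y * ker κ I D (y - x) := by
  have h1 := mt_bil (I.piecewise κ fun _ _ => 1) (fun i => by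
    by_cases h : i ∈ I <;> simp [Finset.piecewise, h, hκ]) I D μ μ'
  rw [mt_ker_congr (κ' := κ) (fun i hi => Finset.piecewise_eq_of_mem _ _ _ hi)] at h1
  rw [← h1]
  refine Finset.expect_congr rfl fun x _ => Finset.expect_congr rfl fun y _ => ?_
  rw [← Fintype.prod_ite_mem I]
  congr 1
  exact Finset.prod_congr rfl fun i _ => by by_cases h : i ∈ I <;> simp [Finset.piecewise, h]

end

variable {N : Type} [Fintype N] [DecidableEq N] [Nonempty N]

section

variable {V : Type} [Fintype V] [DecidableEq V] [Nonempty V]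

theorem mt_err (hinj : Function.Injective (sz Ω)) {k k₀ cp : ∀ i, (V → Ω i) → ℝ} {C γ : ℝ}
    (hC : 1 ≤ C) (hγ : 0 ≤ γ) (hγ1 : γ ≤ 1)
    (hk : ∀ i, Adm (k i) (k₀ i) (cp i) C
      ((cT (Fintype.card V) C * (Fintype.card (Ω i) : ℝ) ^ (-γ)) ^ Fintype.card V))
    {μ ν : V → (∀ i, Ω i) → ℝ} {δ Y R D b : ℝ}
    (hμ : ∀ v x, |μ v x| ≤ ν v x) (hν : ∀ v, PR (ν v) univ δ Y) (hR : 1 ≤ R) (hD : R ≤ D)
    (hY : D ^ 4 ≤ Y) (hδ0 : 0 ≤ δ) (hδ : δ * D ≤ 1) (hb : 0 ≤ b) {S : Finset ι} (hS : S.Nonempty)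
    (h1 : (sz Ω S : ℝ) ≤ R → ∀ z : V → ∀ i, Ω i,
      |Form k fun v => fib S R (μ v) (z v)| ≤ 2 ^ Fintype.card V * sz Ω S * b)
    (z : V → ∀ i, Ω i) :
    |Form k fun v y => part (low Ω univ R) (μ v) (S.piecewise (z v) y)| ≤
      (4 ^ Fintype.card V) ^ S.card * (sz Ω S *
        (b + Fintype.card V * CT (Fintype.card V) * R ^ (-γ))) := by
  set m := Fintype.card V with hm
  have hm1 : (1 : ℝ) ≤ m := by exact_mod_cast Fintype.card_pos
  have hCT := mt_CT_nonneg m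
  have hs1 : (1 : ℝ) ≤ sz Ω S := by exact_mod_cast mt_one_le_sz S
  have a1 : (3 : ℝ) ^ (m * S.card) ≤ (4 ^ m) ^ S.card := by
    rw [← pow_mul]
    exact pow_le_pow_left₀ (by norm_num) (by norm_num) _
  have a2 : (2 : ℝ) ^ m ≤ (4 ^ m) ^ S.card :=
    (pow_le_pow_left₀ (by norm_num) (by norm_num) _).trans
      (le_self_pow₀ (one_le_pow₀ (by norm_num)) hS.card_pos.ne')
  have a3 := mt_rpow_div hs1 (by linarith : 0 < R) hγ1
  have a4 : 0 ≤ R ^ (-γ) := by positivity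
  by_cases hSR : (sz Ω S : ℝ) ≤ R
  · have b1 := fib_cmp hinj hC hγ hk (r := fun _ => R) hμ hν (fun _ => ⟨le_rfl, hD⟩) hR hY hδ0 hδ
      hSR z
    have b2 := h1 hSR z
    have b3 := abs_sub_abs_le_abs_sub
      (Form k fun v y => part (low Ω univ R) (μ v) (S.piecewise (z v) y))
      (Form k fun v => fib S R (μ v) (z v))
    have b4 : (2 : ℝ) ^ m * sz Ω S * b ≤ (4 ^ m) ^ S.card * sz Ω S * b := by gcongr
    have b5 : m * 3 ^ (m * S.card) * CT m * (sz Ω S / R) ^ γ ≤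
        m * (4 ^ m) ^ S.card * CT m * (sz Ω S * R ^ (-γ)) := by gcongr
    nlinarith
  · have b1 := fib_total hinj hC hγ hk (r := fun _ => R) hμ hν (fun _ => hD) (hR.trans hD) hY
      hδ0 hδ S z
    have b2 : 1 ≤ (sz Ω S / R) ^ γ :=
      Real.one_le_rpow ((one_le_div (by linarith)).2 (not_le.1 hSR).le) hγ
    have b3 : 3 ^ (m * S.card) * (1 * CT m * 1) ≤
        (4 ^ m) ^ S.card * (m * CT m * (sz Ω S * R ^ (-γ))) := by gcongr; linarith
    have b4 : 0 ≤ (4 ^ m) ^ S.card * (sz Ω S * b) := by positivity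
    nlinarith

theorem mt_cut (hinj : Function.Injective (sz Ω)) {k k₀ cp : ∀ i, (V → Ω i) → ℝ} {C γ : ℝ}
    (hC : 1 ≤ C) (hγ : 0 ≤ γ)
    (hk : ∀ i, Adm (k i) (k₀ i) (cp i) C
      ((cT (Fintype.card V) C * (Fintype.card (Ω i) : ℝ) ^ (-γ)) ^ Fintype.card V))
    {μ ν : V → (∀ i, Ω i) → ℝ} {δ Y R D : ℝ}
    (hμ : ∀ v x, |μ v x| ≤ ν v x) (hν : ∀ v, PR (ν v) univ δ Y) (hR : 1 ≤ R) (hD : R ≤ D)
    (hY : D ^ 4 ≤ Y) (hδ0 : 0 ≤ δ) (hδ : δ * D ≤ 1) (u : V) {r : V → ℝ} (hr : ∀ v, r v ≤ D)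
    (hu : r u = R) :
    |Form k fun v => part (low Ω univ (r v)) (μ v)| ≤
      |Form k fun v => part (low Ω univ (Function.update r u D v)) (μ v)| +
        CT (Fintype.card V) * R ^ (-γ) := by
  have hD1 : 1 ≤ D := hR.trans hD
  have hlow : ∀ s, s ≤ D → low Ω univ s ⊆ low Ω univ D := fun s hs T hT => by
    simpa [low] using (mt_low_sub hT).2.trans hs
  have h1 := tail hinj hC (ξ := fun i => (Fintype.card (Ω i) : ℝ) ^ (-γ))
    (fun i => ⟨by positivity, Real.rpow_le_one_of_one_le_of_nonpos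
      (by exact_mod_cast Fintype.card_pos) (by linarith)⟩) hk (I := fun _ => univ)
    (Q := Function.update (fun v => low Ω univ (r v)) u (low Ω univ D \ low Ω univ R)) hμ hν
    (fun v => by
      by_cases h : v = u
      · simp [h]
      · rw [Function.update_of_ne h]
        exact hlow _ (hr v)) hD1
    ((pow_le_pow_right₀ hD1 (by norm_num)).trans hY) hδ0 hδ u (g := R ^ (-γ)) (by positivity)
    (fun T hT => by
      rw [Function.update_self, Finset.mem_sdiff] at hT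
      rw [mt_prod_rpow]
      refine Real.rpow_le_rpow_of_nonpos (by linarith) ?_ (by linarith)
      have := hT.2
      simp only [low, Finset.mem_filter, Finset.powerset_univ, Finset.mem_univ, true_and,
        not_le] at this
      exact this.le)
  have h2 := mt_form_add k (H := fun v => part (low Ω univ (Function.update r u D v)) (μ v))
    (H1 := fun v => part (low Ω univ (r v)) (μ v))
    (H2 := fun v => part (Function.update (fun v => low Ω univ (r v)) u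
      (low Ω univ D \ low Ω univ R) v) (μ v)) u
    (fun v hv => by simp only [Function.update_of_ne hv])
    (fun v hv => by simp only [Function.update_of_ne hv])
    (fun y => by
      simp only [Function.update_self, hu, part]
      rw [add_comm, Finset.sum_sdiff (hlow R hD)])
  rw [← sub_eq_iff_eq_add] at h2
  rw [← h2]
  exact (abs_sub _ _).trans (by linarith)

theorem mt_term (hinj : Function.Injective (sz Ω)) (h3 : ∀ i, 3 ≤ Fintype.card (Ω i))
    {ω ψ k₀ cp : ∀ i, (V → Ω i) → ℝ} {C γ : ℝ} (hC : 1 ≤ C) (hγ : 0 ≤ γ) (hγ1 : γ ≤ 1)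
    (hω : ∀ i, Adm (ω i) (k₀ i) (cp i) C
      ((cT (Fintype.card V) C * (Fintype.card (Ω i) : ℝ) ^ (-γ)) ^ Fintype.card V))
    (hψ : ∀ i, Adm (ψ i) (k₀ i) (cp i) C
      ((cT (Fintype.card V) C * (Fintype.card (Ω i) : ℝ) ^ (-γ)) ^ Fintype.card V))
    (hω1 : ∀ i, 𝔼 x, ω i x = 1) (hψ0 : ∀ i, 0 < 𝔼 x, ψ i x) (hψ1 : ∀ i, 𝔼 x, ψ i x ≤ 1)
    {μ ν : V → (∀ i, Ω i) → ℝ} {δ Y R D ε : ℝ}
    (hμ : ∀ v x, |μ v x| ≤ ν v x) (hν : ∀ v, PR (ν v) univ δ Y) (hR : 1 ≤ R)
    (hD : R ^ Fintype.card V ≤ D) (hY : D ^ 4 ≤ Y) (hδ0 : 0 ≤ δ) (hδ : δ * D ≤ 1)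
    {u v : V} (huv : u ≠ v) {S : Finset ι} (hS : (sz Ω S : ℝ) ≤ R ^ Fintype.card V)
    (z : V → ∀ i, Ω i)
    (h2 : |𝔼 x, 𝔼 y, μ u x * dl S x (z u) * (μ v y * dl S y (z v)) *
        ker (fun i d => marg (ψ i) u v d / 𝔼 x, ψ i x) Sᶜ D (y - x)| ≤ ε) :
    |Form (S.piecewise ω ψ) fun w y => part (low Ω univ D)
      (if w = u ∨ w = v then μ w else fun _ => 1) (S.piecewise (z w) y)| ≤
      R ^ (Fintype.card V ^ 2 + Fintype.card V) *
        (Fintype.card V * CT (Fintype.card V) * D ^ (-γ)) + ε := by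
  set m := Fintype.card V with hm
  have hD1 : 1 ≤ D := (one_le_pow₀ hR).trans hD
  have hCT := mt_CT_nonneg m
  have hs1 : (1 : ℝ) ≤ sz Ω S := by exact_mod_cast mt_one_le_sz S
  have hk : ∀ i, Adm (S.piecewise ω ψ i) (k₀ i) (cp i) C
      ((cT m C * (Fintype.card (Ω i) : ℝ) ^ (-γ)) ^ m) := fun i => by
    by_cases h : i ∈ S
    · rw [Finset.piecewise_eq_of_mem _ _ _ h]
      exact hω i
    · rw [Finset.piecewise_eq_of_notMem _ _ _ h]
      exact hψ i
  have hk0 : ∀ i, 0 < 𝔼 x, S.piecewise ω ψ i x ∧ 𝔼 x, S.piecewise ω ψ i x ≤ 1 := fun i => by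
    by_cases h : i ∈ S
    · rw [Finset.piecewise_eq_of_mem _ _ _ h, hω1]
      norm_num
    · rw [Finset.piecewise_eq_of_notMem _ _ _ h]
      exact ⟨hψ0 i, hψ1 i⟩
  have b1 := fib_cmp hinj hC hγ hk (r := fun _ => D)
    (μ := fun w => if w = u ∨ w = v then μ w else fun _ => 1)
    (ν := fun w => if w = u ∨ w = v then ν w else fun _ => 1)
    (fun w x => by
      split_ifs
      · exact hμ w x
      · simp)
    (fun w => by
      split_ifs
      · exact hν w
      · exact PR.one _ hδ0 _)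
    (fun _ => ⟨le_rfl, le_rfl⟩) hD1 hY hδ0 hδ (hS.trans hD) z
  have b2 : m * 3 ^ (m * S.card) * CT m * (sz Ω S / D) ^ γ ≤
      R ^ (m ^ 2 + m) * (m * CT m * D ^ (-γ)) := by
    have c1 : (3 : ℝ) ^ (m * S.card) ≤ (R ^ m) ^ m := by
      rw [mul_comm, pow_mul]
      exact pow_le_pow_left₀ (by positivity) ((mt_pow_le_sz h3 S).trans hS) _
    have c2 := mt_rpow_div hs1 (by linarith : 0 < D) hγ1
    calc _ ≤ m * (R ^ m) ^ m * CT m * (sz Ω S * D ^ (-γ)) := by gcongr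
      _ ≤ m * (R ^ m) ^ m * CT m * (R ^ m * D ^ (-γ)) := by gcongr
      _ = _ := by ring
  have b3 : |Form (S.piecewise ω ψ) fun w =>
      fib S D (if w = u ∨ w = v then μ w else fun _ => 1) (z w)| ≤ ε := by
    rw [form_two (fun i => (hk i).transl) huv fun w h1 h2 => by
      simp only [h1, h2, or_self, if_false, mt_fib_one S hD1]]
    have c1 := mt_bil (fun i d => marg (S.piecewise ω ψ i) u v d / 𝔼 x, S.piecewise ω ψ i x)
      (fun i => by rw [← Finset.expect_div, mt_marg_mean, div_self (hk0 i).1.ne']) Sᶜ D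
      (fun x => μ u x * dl S x (z u)) fun y => μ v y * dl S y (z v)
    rw [mt_ker_congr (κ' := fun i d => marg (ψ i) u v d / 𝔼 x, ψ i x) (fun i hi => by
      rw [Finset.piecewise_eq_of_notMem _ _ _ (Finset.mem_compl.1 hi)])] at c1
    rw [← c1] at h2
    have c2 : 0 < ∏ i, 𝔼 x, S.piecewise ω ψ i x := Finset.prod_pos fun i _ => (hk0 i).1
    have c3 : ∏ i, 𝔼 x, S.piecewise ω ψ i x ≤ 1 :=
      Finset.prod_le_one (fun i _ => (hk0 i).1.le) fun i _ => (hk0 i).2
    simp only [Finset.prod_div_distrib, ← mul_div_assoc, ← Finset.expect_div] at h2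
    rw [abs_div, abs_of_pos c2, div_le_iff₀ c2] at h2
    simp only [true_or, or_true, if_true, fib]
    refine h2.trans (mul_le_of_le_one_right ?_ c3)
    exact nonneg_of_mul_nonneg_left ((abs_nonneg _).trans h2) c2
  have b4 := abs_sub_abs_le_abs_sub (Form (S.piecewise ω ψ) fun w y => part (low Ω univ D)
      (if w = u ∨ w = v then μ w else fun _ => 1) (S.piecewise (z w) y))
    (Form (S.piecewise ω ψ) fun w => fib S D (if w = u ∨ w = v then μ w else fun _ => 1) (z w))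
  linarith

theorem mt_main (hinj : Function.Injective (sz Ω)) (h3 : ∀ i, 3 ≤ Fintype.card (Ω i))
    {ω ψ k₀ cp : ∀ i, (V → Ω i) → ℝ} {C γ : ℝ} (hC : 1 ≤ C) (hγ : 0 ≤ γ) (hγ1 : γ ≤ 1)
    (hω : ∀ i, Adm (ω i) (k₀ i) (cp i) C
      ((cT (Fintype.card V) C * (Fintype.card (Ω i) : ℝ) ^ (-γ)) ^ Fintype.card V))
    (hψ : ∀ i, Adm (ψ i) (k₀ i) (cp i) C
      ((cT (Fintype.card V) C * (Fintype.card (Ω i) : ℝ) ^ (-γ)) ^ Fintype.card V))
    (hω1 : ∀ i, 𝔼 x, ω i x = 1) (hψn : ∀ i x, 0 ≤ ψ i x) (hψ0 : ∀ i, 0 < 𝔼 x, ψ i x)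
    (hψ1 : ∀ i, 𝔼 x, ψ i x ≤ 1) {μ ν : V → (∀ i, Ω i) → ℝ} {δ Y R D ε : ℝ}
    (hμ : ∀ v x, |μ v x| ≤ ν v x) (hν : ∀ v, PR (ν v) univ δ Y) (hR : 1 ≤ R)
    (hD : R ^ Fintype.card V ≤ D) (hY : D ^ 4 ≤ Y) (hδ0 : 0 ≤ δ) (hδ : δ * D ≤ 1) (hε : 0 ≤ ε)
    {u v : V} (huv : u ≠ v) {r : V → ℝ} (hr : ∀ w, r w = if w = u ∨ w = v then D else R)
    (h2 : ∀ S : Finset ι, (sz Ω S : ℝ) ≤ R ^ Fintype.card V → ∀ z : V → ∀ i, Ω i,
      (∀ i ∈ S, ψ i (fun w => z w i) ≠ 0) →
      |𝔼 x, 𝔼 y, μ u x * dl S x (z u) * (μ v y * dl S y (z v)) *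
        ker (fun i d => marg (ψ i) u v d / 𝔼 x, ψ i x) Sᶜ D (y - x)| ≤ ε) :
    |Form ψ fun w => part (low Ω univ (r w)) (μ w)| ≤
      (2 * R) ^ (Fintype.card V ^ 2 + 3 * Fintype.card V) *
        (Fintype.card V * CT (Fintype.card V) * D ^ (-γ) + ε) := by
  set m := Fintype.card V with hm
  have hRD : R ≤ D := (le_self_pow₀ hR Fintype.card_ne_zero).trans hD
  have hD1 : 1 ≤ D := hR.trans hRD
  have hCT := mt_CT_nonneg m
  have a1 := form_sum ψ (fun w => if w = u ∨ w = v then {∅} else low Ω univ R) (fun _ _ => 1)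
    fun w T => if w = u ∨ w = v then part (low Ω univ D) (μ w) else ES T (μ w)
  have a2 : (fun w => part (low Ω univ (r w)) (μ w)) = fun w y =>
      ∑ T ∈ (if w = u ∨ w = v then {∅} else low Ω univ R),
        1 * (if w = u ∨ w = v then part (low Ω univ D) (μ w) else ES T (μ w)) y := by
    funext w y
    rw [hr]
    split_ifs <;> simp [part]
  have a3 : ∀ j ∈ Fintype.piFinset fun w => if w = u ∨ w = v then {∅} else low Ω univ R,
      |(∏ _w : V, (1 : ℝ)) * Form ψ fun w =>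
        if w = u ∨ w = v then part (low Ω univ D) (μ w) else ES (j w) (μ w)| ≤
        (2 * R) ^ m * (R ^ (m ^ 2 + m) * (m * CT m * D ^ (-γ)) + ε) := by
    intro j hj
    have b1 : ∀ w, (sz Ω (j w) : ℝ) ≤ R := by
      intro w
      have := Fintype.mem_piFinset.1 hj w
      split_ifs at this
      · rw [Finset.mem_singleton.1 this]
        simpa [sz] using hR
      · exact (mt_low_sub this).2
    set S := univ.biUnion j with hS
    have b2 : (sz Ω S : ℝ) ≤ R ^ m := by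
      refine le_trans (Nat.cast_le.2 (mt_sz_biUnion univ j)) ?_
      rw [Nat.cast_prod, hm, ← Finset.card_univ, ← Finset.prod_const]
      exact Finset.prod_le_prod (fun _ _ => Nat.cast_nonneg _) fun w _ => b1 w
    have b3 := form_fibre ψ (S.piecewise ω ψ) S
      (fun i hi => by rw [Finset.piecewise_eq_of_mem _ _ _ hi, hω1])
      fun w => if w = u ∨ w = v then part (low Ω univ D) (μ w) else ES (j w) (μ w)
    rw [Finset.piecewise_idem_right, Finset.piecewise_same] at b3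
    rw [Finset.prod_const_one, one_mul, b3]
    refine (mt_weight S hψn fun z hz => ?_).trans (mul_le_of_le_one_left (by positivity)
      (Finset.prod_le_one (fun i _ => (hψ0 i).le) fun i _ => hψ1 i))
    have b4 := mt_form_smul (S.piecewise ω ψ)
      (fun w => if w = u ∨ w = v then 1 else ES (j w) (μ w) (z w))
      fun w y => part (low Ω univ D) (if w = u ∨ w = v then μ w else fun _ => 1)
        (S.piecewise (z w) y)
    have b5 : (fun w y => (if w = u ∨ w = v then part (low Ω univ D) (μ w) else ES (j w) (μ w))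
        (S.piecewise (z w) y)) = fun w y =>
        (if w = u ∨ w = v then 1 else ES (j w) (μ w) (z w)) * part (low Ω univ D)
          (if w = u ∨ w = v then μ w else fun _ => 1) (S.piecewise (z w) y) := by
      funext w y
      split_ifs
      · rw [one_mul]
      · rw [mt_part_one hD1, mul_one]
        exact ES_dep _ _ _ _ fun i hi => Finset.piecewise_eq_of_mem _ _ _
          (Finset.mem_biUnion.2 ⟨w, Finset.mem_univ _, hi⟩)
    rw [b5, b4, abs_mul]
    refine mul_le_mul ?_ (mt_term hinj h3 hC hγ hγ1 hω hψ hω1 hψ0 hψ1 hμ hν hR hD hY hδ0 hδ huv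
      b2 z (h2 S b2 z hz)) (abs_nonneg _) (by positivity)
    rw [Finset.abs_prod, hm, ← Finset.card_univ, ← Finset.prod_const]
    refine Finset.prod_le_prod (fun _ _ => abs_nonneg _) fun w _ => ?_
    split_ifs
    · rw [abs_one]
      linarith
    · refine (abs_ES_le (hμ w) (hν w) (by nlinarith) (Finset.subset_univ _)
        ((b1 w).trans (hRD.trans ((le_self_pow₀ hD1 (by norm_num)).trans hY))) _).trans ?_
      have := (pow_le_pow_left₀ (by norm_num : (0 : ℝ) ≤ 2) (by norm_num : (2 : ℝ) ≤ 3)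
        (j w).card).trans ((mt_pow_le_sz h3 (j w)).trans (b1 w))
      linarith
  have a4 : ((Fintype.piFinset fun w => if w = u ∨ w = v then {∅} else low Ω univ R).card : ℝ) ≤
      R ^ m := by
    rw [Fintype.card_piFinset, Nat.cast_prod, hm, ← Finset.card_univ, ← Finset.prod_const]
    refine Finset.prod_le_prod (fun _ _ => Nat.cast_nonneg _) fun w _ => ?_
    split_ifs
    · simpa using hR
    · exact card_low hinj _ (by linarith)
  rw [a2, a1]
  refine (Finset.abs_sum_le_sum_abs _ _).trans ((Finset.sum_le_card_nsmul _ _ _ a3).trans ?_)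
  rw [nsmul_eq_mul]
  have a5 : R ≤ 2 * R := by linarith
  have a6 : 1 ≤ (2 * R) ^ (m ^ 2 + m) := one_le_pow₀ (by linarith)
  calc _ ≤ (2 * R) ^ m * ((2 * R) ^ m * ((2 * R) ^ (m ^ 2 + m) * (m * CT m * D ^ (-γ)) +
        (2 * R) ^ (m ^ 2 + m) * ε)) := by
        gcongr
        · exact a4.trans (pow_le_pow_left₀ (by linarith) a5 _)
        · exact le_mul_of_one_le_left hε a6
    _ = _ := by ring

end

theorem model (hinj : Function.Injective (sz Ω)) (h3 : ∀ i, 3 ≤ Fintype.card (Ω i))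
    {α : ∀ i, Ω i → ℝ} {ω ψ : ∀ i, ((N → Fin 6) → Ω i) → ℝ} {C γ : ℝ} {φ : ι → ℝ} {m : ℕ}
    (hm : m = Fintype.card (N → Fin 6)) (hC : 1 ≤ C) (hγ : 0 ≤ γ) (hγ1 : γ ≤ 1)
    (hok : ∀ i, LocOK (α i) (ω i) (ψ i) C ((cT m C * (Fintype.card (Ω i) : ℝ) ^ (-γ)) ^ m) (φ i))
    (hφ : ∑ i, φ i * 4 ^ m * Fintype.card (Ω i) ≤ 1 / 8)
    {μ ν : (N → Fin 6) → (∀ i, Ω i) → ℝ} {δ Y R D b ε : ℝ}
    (hμ : ∀ v x, |μ v x| ≤ ν v x) (hν : ∀ v, PR (ν v) univ δ Y) (hR : 1 ≤ R) (hD : R ^ m ≤ D)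
    (hY : D ^ 4 ≤ Y) (hδ0 : 0 ≤ δ) (hδ : δ * D ≤ 1) (hb : 0 ≤ b) (hε : 0 ≤ ε)
    (h1 : ∀ S : Finset ι, S.Nonempty → (sz Ω S : ℝ) ≤ R → ∀ z : (N → Fin 6) → ∀ i, Ω i,
      |Form ω fun v => fib S R (μ v) (z v)| ≤ 2 ^ m * sz Ω S * b)
    (h2 : ∀ S : Finset ι, (sz Ω S : ℝ) ≤ R ^ m → ∀ z z' : ∀ i, Ω i,
      (∀ i ∈ S, α i (z' i - z i) ≠ 0) →
      |𝔼 x, 𝔼 y, μ u₀ x * dl S x z * (μ v₀ y * dl S y z') *
        ker (fun i d => marg (ψ i) u₀ v₀ d / 𝔼 x, ψ i x) Sᶜ D (y - x)| ≤ ε) :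
    (Form ω fun v => part (low Ω univ R) (μ v)) ≤ b / 4 + 3 * m * CT m * R ^ (-γ) +
      (2 * R) ^ (m ^ 2 + 3 * m) * (m * CT m * D ^ (-γ) + ε) := by
  subst hm
  set m := Fintype.card (N → Fin 6) with hm
  have hm1 : 1 ≤ m := Fintype.card_pos
  have hm1' : (1 : ℝ) ≤ m := by exact_mod_cast hm1
  choose k₀ cp hω hψ using fun i => (hok i).adm
  have hRD : R ≤ D := (le_self_pow₀ hR (by omega)).trans hD
  have hD1 : 1 ≤ D := hR.trans hRD
  have hCT := mt_CT_nonneg m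
  have hRγ : 0 ≤ R ^ (-γ) := by positivity
  have hψ1 : ∀ i, 𝔼 x, ψ i x ≤ 1 := fun i =>
    (Finset.expect_le_expect fun x _ => (hok i).ψ_le x).trans_eq (hok i).mean
  have hφ0 : ∀ i, 0 ≤ φ i := fun i => by linarith [hψ1 i, (hok i).fail]
  have hx0 : ∀ i, 0 ≤ φ i * 4 ^ m * Fintype.card (Ω i) := fun i => by
    have := hφ0 i
    positivity
  have hψ0 : ∀ i, 0 < 𝔼 x, ψ i x := by
    intro i
    have h4 := (Finset.single_le_sum (fun i _ => hx0 i) (Finset.mem_univ i)).trans hφ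
    have h5 : (1 : ℝ) ≤ 4 ^ m * Fintype.card (Ω i) :=
      one_le_mul_of_one_le_of_one_le (one_le_pow₀ (by norm_num))
        (by exact_mod_cast Fintype.card_pos)
    have h6 := mul_le_mul_of_nonneg_left h5 (hφ0 i)
    have h7 := (hok i).fail
    nlinarith
  have e1 := mt_form_expand ω ψ fun v => part (low Ω univ R) (μ v)
  have e2 : ∀ S ∈ (univ : Finset (Finset ι)).erase ∅,
      |Form (S.piecewise (ω - ψ) ω) fun v => part (low Ω univ R) (μ v)| ≤
        (∏ i ∈ S, φ i * 4 ^ m * Fintype.card (Ω i)) * (b + m * CT m * R ^ (-γ)) := by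
    intro S hS
    have hS' := Finset.nonempty_iff_ne_empty.2 (Finset.ne_of_mem_erase hS)
    rw [form_fibre _ _ _ fun i _ => (hok i).mean]
    refine (mt_weight S (f := ω - ψ) (fun i x => sub_nonneg.2 ((hok i).ψ_le x))
      fun z _ => mt_err hinj hC hγ hγ1 hω hμ hν hR hRD hY hδ0 hδ hb hS' (h1 S hS') z).trans ?_
    rw [Finset.prod_mul_distrib, Finset.prod_mul_distrib, Finset.prod_const, ← Nat.cast_prod,
      ← mul_assoc, ← mul_assoc]
    refine mul_le_mul_of_nonneg_right (mul_le_mul_of_nonneg_right (mul_le_mul_of_nonneg_right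
      (Finset.prod_le_prod (fun i _ => Finset.expect_nonneg fun x _ =>
        sub_nonneg.2 ((hok i).ψ_le x)) fun i _ => ?_) (by positivity)) (by positivity))
      (by positivity)
    simp only [Pi.sub_apply, Finset.expect_sub_distrib, (hok i).mean]
    linarith [(hok i).fail]
  have e3 := (Finset.sum_le_sum e2).trans_eq (Finset.sum_mul _ _ _).symm
  have e4 := mul_le_mul_of_nonneg_right (mt_sum_prod_le hx0 hφ)
    (show 0 ≤ b + m * CT m * R ^ (-γ) by positivity)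
  have huv : (u₀ : N → Fin 6) ≠ v₀ := fun e => by
    obtain ⟨n⟩ : Nonempty N := inferInstance
    exact absurd (congrFun e n) (by simp [u₀, v₀])
  have e5 := mt_cut hinj hC hγ hψ hμ hν hR hRD hY hδ0 hδ u₀ (r := fun _ => R)
    (fun _ => hRD) rfl
  have e6 := mt_cut hinj hC hγ hψ hμ hν hR hRD hY hδ0 hδ v₀
    (r := Function.update (fun _ => R) u₀ D)
    (fun v => by by_cases h : v = u₀ <;> simp [h, hRD]) (Function.update_of_ne huv.symm _ _)
  have e7 := mt_main hinj h3 hC hγ hγ1 hω hψ (fun i => (hok i).mean) (fun i => (hok i).ψ_nonneg)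
    hψ0 hψ1 hμ hν hR hD hY hδ0 hδ hε huv
    (r := Function.update (Function.update (fun _ => R) u₀ D) v₀ D)
    (fun v => by by_cases h : v = u₀ <;> by_cases h' : v = v₀ <;> simp [h, h', huv, huv.symm])
    (fun S hS z hz => h2 S hS _ _ fun i hi => (hok i).supp _ (hz i hi))
  have e8 : CT m * R ^ (-γ) ≤ m * CT m * R ^ (-γ) := by
    rw [mul_assoc]
    exact le_mul_of_one_le_left (by positivity) hm1'
  have e9 : 0 ≤ m * CT m * R ^ (-γ) := by positivity
  linarith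

end Vale.Agent.P042U
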