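import Vale.Agent.P042U.Rec
import Vale.Agent.P042U.Fam

/-! The power saving bound. -/

namespace Vale.Agent.P042U

open Finset Polynomial

theorem main (h : ℤ[X]) (hdeg : 2 ≤ h.natDegree) (hlc : 0 < h.leadingCoeff)
    (hint : ∀ q : ℕ, 1 ≤ q → ∃ t : ℤ, (q : ℤ) ∣ h.eval t) :
    ∃ c : ℝ, 0 < c ∧ ∃ C : ℝ, ∀ (N : ℕ) (A : Finset ℕ), A ⊆ Finset.Icc 1 N →
      (∀ a ∈ A, ∀ b ∈ A, ∀ n : ℕ, 1 ≤ n → (a : ℤ) - b = h.eval (n : ℤ) → h.eval (n : ℤ) = 0) →
      (A.card : ℝ) ≤ C * (N : ℝ) ^ (1 - c) := by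
  obtain ⟨g, lam, r, e, w₀, hF⟩ := exists_fam h (by omega) hint
  haveI : Nonempty (Fin (2 ^ (h.natDegree + 3))) := ⟨⟨0, Nat.pow_pos two_pos⟩⟩
  obtain ⟨w, η, φ, C, γ, h1, h2, h3, h4, h5⟩ := exists_setup (by omega) hF
    (Fin (2 ^ (h.natDegree + 3))) (Fintype.card_fin _)
  obtain ⟨c, B, K, Z₀, hc, hK, hm⟩ := rec_main hdeg hlc hF h1 h2 h3 h4 h5
  have hm1 : 1 ≤ Fintype.card (Fin (2 ^ (h.natDegree + 3)) → Fin 6) := Fintype.card_pos
  generalize Fintype.card (Fin (2 ^ (h.natDegree + 3)) → Fin 6) = m at hm hm1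
  have hK0 : (0 : ℝ) < K := by exact_mod_cast hK
  have hm0 : (0 : ℝ) < m := by exact_mod_cast hm1
  set c' : ℝ := min c 1 / (K * m) with hc'
  have hc0 : 0 < min c 1 := lt_min hc one_pos
  have hc'0 : 0 < c' := by positivity
  have hKm : (1 : ℝ) ≤ K * m := by exact_mod_cast Nat.mul_pos hK hm1
  have hc'1 : c' ≤ 1 := (div_le_self hc0.le hKm).trans (min_le_right _ _)
  refine ⟨c', hc'0, 2 * (|B| + 1) + ((Z₀ + 1) ^ K : ℕ), fun N A hA hfree => ?_⟩
  have hAN : A.card ≤ N := by simpa using card_le_card hA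
  rcases Nat.eq_zero_or_pos N with rfl | hN
  · have : A.card = 0 := by omega
    rw [this, Nat.cast_zero]; positivity
  have hN0 : (0 : ℝ) < N := by exact_mod_cast hN
  have hN1 : (1 : ℝ) ≤ N := by exact_mod_cast hN
  have hP : (1 : ℝ) ≤ (N : ℝ) ^ (1 - c') := Real.one_le_rpow hN1 (by linarith)
  rcases lt_or_ge N ((Z₀ + 1) ^ K) with hs | hs
  · have h6 : (A.card : ℝ) ≤ ((Z₀ + 1) ^ K : ℕ) := by exact_mod_cast hAN.trans hs.le
    have h7 : (0 : ℝ) ≤ 2 * (|B| + 1) := by positivity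
    have h8 : (0 : ℝ) ≤ ((Z₀ + 1) ^ K : ℕ) := Nat.cast_nonneg _
    nlinarith
  obtain ⟨Z, hZ1, hZ2⟩ : ∃ Z : ℕ, Z ^ K ≤ N ∧ N < (Z + 1) ^ K := by
    have hex : ∃ Z : ℕ, N < (Z + 1) ^ K := ⟨N, lt_of_lt_of_le (Nat.lt_succ_self N)
      (by simpa using Nat.pow_le_pow_right (Nat.succ_pos N) hK)⟩
    refine ⟨Nat.find hex, ?_, Nat.find_spec hex⟩
    rcases Nat.eq_zero_or_pos (Nat.find hex) with h0 | h0
    · rw [h0, zero_pow (by omega)]; omega
    · have := Nat.find_min hex (Nat.sub_lt h0 one_pos)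
      rw [show Nat.find hex - 1 + 1 = Nat.find hex by omega] at this
      omega
  have hZ : Z₀ + 1 ≤ Z := by
    have := lt_of_pow_lt_pow_left₀ K (Nat.zero_le _) (hs.trans_lt hZ2)
    omega
  have hZ0 : (1 : ℝ) ≤ Z := by exact_mod_cast (by omega : 1 ≤ Z)
  have h6 := hm Z N (by omega) hZ1 {s | s + 1 ∈ A} fun x hx y hy t ht he =>
    hfree _ hy _ hx t ht (by push_cast; linarith)
  have h7 : ∑ s ∈ range N, ind {s | s + 1 ∈ A} s = A.card := by
    simp only [ind, Set.mem_setOf_eq, sum_boole]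
    congr 1
    refine card_bij (fun s _ => s + 1) (fun s hs => by simpa using (mem_filter.1 hs).2)
      (fun s _ t _ e => by omega) fun a ha => ?_
    have := mem_Icc.1 (hA ha)
    exact ⟨a - 1, mem_filter.2 ⟨mem_range.2 (by omega), by
      simpa [Nat.sub_add_cancel this.1] using ha⟩, by omega⟩
  rw [h7] at h6
  have h8 : (Z : ℝ) ^ (-c) ≤ 2 * ((N : ℝ) ^ (-c')) ^ m := by
    have h9 : (N : ℝ) ≤ (2 * Z) ^ K := by
      have : N ≤ (2 * Z) ^ K := hZ2.le.trans (Nat.pow_le_pow_left (by omega) _)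
      exact_mod_cast this
    have h10 : ((2 * (Z : ℝ)) ^ K) ^ (-(min c 1 / K)) ≤ (N : ℝ) ^ (-(min c 1 / K)) :=
      Real.rpow_le_rpow_of_nonpos hN0 h9 (by have : 0 < min c 1 / K := by positivity
                                             linarith)
    rw [← Real.rpow_natCast, ← Real.rpow_mul (by positivity),
      show (K : ℝ) * -(min c 1 / K) = -min c 1 by field_simp,
      Real.mul_rpow (by norm_num) (by positivity)] at h10
    rw [← Real.rpow_natCast, ← Real.rpow_mul hN0.le,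
      show -c' * m = -(min c 1 / K) by rw [hc']; field_simp]
    have h11 : (Z : ℝ) ^ (-c) ≤ (Z : ℝ) ^ (-min c 1) :=
      Real.rpow_le_rpow_of_exponent_le hZ0 (by linarith [min_le_left c 1])
    have h12 : (1 / 2 : ℝ) ≤ (2 : ℝ) ^ (-min c 1) := by
      rw [one_div, ← Real.rpow_neg_one]
      exact Real.rpow_le_rpow_of_exponent_le (by norm_num) (by linarith [min_le_right c 1])
    have h13 : (0 : ℝ) ≤ (Z : ℝ) ^ (-min c 1) := by positivity
    nlinarith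
  have h9 : ((A.card : ℝ) / N) ^ m ≤ (2 * (|B| + 1) * (N : ℝ) ^ (-c')) ^ m := by
    have h10 : (1 : ℝ) ≤ 2 * (|B| + 1) := by linarith [abs_nonneg B]
    have h11 : 2 * (|B| + 1) ≤ (2 * (|B| + 1)) ^ m := le_self_pow₀ h10 (by omega)
    have h12 : (0 : ℝ) ≤ ((N : ℝ) ^ (-c')) ^ m := by positivity
    have h13 : (0 : ℝ) ≤ (Z : ℝ) ^ (-c) := by positivity
    rw [mul_pow]
    calc _ ≤ B * (Z : ℝ) ^ (-c) := h6
      _ ≤ (|B| + 1) * (2 * ((N : ℝ) ^ (-c')) ^ m) := by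
          gcongr; linarith [le_abs_self B]
      _ = 2 * (|B| + 1) * ((N : ℝ) ^ (-c')) ^ m := by ring
      _ ≤ _ := by gcongr
  have h10 := le_of_pow_le_pow_left₀ (by omega) (by positivity) h9
  rw [div_le_iff₀ hN0] at h10
  have e1 : (N : ℝ) ^ (1 - c') = (N : ℝ) ^ (-c') * N := by
    rw [sub_eq_neg_add, Real.rpow_add hN0, Real.rpow_one]
  have h11 : (0 : ℝ) ≤ ((Z₀ + 1) ^ K : ℕ) * (N : ℝ) ^ (1 - c') := by positivity
  rw [add_mul, e1]
  rw [e1] at h11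
  linarith

end Vale.Agent.P042U
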