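import Mathlib

/-! The product model: definitions. -/

namespace Vale.Agent.P042U

open Finset
open scoped BigOperators

section Product

variable {ι : Type} [Fintype ι] [DecidableEq ι] {Ω : ι → Type} [∀ i, Fintype (Ω i)]
  [∀ i, DecidableEq (Ω i)] [∀ i, AddCommGroup (Ω i)] {V : Type} [Fintype V] [DecidableEq V]

/-- the size of a set of coordinates -/
def sz (Ω : ι → Type) [∀ i, Fintype (Ω i)] (T : Finset ι) : ℕ := ∏ i ∈ T, Fintype.card (Ω i)

/-- normalized indicator that `x`, `y` agree on `T` -/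
def dl (T : Finset ι) (x y : ∀ i, Ω i) : ℝ :=
  ∏ i ∈ T, if x i = y i then (Fintype.card (Ω i) : ℝ) else 0

/-- the kernel of the Efron-Stein projection -/
def cc (T : Finset ι) (x y : ∀ i, Ω i) : ℝ :=
  ∏ i ∈ T, ((if x i = y i then (Fintype.card (Ω i) : ℝ) else 0) - 1)

/-- the Efron-Stein component of `μ` at `T` -/
noncomputable def ES (T : Finset ι) (μ : (∀ i, Ω i) → ℝ) (y : ∀ i, Ω i) : ℝ :=
  𝔼 x, μ x * cc T x y

/-- the sum of the components in `Q` -/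
noncomputable def part (Q : Finset (Finset ι)) (μ : (∀ i, Ω i) → ℝ) (y : ∀ i, Ω i) : ℝ :=
  ∑ T ∈ Q, ES T μ y

/-- the subsets of `I` of size at most `R` -/
noncomputable def low (Ω : ι → Type) [∀ i, Fintype (Ω i)] (I : Finset ι) (R : ℝ) :
    Finset (Finset ι) :=
  I.powerset.filter fun T => (sz Ω T : ℝ) ≤ R

/-- the multilinear form of a product kernel -/
noncomputable def Form (k : ∀ i, (V → Ω i) → ℝ) (H : V → (∀ i, Ω i) → ℝ) : ℝ :=
  𝔼 x : V → ∀ i, Ω i, (∏ i, k i fun v => x v i) * ∏ v, H v (x v)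

/-- `Ψ` depends only on the coordinates in `T` -/
def DepOn (T : Finset ι) (Ψ : (∀ i, Ω i) → ℝ) : Prop :=
  ∀ x y, (∀ i ∈ T, x i = y i) → Ψ x = Ψ y

/-- `ν` is a pseudorandom density for the coordinates in `I` -/
structure PR (ν : (∀ i, Ω i) → ℝ) (I : Finset ι) (δ Y : ℝ) : Prop where
  nonneg : ∀ x, 0 ≤ ν x
  equi : ∀ T ⊆ I, (sz Ω T : ℝ) ≤ Y → ∀ Ψ, DepOn T Ψ →
    |𝔼 x, ν x * Ψ x - 𝔼 x, Ψ x| ≤ δ * 𝔼 x, |Ψ x|

/-- the truncated fibre of `μ` over the point `z` of the coordinates `S` -/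
noncomputable def fib (S : Finset ι) (R : ℝ) (μ : (∀ i, Ω i) → ℝ) (z : ∀ i, Ω i) :
    (∀ i, Ω i) → ℝ :=
  part (low Ω Sᶜ R) fun x => μ x * dl S x z

/-- the truncated product kernel -/
noncomputable def ker (k : ∀ i, Ω i → ℝ) (I : Finset ι) (D : ℝ) (d : ∀ i, Ω i) : ℝ :=
  ∑ T ∈ low Ω I D, ∏ i ∈ T, (k i (d i) - 1)

end Product

section Local

variable {A : Type} [Fintype A] [DecidableEq A] [AddCommGroup A] {V : Type} [Fintype V]
  [DecidableEq V]

/-- an admissible local kernel: a bounded part `k₀` with cancellation at every vertex, plus a small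
multiple of a coupling -/
structure Adm (k k₀ cp : (V → A) → ℝ) (C κ : ℝ) : Prop where
  transl : ∀ x c, k (fun v => x v + c) = k x
  mean : |𝔼 x, k x| ≤ 1
  bdd : ∀ x, |k₀ x| ≤ C
  flat : ∀ (u : V) (F : A → ℝ) (G : (V → A) → ℝ), 𝔼 a, F a = 0 →
    (∀ x a, G (Function.update x u a) = G x) →
    |𝔼 x, F (x u) * G x * k₀ x| ≤ κ / 2 * (𝔼 a, F a ^ 2 + 𝔼 x, G x ^ 2)
  cp_nonneg : ∀ x, 0 ≤ cp x
  cp_marg : ∀ (v : V) (H : A → ℝ), 𝔼 x, cp x * H (x v) = 𝔼 a, H a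
  rest : ∀ x, |k x - k₀ x| ≤ κ * cp x

/-- the two-point marginal of a translation invariant kernel -/
noncomputable def marg (k : (V → A) → ℝ) (u v : V) (d : A) : ℝ :=
  𝔼 x, k x * if x v - x u = d then (Fintype.card A : ℝ) else 0

/-- the convolution kernel `α - 1` has norm at most `ε` -/
def Small (α : A → ℝ) (ε : ℝ) : Prop :=
  ∀ F G : A → ℝ, |𝔼 x, 𝔼 y, F x * G y * (α (y - x) - 1)| ≤ ε / 2 * (𝔼 x, F x ^ 2 + 𝔼 y, G y ^ 2)

end Local

section Hexagon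

/-- rotation of the hexagon -/
def rot : Fin 6 → Fin 6 := ![2, 3, 4, 5, 0, 1]
/-- the reflection `j ↦ 1 - j` -/
def rfx : Fin 6 → Fin 6 := ![1, 0, 5, 4, 3, 2]
/-- folding onto `{1, 2, 3}` -/
def fdp : Fin 6 → Fin 6 := ![1, 1, 2, 3, 3, 2]
/-- the mirror image of `fdp`, with values in `{0, 5, 4}` -/
def fdm : Fin 6 → Fin 6 := ![0, 0, 5, 4, 4, 5]

variable {N : Type} [Fintype N] [DecidableEq N]

/-- apply `σ` in the coordinate `n` -/
def act (σ : Fin 6 → Fin 6) (n : N) (v : N → Fin 6) : N → Fin 6 := Function.update v n (σ (v n))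

variable {A : Type} [Fintype A] [DecidableEq A]

/-- a reflection positive kernel on the product of hexagons -/
structure RPK (k : ((N → Fin 6) → A) → ℝ) : Prop where
  rot_inv : ∀ n x, k (fun v => x (act rot n v)) = k x
  rfx_inv : ∀ n x, k (fun v => x (act rfx n v)) = k x
  pos : ∀ n (F : ((N → Fin 6) → A) → ℝ),
    0 ≤ 𝔼 x, k x * F (fun v => x (act fdp n v)) * F (fun v => x (act fdm n v))

/-- the two distinguished vertices -/
def u₀ : N → Fin 6 := fun _ => 0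
def v₀ : N → Fin 6 := fun _ => 2

variable [AddCommGroup A]

/-- the properties of the local kernels `ω` (full) and `ψ` (the part where the distinguished pair
is an arc) for the arc density `α` -/
structure LocOK (α : A → ℝ) (ω ψ : ((N → Fin 6) → A) → ℝ) (C κ φ : ℝ) : Prop where
  rp : RPK ω
  mean : 𝔼 x, ω x = 1
  adm : ∃ k₀ cp, Adm ω k₀ cp C κ ∧ Adm ψ k₀ cp C κ
  ψ_nonneg : ∀ x, 0 ≤ ψ x
  ψ_le : ∀ x, ψ x ≤ ω x
  fail : 1 - φ ≤ 𝔼 x, ψ x
  supp : ∀ x, ψ x ≠ 0 → α (x v₀ - x u₀) ≠ 0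
  marg_le : ∀ d, marg ψ u₀ v₀ d ≤ C * α d

end Hexagon

end Vale.Agent.P042U
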