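import Vale.Agent.P042U.Model

/-! The thirteen patterns on the hexagon and the local kernels. -/

namespace Vale.Agent.P042U

open Finset
open scoped BigOperators

/-- block labels: trivial; three foldings; two matchings; six edge cuts; all equal -/
def blk : Fin 13 → Fin 6 → Fin 6 :=
  ![![0, 1, 2, 3, 4, 5],
    ![1, 1, 2, 3, 3, 2], ![5, 4, 3, 3, 4, 5], ![0, 1, 1, 0, 5, 5],
    ![5, 1, 1, 3, 3, 5], ![0, 0, 2, 2, 4, 4],
    ![0, 0, 2, 2, 2, 2], ![3, 1, 1, 3, 3, 3], ![4, 4, 2, 2, 4, 4], ![5, 5, 5, 3, 3, 5],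
    ![0, 0, 0, 0, 4, 4], ![5, 1, 1, 1, 1, 5],
    ![0, 0, 0, 0, 0, 0]]

/-- the orientation of the hexagon: `0 → 2 → 4 → 0` and `1 → 5 → 3 → 1` -/
def tau0 : Fin 6 → Fin 6 → ℤ :=
  ![![0, 0, 1, 0, -1, 0], ![0, 0, 0, -1, 0, 1], ![-1, 0, 0, 0, 1, 0],
    ![0, 1, 0, 0, 0, -1], ![1, 0, -1, 0, 0, 0], ![0, -1, 0, 1, 0, 0]]

/-- the orientation of the labels of a pattern -/
def tau (t : Fin 13) (a b : Fin 6) : ℤ := if t.val ≤ 3 then tau0 a b else 0

/-- the labels that occur -/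
def used (t : Fin 13) (a : Fin 6) : Prop := blk t a = a

instance (t : Fin 13) (a : Fin 6) : Decidable (used t a) := inferInstanceAs (Decidable (_ = _))

section Hex

variable {Y : Type} [Fintype Y]

/-- the form of one pattern on six layers -/
noncomputable def hexForm (B : ℤ → Y → Y → ℝ) (t : Fin 13) (Φ : (Fin 6 → Y) → ℝ) : ℝ :=
  𝔼 l : Fin 6 → Y, Φ (fun j => l (blk t j)) *
    ∏ a with used t a, ∏ b with used t b, B (tau t a b) (l a) (l b)

end Hex

variable {N : Type} [Fintype N] [DecidableEq N] {A : Type} [Fintype A] [DecidableEq A]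
  [AddCommGroup A]

/-- the product of the arc densities over the oriented pairs of labels -/
noncomputable def wt (α : A → ℝ) (π : N → Fin 13) (y : (N → Fin 6) → A) : ℝ :=
  ∏ a with ∀ n, used (π n) (a n), ∏ b with ∀ n, used (π n) (b n),
    if 0 < ∑ n, tau (π n) (a n) (b n) then α (y b - y a) else 1

/-- the density of a pattern -/
noncomputable def dens (α : A → ℝ) (π : N → Fin 13) (x : (N → Fin 6) → A) : ℝ :=
  ∑ y : (N → Fin 6) → A, if (fun v => y fun n => blk (π n) (v n)) = x then wt α π y else 0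

/-- the weight of a pattern -/
def pw (η : ℝ) (π : N → Fin 13) : ℝ := ∏ n, if π n = 0 then 1 else η

/-- the unnormalized kernel -/
noncomputable def raw (α : A → ℝ) (η : ℝ) (x : (N → Fin 6) → A) : ℝ :=
  ∑ π : N → Fin 13, pw η π * dens α π x

/-- the normalized kernel -/
noncomputable def om (α : A → ℝ) (η : ℝ) (x : (N → Fin 6) → A) : ℝ :=
  raw α η x / 𝔼 y : (N → Fin 6) → A, raw α η y

/-- the part of the kernel coming from patterns with a trivial coordinate -/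
noncomputable def ps (α : A → ℝ) (η : ℝ) (x : (N → Fin 6) → A) : ℝ :=
  (∑ π : N → Fin 13 with ∃ n, π n = 0, pw η π * dens α π x) / 𝔼 y : (N → Fin 6) → A, raw α η y

theorem blk_used : ∀ t j, used t (blk t j) := by decide
theorem tau_anti : ∀ t a b, tau t b a = -tau t a b := by decide
theorem tau_e0 : ∀ t, 0 ≤ tau t (blk t 0) (blk t 2) := by decide
theorem tau_e0' : tau 0 (blk 0 0) (blk 0 2) = 1 := by decide
theorem blk_zero : ∀ j, blk 0 j = j := by decide

/-- the symmetries permute the patterns -/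
theorem pat_rot : ∃ s : Equiv.Perm (Fin 13), s 0 = 0 ∧ ∀ t, ∃ κ : Equiv.Perm (Fin 6),
    (∀ j, blk (s t) (rot j) = κ (blk t j)) ∧ (∀ a, used (s t) (κ a) ↔ used t a) ∧
      ∀ a b, used t a → used t b → tau (s t) (κ a) (κ b) = tau t a b := by
  refine ⟨⟨![0, 2, 3, 1, 4, 5, 8, 9, 10, 11, 6, 7, 12], ![0, 3, 1, 2, 4, 5, 10, 11, 6, 7, 8, 9, 12],
    by decide, by decide⟩, rfl, ?_⟩
  decide +kernel

theorem pat_rfx : ∃ s : Equiv.Perm (Fin 13), s 0 = 0 ∧ ∀ t, ∃ κ : Equiv.Perm (Fin 6),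
    (∀ j, blk (s t) (rfx j) = κ (blk t j)) ∧ (∀ a, used (s t) (κ a) ↔ used t a) ∧
      ∀ a b, used t a → used t b → tau (s t) (κ a) (κ b) = tau t a b := by
  refine ⟨⟨![0, 1, 3, 2, 4, 5, 6, 11, 10, 9, 8, 7, 12], ![0, 1, 3, 2, 4, 5, 6, 11, 10, 9, 8, 7, 12],
    by decide, by decide⟩, rfl, ?_⟩
  decide +kernel

end Vale.Agent.P042U
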