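import Vale.Agent.P042U.Rec1

/-! The recursion. -/

namespace Vale.Agent.P042U

open Finset Polynomial
open scoped BigOperators

theorem rec_c {M L : ℝ} (hM : 1 ≤ M) (hL : 1 ≤ L) :
    ∃ c : ℝ, 0 < c ∧ c ≤ 1 ∧ M ^ c * (1 - 3 / (64 * L ^ 2)) ≤ 1 := by
  set x := 3 / (64 * L ^ 2) with hx
  have hx0 : 0 < x := by positivity
  have hx1 : x ≤ 1 := by rw [hx, div_le_one (by positivity)]; nlinarith
  have hl : 0 ≤ Real.log M := Real.log_nonneg hM
  refine ⟨x / (1 + Real.log M), by positivity, (div_le_self hx0.le (by linarith)).trans hx1, ?_⟩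
  rw [Real.rpow_def_of_pos (by linarith)]
  have h1 : Real.log M * (x / (1 + Real.log M)) ≤ x := by
    rw [← mul_div_assoc, div_le_iff₀ (by linarith)]; nlinarith
  have h2 : 1 - x ≤ Real.exp (-x) := by linarith [Real.add_one_le_exp (-x)]
  calc _ ≤ Real.exp x * Real.exp (-x) :=
        mul_le_mul (Real.exp_le_exp.2 h1) h2 (by linarith) (Real.exp_pos _).le
    _ = 1 := by rw [← Real.exp_add]; simp

variable {N : Type} [Fintype N] [DecidableEq N] [Nonempty N] {h : ℤ[X]} {g : ℕ → ℤ[X]}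
  {lam r : ℕ → ℕ} {e w₀ w : ℕ} {η φ : ℕ → ℝ} {C γ : ℝ}

set_option maxHeartbeats 1600000 in
theorem rec_main (hdeg : 2 ≤ h.natDegree) (hlc : 0 < h.leadingCoeff) (hF : Fam h g lam r e w₀)
    (hw0 : w₀ ≤ w) (hwk : 2 * h.natDegree ≤ w) (hγ : γ ≤ 1 / 2 ^ h.natDegree)
    (hwB : 6 * h.natDegree * (16 * C) ≤ (w : ℝ) ^ (γ / 2))
    (hS : ∀ D, w ≤ D → Setup N g w D η φ C γ) :
    ∃ (c B : ℝ) (K Z₀ : ℕ), 0 < c ∧ 1 ≤ K ∧ ∀ Z n : ℕ, Z₀ ≤ Z → Z ^ K ≤ n → ∀ A, Free h A →
      ((∑ s ∈ range n, ind A s) / n) ^ Fintype.card (N → Fin 6) ≤ B * (Z : ℝ) ^ (-c) := by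
  obtain ⟨K, hK⟩ := arcs_small hdeg hlc hF
  set k := h.natDegree with hk
  set m := Fintype.card (N → Fin 6) with hm
  have hγ0 := (hS w le_rfl).γ_pos
  have hγ1 := (hS w le_rfl).γ_le
  have hC := (hS w le_rfl).C_ge
  have he : 1 ≤ e := by
    obtain ⟨t, ht⟩ := hF.small 1 le_rfl 2 Nat.prime_two
    rcases Nat.eq_zero_or_pos e with h0 | h0
    · simp [h0] at ht
    · exact h0
  obtain ⟨M, hMe⟩ : ∃ M, M = Wm w e ^ 2 := ⟨_, rfl⟩
  have hM2 : 2 ≤ M := by
    have h1 : 2 ∣ primorial w := Nat.prime_two.dvd_primorial_iff.2 (by omega)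
    have h2 : 2 ∣ M := by
      rw [hMe, Wm, ← pow_mul]; exact dvd_pow h1 (by omega)
    exact Nat.le_of_dvd (by rw [hMe, Wm]; exact Nat.pow_pos (Nat.pow_pos (primorial_pos w))) h2
  have hMp : ∀ p : ℕ, p.Prime → w < p → ¬ p ∣ M := fun p hp hlt h1 => by
    rw [hMe, Wm] at h1
    have := hp.dvd_primorial_iff.1 (hp.dvd_of_dvd_pow (hp.dvd_of_dvd_pow h1))
    omega
  set L := lam M with hLe
  have hLM : L ≤ M ^ k := Nat.le_of_dvd (Nat.pow_pos (by omega)) (hF.dvd M (by omega)).2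
  have hL : 1 ≤ L := Nat.pos_of_dvd_of_pos (hF.dvd M (by omega)).2 (Nat.pow_pos (by omega))
  have hL' : (1 : ℝ) ≤ L := by exact_mod_cast hL
  have hM' : (1 : ℝ) ≤ M := by exact_mod_cast (by omega : 1 ≤ M)
  obtain ⟨c, hc0, hc1, hc⟩ := rec_c hM' hL'
  obtain ⟨j, hj1, hj2⟩ : ∃ j : ℕ, 2 * ((m : ℝ) ^ 2 + 3 * m) + 1 ≤ j * (γ / 2) ∧ m + 1 ≤ j := by
    obtain ⟨j, hj⟩ := exists_nat_ge ((2 * ((m : ℝ) ^ 2 + 3 * m) + 1) / (γ / 2))
    rw [div_le_iff₀ (by positivity)] at hj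
    refine ⟨j + (m + 1), hj.trans ?_, by omega⟩
    gcongr; omega
  have hCT : 0 ≤ CT m := by unfold CT; positivity
  set C₂ : ℝ := 4 * m * CT m + K * (L : ℝ) ^ 2 with hC₂
  have hC₂0 : 0 ≤ C₂ := by positivity
  refine ⟨min c γ, CT m + 2 * C₂, j * K + 5 * j + k + 1 + 3 * (k + 3), 24 * L + M + w + 2,
    lt_min hc0 hγ0, by omega, fun Z n₀ hZ hn₀ A₀ hA₀ => ?_⟩
  have hZ2 : (2 : ℝ) ≤ Z := by exact_mod_cast (by omega : 2 ≤ Z)
  have hZ1 : 1 ≤ Z := by omega
  have hpow : ∀ a b : ℕ, a ≤ b → Z ^ a ≤ Z ^ b := fun a b hab => Nat.pow_le_pow_right hZ1 hab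
  have hZD : Z ≤ Z ^ j := by simpa using hpow 1 j (by omega)
  have hSD := hS (Z ^ j) (by omega)
  set E : ℝ := 2 * C₂ * (Z : ℝ) ^ (-γ) with hE
  have hE0 : 0 ≤ E := by positivity
  have herr : err m γ Z ((Z ^ j : ℕ) : ℝ) (K * (L : ℝ) ^ 2 * ((Z ^ j : ℕ) : ℝ) ^ (-(γ / 2))) ≤
      E / 2 := by
    have := rec_err (K := K * (L : ℝ) ^ 2) hγ0 hγ1 hZ2 (by positivity) hj1
    push_cast
    linarith
  have key : ∀ i d : ℕ, 1 ≤ d → d ≤ M * Z ^ 2 → Z ≤ d + i → ∀ (n : ℕ) (A : Set ℕ),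
      n₀ ≤ n * d ^ (k + 3) → Free (g d) A →
      val N w (Z ^ j) η Z (g d) (ind A) n ≤ CT m * ((d : ℝ) / Z) ^ c + E := by
    intro i
    have hbig : ∀ d n : ℕ, d ≤ M * Z ^ 2 → n₀ ≤ n * d ^ (k + 3) →
        Z ^ (j * K + 5 * j + k + 1) ≤ n := by
      intro d n hd hn
      have h1 : d ^ (k + 3) ≤ Z ^ (3 * (k + 3)) := by
        rw [pow_mul]
        exact Nat.pow_le_pow_left (hd.trans (by nlinarith [Nat.mul_le_mul_right (Z ^ 2) (by omega : M ≤ Z)])) _
      have h2 := hn₀.trans (hn.trans (Nat.mul_le_mul_left n h1))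
      rw [pow_add] at h2
      exact Nat.le_of_mul_le_mul_right h2 (Nat.pow_pos hZ1)
    have htriv : ∀ d : ℕ, 1 ≤ d → d ≤ M * Z ^ 2 → Z ≤ d → ∀ (n : ℕ) (A : Set ℕ),
        n₀ ≤ n * d ^ (k + 3) →
        val N w (Z ^ j) η Z (g d) (ind A) n ≤ CT m * ((d : ℝ) / Z) ^ c + E := by
      intro d hd hd2 hZd n A hn
      have h1 := hSD.trivial hd hZ1 (n := n) (le_trans (by
        calc 2 * Z ^ 4 ≤ Z * Z ^ 4 := by gcongr; omega
          _ = Z ^ 5 := by ring
          _ ≤ _ := hpow _ _ (by omega)) (hbig d n hd2 hn)) A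
      have h2 : 1 ≤ ((d : ℝ) / Z) ^ c := Real.one_le_rpow (by
        rw [one_le_div (by linarith)]; exact_mod_cast hZd) hc0.le
      nlinarith
    induction i with
    | zero => exact fun d hd hd2 hZd n A hn _ => htriv d hd hd2 hZd n A hn
    | succ i ih =>
      intro d hd hd2 hZd n A hn hA
      rcases le_or_gt Z d with hle | hlt
      · exact htriv d hd hd2 hle n A hn
      have hn' := hbig d n hd2 hn
      obtain ⟨c', hc'L, harc⟩ := hK (16 * C) γ w (Z ^ j) d L (by linarith) hγ0 hγ hw0 hwk hwB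
        (by omega) hd hL (hMe ▸ (hF.dvd M (by omega)).1)
      have h24 : 24 * L ≤ n := le_trans (by omega) (hZD.trans ((hpow _ _ (by omega)).trans hn'))
      obtain ⟨-, hp2, hp3⟩ := pieces hL h24
      have ha : ((0, 0) : ℕ × ℕ) ∈ range 3 ×ˢ range L := by simp; omega
      have hb : ((2, c') : ℕ × ℕ) ∈ range 3 ×ˢ range L := by simp; omega
      obtain ⟨hκ1, hκ2, hκ3⟩ := hSD.kappa hd rfl
      set x : ℝ := ((d : ℝ) / Z) ^ c with hx
      have hx0 : 0 ≤ x := by positivity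
      have hb0 : 0 ≤ CT m * x * (M : ℝ) ^ c := by positivity
      have hq : ∀ S : Finset (PI w (Z ^ j)), lam (sz (Om w (Z ^ j)) S) ≤ sz (Om w (Z ^ j)) S ^ k :=
        fun S => Nat.le_of_dvd (Nat.pow_pos (step_sz_pos S)) (hF.dvd _ (step_sz_pos S)).2
      have := hSD.step hF hd (by omega : 1 ≤ M) (fun p => hMp _ p.prime p.lt) hA (R := Z)
        (b := CT m * x * (M : ℝ) ^ c + E) (n := n) (c := c')
        (ε := K * (L : ℝ) ^ 2 * ((Z ^ j : ℕ) : ℝ) ^ (-(γ / 2))) (by linarith)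
        (by exact_mod_cast hpow m j (by omega)) h24
        (le_trans (by
          calc 8 * L * (Z ^ j) ^ 5 ≤ Z * (Z ^ j) ^ 5 := by gcongr; omega
            _ = Z ^ (5 * j + 1) := by ring
            _ ≤ _ := hpow _ _ (by omega)) hn') (by positivity) (by positivity)
        (fun S hSZ => le_trans (by
          have h1 : sz (Om w (Z ^ j)) S ≤ Z := by exact_mod_cast hSZ
          calc 8 * L * lam (sz (Om w (Z ^ j)) S) ≤ Z * Z ^ k := by
                gcongr
                · omega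
                · exact (hq S).trans (Nat.pow_le_pow_left h1 _)
            _ = Z ^ (k + 1) := by ring
            _ ≤ _ := hpow _ _ (by omega)) hn')
        (fun S hSZ n' hn2 A' hA' => by
          have h1 : sz (Om w (Z ^ j)) S ≤ Z := by exact_mod_cast hSZ
          have h2 := step_sz_pos S
          have h3 := hq S
          generalize sz (Om w (Z ^ j)) S = q at *
          have h4 : 2 ≤ M * q := hM2.trans (Nat.le_mul_of_pos_right _ h2)
          refine (ih _ (Nat.mul_pos hd (by omega)) (by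
            calc d * (M * q) ≤ Z * (M * Z) := by gcongr
              _ = _ := by ring) (by have := Nat.mul_le_mul_left d h4; omega) n' A' (hn.trans ?_) hA').trans ?_
          · calc n * d ^ (k + 3) ≤ 8 * L * lam q * n' * d ^ (k + 3) := by gcongr
              _ ≤ (M * q) ^ 3 * M ^ k * q ^ k * n' * d ^ (k + 3) := by
                  gcongr
                  exact Nat.pow_le_pow_left h4 3
              _ = _ := by ring
          · have hq1 : (1 : ℝ) ≤ q := by exact_mod_cast h2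
            have e1 : (((d * (M * q) : ℕ) : ℝ) / Z) ^ c = x * (M : ℝ) ^ c * (q : ℝ) ^ c := by
              rw [hx, ← Real.mul_rpow (by positivity) (by positivity),
                ← Real.mul_rpow (by positivity) (by positivity)]
              congr 1; push_cast; ring
            have h5 : (q : ℝ) ^ c ≤ q := by simpa using Real.rpow_le_rpow_of_exponent_le hq1 hc1
            rw [e1]
            have h6 := mul_le_mul_of_nonneg_left h5 hb0
            nlinarith)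
        hc'L
        (fun S hSZ z z' hz => harc A (Z ^ j) n _ _ _ _ _ _ _ S z z' hA (by omega) le_rfl (by omega)
          (le_trans (by exact_mod_cast hSZ) (hpow m j (by omega)))
          (by rw [← pow_mul]; exact (hpow _ _ (by omega)).trans hn')
          ⟨-(2 * (n / (3 * L) : ℕ)), by simp [st]; ring⟩ (hp2 _ ha).1 (hp2 _ hb).1 (hp2 _ hb).2.2
          (hp3 c' hc'L) (fun s => ⟨ind_le _ _, ind_ne⟩) (fun s => ⟨ind_le _ _, ind_ne⟩) hκ1 hκ2 hκ3
          hz)
        (by linarith)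
      refine this.trans ?_
      have e2 : ∀ b ε : ℝ, b - (3 / 4 * b - ε) / (16 * (L : ℝ) ^ 2) =
          b * (1 - 3 / (64 * (L : ℝ) ^ 2)) + ε * (1 / (16 * (L : ℝ) ^ 2)) := by
        intro b ε; field_simp; ring
      rw [e2]
      have h7 := mul_le_mul_of_nonneg_left hc (mul_nonneg hCT hx0)
      have h8 := mul_le_mul_of_nonneg_right herr (by positivity : 0 ≤ 1 / (16 * (L : ℝ) ^ 2))
      have h9 : E / 2 * (1 / (16 * (L : ℝ) ^ 2)) ≤ E * (3 / (64 * (L : ℝ) ^ 2)) := by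
        have : E * (3 / (64 * (L : ℝ) ^ 2)) = 3 / 2 * (E / 2 * (1 / (16 * (L : ℝ) ^ 2))) := by
          field_simp; ring
        rw [this]
        have : 0 ≤ E / 2 * (1 / (16 * (L : ℝ) ^ 2)) := by positivity
        linarith
      nlinarith
  have h1 := key Z 1 le_rfl (Nat.mul_pos (by omega) (Nat.pow_pos hZ1)) (by omega) n₀ A₀ (by simp)
    (hF.one ▸ hA₀)
  refine ((hSD.lower le_rfl (by linarith) A₀ n₀).trans h1).trans ?_
  have h2 : (((1 : ℕ) : ℝ) / Z) ^ c ≤ (Z : ℝ) ^ (-min c γ) := by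
    rw [Nat.cast_one, one_div, Real.inv_rpow (by linarith), ← Real.rpow_neg (by linarith)]
    exact Real.rpow_le_rpow_of_exponent_le (by linarith) (by linarith [min_le_left c γ])
  have h3 : (Z : ℝ) ^ (-γ) ≤ (Z : ℝ) ^ (-min c γ) :=
    Real.rpow_le_rpow_of_exponent_le (by linarith) (by linarith [min_le_right c γ])
  have h4 := mul_le_mul_of_nonneg_left h2 hCT
  have h5 := mul_le_mul_of_nonneg_left h3 hC₂0
  nlinarith

end Vale.Agent.P042U
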