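import Vale.Agent.P042U.Step

/-! The standing hypotheses hold for large `w`. -/

namespace Vale.Agent.P042U

open Finset Polynomial Filter
open scoped BigOperators

theorem setup_ev (c : ℝ) {γ : ℝ} (hγ : 0 < γ) : ∀ᶠ w : ℕ in atTop, c ≤ (w : ℝ) ^ γ :=
  ((tendsto_rpow_atTop hγ).comp tendsto_natCast_atTop_atTop).eventually_ge_atTop c

theorem setup_cT {m : ℕ} {C : ℝ} (hC : 1 ≤ C) : 0 < cT m C ∧ cT m C ≤ 1 := by
  unfold cT
  refine ⟨by positivity, ?_⟩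
  rw [div_le_one (by positivity)]
  refine le_trans (pow_le_one₀ (by positivity) ?_) (by linarith)
  rw [div_le_one (by positivity)]
  have : (1 : ℝ) ≤ 2 ^ m := one_le_pow₀ (by norm_num)
  linarith

theorem setup_sum {w D : ℕ} (hw : 1 ≤ w) (hD : w ≤ D) :
    ∑ p : PI w D, ((p.1 : ℝ) ^ 2)⁻¹ ≤ 1 := by
  have h1 : ∑ p : PI w D, ((p.1 : ℝ) ^ 2)⁻¹ =
      ∑ p ∈ (Finset.Ioc w D).filter Nat.Prime, ((p : ℝ) ^ 2)⁻¹ :=
    sum_coe_sort ((Finset.Ioc w D).filter Nat.Prime) fun p => ((p : ℝ) ^ 2)⁻¹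
  rw [h1]
  refine (sum_le_sum_of_subset_of_nonneg (filter_subset _ _) fun _ _ _ => by positivity).trans ?_
  refine (sum_Ioc_inv_sq_le_sub (by omega) hD).trans ?_
  have : (1 : ℝ) ≤ w := by exact_mod_cast hw
  have h2 : (w : ℝ)⁻¹ ≤ 1 := inv_le_one_of_one_le₀ this
  have h3 : (0 : ℝ) ≤ (D : ℝ)⁻¹ := by positivity
  linarith

theorem exists_setup {h : ℤ[X]} (hdeg : 1 ≤ h.natDegree) {g : ℕ → ℤ[X]} {lam r : ℕ → ℕ}
    {e w₀ : ℕ} (hF : Fam h g lam r e w₀) (N : Type) [Fintype N] [DecidableEq N] [Nonempty N]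
    (hN : Fintype.card N = 2 ^ (h.natDegree + 3)) :
    ∃ (w : ℕ) (η φ : ℕ → ℝ) (C γ : ℝ), w₀ ≤ w ∧ 2 * h.natDegree ≤ w ∧ γ ≤ 1 / 2 ^ h.natDegree ∧
      6 * h.natDegree * (16 * C) ≤ (w : ℝ) ^ (γ / 2) ∧
      ∀ D, w ≤ D → Setup N g w D η φ C γ := by
  set k := h.natDegree with hk
  have hk1 : (1 : ℝ) ≤ k := by exact_mod_cast hdeg
  obtain ⟨C, hC, hloc⟩ := local_ok N (Ca := 2 * k) (by linarith)
  set m := Fintype.card (N → Fin 6) with hm
  have hm1 : 1 ≤ m := Fintype.card_pos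
  have hm1' : (1 : ℝ) ≤ m := by exact_mod_cast hm1
  set γ₀ : ℝ := 1 / 2 ^ k with hγ₀
  have hγ0 : 0 < γ₀ := by positivity
  have hγ1 : γ₀ ≤ 1 := by
    rw [hγ₀, div_le_one (by positivity)]; exact one_le_pow₀ (by norm_num)
  obtain ⟨hc0, hc1⟩ := setup_cT (m := m) hC
  have hγ : 0 < γ₀ / (4 * m) := by positivity
  have hγle : γ₀ / (4 * m) ≤ γ₀ := div_le_self hγ0.le (by linarith)
  obtain ⟨w, h1, h2, h3, h4, h5, h6, h7⟩ := ((eventually_ge_atTop w₀).and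
    ((eventually_ge_atTop (2 * k + 2)).and
    ((setup_ev (6 * k * (16 * C)) (half_pos hγ)).and
    ((setup_ev (C * (4 + 2 * k)) (half_pos hγ0)).and
    ((setup_ev C (half_pos hγ0)).and
    ((setup_ev (C / cT m C ^ m) (by positivity : 0 < γ₀ / 4)).and
    (setup_ev (8 * C * 4 ^ m) one_pos))))))).exists
  refine ⟨w, fun p => (p : ℝ) ^ (-(γ₀ / 2)), fun p => C * ((p : ℝ) ^ (-(γ₀ / 2))) ^ Fintype.card N,
    C, γ₀ / (4 * m), h1, by omega, hγle, h3, fun D hD => ⟨hC, hγ, hγle.trans hγ1, by omega, ?_, ?_⟩⟩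
  · intro d hd p
    have hp := p.lt
    have hp0 : (0 : ℝ) < p.1 := by exact_mod_cast p.prime.pos
    have hwp : ∀ {s : ℝ}, 0 ≤ s → (w : ℝ) ^ s ≤ (p.1 : ℝ) ^ s := fun hs =>
      Real.rpow_le_rpow (Nat.cast_nonneg _) (by exact_mod_cast hp.le) hs
    have hdeg' : (g d).natDegree ≤ k := by
      have h8 := congrArg natDegree (hF.expl d hd).2
      have hl : (lam d : ℤ) ≠ 0 := by
        have := Nat.pos_of_dvd_of_pos (hF.dvd _ hd).2 (Nat.pow_pos hd)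
        omega
      rw [natDegree_C_mul hl] at h8
      rw [h8]
      refine natDegree_comp_le.trans ?_
      have : (Polynomial.C (r d : ℤ) + Polynomial.C (d : ℤ) * X).natDegree ≤ 1 := by compute_degree
      nlinarith
    have hg := hF.large d hd p.1 p.prime (by omega)
    have hneg : (p.1 : ℝ) ^ (-(γ₀ / 2)) * (p.1 : ℝ) ^ (γ₀ / 2) = 1 := by
      rw [← Real.rpow_add hp0]; simp
    have hη0 : 0 < (p.1 : ℝ) ^ (-(γ₀ / 2)) := Real.rpow_pos_of_pos hp0 _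
    have := hloc (ZMod p.1) (alpha (g d) p.1) _ ((p.1 : ℝ) ^ (-(γ₀ / 2)))
      (alpha_bdd hdeg' (by omega) hg) (alpha_small hdeg' (by omega) hg) (by positivity) (by
        have e1 : (p.1 : ℝ) ^ (-(1 / 2 ^ k : ℝ)) =
            (p.1 : ℝ) ^ (-(γ₀ / 2)) * (p.1 : ℝ) ^ (-(γ₀ / 2)) := by
          rw [← Real.rpow_add hp0]; congr 1; ring
        have h8 := h4.trans (hwp (half_pos hγ0).le)
        rw [e1]
        have := mul_le_mul_of_nonneg_left h8 (mul_pos hη0 hη0).le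
        nlinarith) (by
        have h8 := h5.trans (hwp (half_pos hγ0).le)
        nlinarith)
    refine this.val_mono ?_
    rw [card_Om, mul_pow, ← Real.rpow_natCast (_ ^ (-(γ₀ / (4 * m)))), ← Real.rpow_mul hp0.le]
    have e2 : -(γ₀ / (4 * m)) * m = -(γ₀ / 4) := by field_simp
    have e3 : (p.1 : ℝ) ^ (-(γ₀ / 4)) = (p.1 : ℝ) ^ (γ₀ / 4) * (p.1 : ℝ) ^ (-(γ₀ / 2)) := by
      rw [← Real.rpow_add hp0]; congr 1; ring
    rw [e2, e3, ← mul_assoc]
    have h8 := h6.trans (hwp (by positivity))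
    rw [div_le_iff₀ (by positivity)] at h8
    exact mul_le_mul_of_nonneg_right (by linarith) hη0.le
  · have hw0 : (0 : ℝ) < w := by exact_mod_cast (by omega : 0 < w)
    rw [Real.rpow_one] at h7
    calc _ ≤ ∑ p : PI w D, 1 / 8 * ((p.1 : ℝ) ^ 2)⁻¹ := by
          refine sum_le_sum fun p _ => ?_
          have hp0 : (0 : ℝ) < p.1 := by exact_mod_cast p.prime.pos
          have hp : (w : ℝ) ≤ p.1 := by exact_mod_cast p.lt.le
          rw [card_Om, ← Real.rpow_natCast (_ ^ (-(γ₀ / 2))), ← Real.rpow_mul hp0.le, hN]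
          have e2 : -(γ₀ / 2) * ((2 ^ (k + 3) : ℕ) : ℝ) = -((4 : ℕ) : ℝ) := by
            rw [hγ₀]; push_cast; field_simp; ring
          rw [e2, Real.rpow_neg hp0.le, Real.rpow_natCast]
          have e3 : C * ((p.1 : ℝ) ^ 4)⁻¹ * 4 ^ m * p.1 =
              1 / 8 * ((p.1 : ℝ) ^ 2)⁻¹ * (8 * C * 4 ^ m / p.1) := by field_simp
          rw [e3]
          refine mul_le_of_le_one_right (by positivity) ?_
          rw [div_le_one hp0]; linarith
      _ ≤ 1 / 8 := by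
          rw [← mul_sum]
          have := setup_sum (by omega : 1 ≤ w) hD
          linarith

end Vale.Agent.P042U
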