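import Vale.Agent.P042U.Step2
import Vale.Agent.P042U.Setup
import Vale.Agent.P042U.Arcs

/-! Ingredients of the recursion. -/

namespace Vale.Agent.P042U

open Finset Polynomial
open scoped BigOperators

theorem rec_marg {A V : Type} [Fintype A] [DecidableEq A] [AddCommGroup A] [Fintype V]
    [DecidableEq V] (k : (V → A) → ℝ) (u v : V) : 𝔼 d, marg k u v d = 𝔼 x, k x := by
  unfold marg
  rw [expect_comm]
  refine expect_congr rfl fun x _ => ?_
  rw [← mul_expect, Fintype.expect_eq_sum_div_card]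
  simp

variable {N : Type} [Fintype N] [DecidableEq N] [Nonempty N] {h : ℤ[X]} {g : ℕ → ℤ[X]}
  {lam r : ℕ → ℕ} {e w₀ w D : ℕ} {η φ : ℕ → ℝ} {C γ : ℝ}

theorem Setup.mean_ge (hS : Setup N g w D η φ C γ) {d : ℕ} (hd : 1 ≤ d) (p : PI w D) :
    7 / 8 ≤ 𝔼 x, ps (N := N) (alpha (g d) p.1) (η p.1) x := by
  have h0 : ∀ p : PI w D, 0 ≤ φ p.1 := fun p => by
    have h1 := (hS.ok d hd p).fail
    have h2 := (hS.ok d hd p).mean
    have h3 := expect_le_expect (s := univ) fun x _ => (hS.ok d hd p).ψ_le x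
    linarith
  have h1 := single_le_sum (f := fun p : PI w D =>
    φ p.1 * 4 ^ Fintype.card (N → Fin 6) * Fintype.card (Om w D p))
    (fun p _ => by have := h0 p; positivity) (mem_univ p)
  have h2 := hS.sum_le
  have h3 : (1 : ℝ) ≤ 4 ^ Fintype.card (N → Fin 6) := one_le_pow₀ (by norm_num)
  have h4 : (1 : ℝ) ≤ Fintype.card (Om w D p) := by exact_mod_cast Fintype.card_pos
  have h5 := (hS.ok d hd p).fail
  have h6 := le_mul_of_one_le_right (h0 p) (one_le_mul_of_one_le_of_one_le h3 h4)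
  simp only [← mul_assoc] at h6
  linarith

theorem Setup.kappa (hS : Setup N g w D η φ C γ) {d : ℕ} (hd : 1 ≤ d)
    {κ : ∀ p : PI w D, Om w D p → ℝ}
    (hκ : κ = fun p t => marg (ps (N := N) (alpha (g d) p.1) (η p.1)) u₀ v₀ t /
      𝔼 x, ps (N := N) (alpha (g d) p.1) (η p.1) x) :
    (∀ p t, 0 ≤ κ p t ∧ κ p t ≤ 16 * C * alpha (g d) p.1 t) ∧ (∀ p, 𝔼 t, κ p t = 1) ∧
    ∀ (p : PI w D) (b : ℤ), ¬ (p.1 : ℤ) ∣ b →
      ‖avg p.1 fun t => (κ p t : ℂ) * ee (b * t / p.1)‖ ≤ 16 * C * (p.1 : ℝ) ^ (-γ) := by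
  subst hκ
  have hC := hS.C_ge
  refine ⟨fun p t => ?_, fun p => ?_, fun p b hb => ?_⟩
  · have h1 := hS.mean_ge hd p
    have h2 := (hS.ok d hd p).marg_le t
    have h3 : 0 ≤ marg (ps (N := N) (alpha (g d) p.1) (η p.1)) u₀ v₀ t :=
      expect_nonneg fun x _ => mul_nonneg ((hS.ok d hd p).ψ_nonneg x) (by positivity)
    refine ⟨by positivity, ?_⟩
    rw [div_le_iff₀ (by linarith)]
    nlinarith
  · have h1 := hS.mean_ge hd p
    rw [← expect_div, rec_marg, div_self (by linarith)]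
  · have h1 := hS.mean_ge hd p
    obtain ⟨k₀, cp, -, h2⟩ := (hS.ok d hd p).adm
    have h3 := marg_fourier h2 step_u_ne_v hb
    set μ := 𝔼 x, ps (N := N) (alpha (g d) p.1) (η p.1) x
    have e1 : (avg p.1 fun t => ((marg (ps (N := N) (alpha (g d) p.1) (η p.1)) u₀ v₀ t / μ : ℝ) : ℂ) *
        ee (b * t / p.1)) = (avg p.1 fun t =>
        (marg (ps (N := N) (alpha (g d) p.1) (η p.1)) u₀ v₀ t : ℂ) * ee (b * t / p.1)) / μ := by
      simp only [avg]
      simp only [sum_div]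
      refine sum_congr rfl fun s _ => ?_
      push_cast; ring
    rw [e1, norm_div, Complex.norm_real, Real.norm_eq_abs, abs_of_pos (by linarith),
      div_le_iff₀ (by linarith)]
    refine h3.trans ?_
    obtain ⟨hc0, hc1⟩ := setup_cT (m := Fintype.card (N → Fin 6)) hC
    rw [card_Om]
    have hp1 : (1 : ℝ) ≤ p.1 := by exact_mod_cast p.prime.pos
    have h4 : (p.1 : ℝ) ^ (-γ) ≤ 1 := Real.rpow_le_one_of_one_le_of_nonpos hp1 (by linarith [hS.γ_pos])
    have h5 : 0 ≤ (p.1 : ℝ) ^ (-γ) := by positivity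
    have h6 : (cT (Fintype.card (N → Fin 6)) C * (p.1 : ℝ) ^ (-γ)) ^ Fintype.card (N → Fin 6) ≤
        cT (Fintype.card (N → Fin 6)) C * (p.1 : ℝ) ^ (-γ) :=
      pow_le_of_le_one (by positivity) (by nlinarith) Fintype.card_ne_zero
    have h7 : cT (Fintype.card (N → Fin 6)) C * (p.1 : ℝ) ^ (-γ) ≤ (p.1 : ℝ) ^ (-γ) := by nlinarith
    have h8 : 8 ≤ 16 * C * μ := by nlinarith
    nlinarith

theorem Setup.trivial (hS : Setup N g w D η φ C γ) {d : ℕ} (hd : 1 ≤ d) {Z n : ℕ} (hZ : 1 ≤ Z)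
    (hn : 2 * Z ^ 4 ≤ n) (A : Set ℕ) :
    val N w D η Z (g d) (ind A) n ≤ CT (Fintype.card (N → Fin 6)) := by
  choose k₀ cp h1 _ using fun p => (hS.ok d hd p).adm
  have hZ' : (1 : ℝ) ≤ Z := by exact_mod_cast hZ
  have hn1 : 1 ≤ n := le_trans (Nat.mul_pos two_pos (Nat.pow_pos hZ)) hn
  have hn0 : (0 : ℝ) < n := by exact_mod_cast hn1
  have := tail sz_inj hS.C_ge (ξ := fun p => (Fintype.card (Om w D p) : ℝ) ^ (-γ))
    (fun p => ⟨by positivity, Real.rpow_le_one_of_one_le_of_nonpos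
      (by exact_mod_cast Fintype.card_pos) (by linarith [hS.γ_pos])⟩) h1
    (μ := fun _ => push w D (ind A) n 0 1) (ν := fun _ => push w D (fun _ => 1) n 0 1)
    (I := fun _ => univ) (Q := fun _ => low (Om w D) univ Z) (Y := (Z : ℝ) ^ 3) (R := Z) (g := 1)
    (fun _ x => abs_push_le (ind_le A) _ _ _ x)
    (fun _ => pr_push hn1 0 (fun p hp => p.prime.one_lt.ne'
      (Nat.dvd_one.1 (Int.natCast_dvd_natCast.1 hp))) _)
    (fun _ => Subset.rfl) hZ' le_rfl (by positivity) (by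
      rw [div_mul_eq_mul_div, div_le_one hn0]
      have : ((2 * Z ^ 4 : ℕ) : ℝ) ≤ n := by exact_mod_cast hn
      push_cast at this
      linarith) u₀ zero_le_one
    (fun T _ => prod_le_one (fun _ _ => by positivity) fun p _ =>
      Real.rpow_le_one_of_one_le_of_nonpos (by exact_mod_cast Fintype.card_pos)
        (by linarith [hS.γ_pos]))
  rw [mul_one] at this
  exact (le_abs_self _).trans this

theorem Setup.lower (hS : Setup N g w D η φ C γ) {d : ℕ} (hd : 1 ≤ d) {R : ℝ} (hR : 1 ≤ R)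
    (A : Set ℕ) (n : ℕ) : ((∑ s ∈ range n, ind A s) / n) ^ Fintype.card (N → Fin 6) ≤
      val N w D η R (g d) (ind A) n := by
  have e1 : 𝔼 y, part (low (Om w D) univ R) (push w D (ind A) n 0 1) y =
      (∑ s ∈ range n, ind A s) / n := by
    rw [val_expect_part hR]
    simpa using expect_push (w := w) (D := D) (ind A) n 0 1 fun _ => 1
  rw [← e1]
  refine form_lower (fun p => (hS.ok d hd p).rp) (fun p => (hS.ok d hd p).mean)
    (fun p => (hS.ok d hd p).val_transl) ?_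
  rw [e1]
  exact div_nonneg (sum_nonneg fun s _ => by unfold ind; split_ifs <;> norm_num) (Nat.cast_nonneg _)

theorem rec_err {m j : ℕ} {γ Z K : ℝ} (hγ : 0 < γ) (hγ1 : γ ≤ 1) (hZ : 2 ≤ Z) (hK : 0 ≤ K)
    (hj : 2 * (m ^ 2 + 3 * m) + 1 ≤ j * (γ / 2)) :
    err m γ Z (Z ^ j) (K * (Z ^ j) ^ (-(γ / 2))) ≤ (4 * m * CT m + K) * Z ^ (-γ) := by
  have hZ0 : 0 < Z := by linarith
  have hZ1 : 1 ≤ Z := by linarith
  have hCT : 0 ≤ CT m := by unfold CT; positivity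
  have h1 : (Z ^ j) ^ (-γ) ≤ (Z ^ j) ^ (-(γ / 2)) :=
    Real.rpow_le_rpow_of_exponent_le (one_le_pow₀ hZ1) (by linarith)
  have h2 : (2 * Z) ^ (m ^ 2 + 3 * m) * (Z ^ j) ^ (-(γ / 2)) ≤ Z ^ (-γ) := by
    calc (2 * Z) ^ (m ^ 2 + 3 * m) * (Z ^ j) ^ (-(γ / 2))
        ≤ (Z ^ 2) ^ (m ^ 2 + 3 * m) * (Z ^ j) ^ (-(γ / 2)) := by gcongr; nlinarith
      _ = Z ^ (((2 * (m ^ 2 + 3 * m) : ℕ) : ℝ) + j * (-(γ / 2))) := by
          rw [Real.rpow_add hZ0, Real.rpow_natCast, Real.rpow_mul hZ0.le, Real.rpow_natCast, pow_mul]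
      _ ≤ _ := Real.rpow_le_rpow_of_exponent_le hZ1 (by push_cast; linarith)
  unfold err
  have h3 : (0 : ℝ) ≤ (2 * Z) ^ (m ^ 2 + 3 * m) := by positivity
  have h4 : (0 : ℝ) ≤ m * CT m := by positivity
  have h5 := mul_le_mul_of_nonneg_left (mul_le_mul_of_nonneg_left h1 h4) h3
  have h6 := mul_le_mul_of_nonneg_left h2 (add_nonneg h4 hK)
  nlinarith

end Vale.Agent.P042U
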