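import Vale.Agent.P042U.Val
import Vale.Agent.P042U.MT

/-! One step of the recursion. -/

namespace Vale.Agent.P042U

open Finset Polynomial
open scoped BigOperators

open Classical in
/-- the indicator function -/
noncomputable def ind (A : Set ℕ) (s : ℕ) : ℝ := if s ∈ A then 1 else 0

theorem ind_le (A : Set ℕ) (s : ℕ) : |ind A s| ≤ 1 := by
  unfold ind; split_ifs <;> simp

theorem ind_ne {A : Set ℕ} {s : ℕ} (h : ind A s ≠ 0) : s ∈ A := by
  unfold ind at h; by_contra hs; simp [hs] at h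

theorem Free.sub {g g' : ℤ[X]} {A : Set ℕ} (hA : Free g A) {L ρ Q : ℕ} (hL : 1 ≤ L) (hQ : 1 ≤ Q)
    (hg : C (L : ℤ) * g' = g.comp (C (ρ : ℤ) + C (Q : ℤ) * X)) (a : ℕ) :
    Free g' {s | a + L * s ∈ A} := by
  intro x hx y hy t ht e
  have h1 := congrArg (Polynomial.eval (t : ℤ)) hg
  simp only [eval_mul, eval_C, eval_comp, eval_add, eval_X] at h1
  have h2 := hA _ hx _ hy (ρ + Q * t) (by nlinarith) (by push_cast; rw [← h1, ← e]; ring)
  push_cast at h2
  rw [← h1] at h2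
  have hL' : (L : ℤ) ≠ 0 := by omega
  exact (mul_eq_zero.1 h2).resolve_left hL'

theorem step_weighted {V κ : Type} [Fintype V] [DecidableEq V] [DecidableEq κ] (s : Finset κ)
    (c : κ → ℝ) (hc : ∀ j ∈ s, 0 ≤ c j) (h1 : ∑ j ∈ s, c j = 1) {u v : V} (huv : u ≠ v) {a b : κ}
    (ha : a ∈ s) (hb : b ∈ s) (F : (V → κ) → ℝ) {b₁ b₂ : ℝ} (hb12 : b₂ ≤ b₁)
    (hF : ∀ j ∈ Fintype.piFinset fun _ : V => s, F j ≤ b₁)
    (hF' : ∀ j ∈ Fintype.piFinset fun _ : V => s, j u = a → j v = b → F j ≤ b₂) :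
    ∑ j ∈ Fintype.piFinset fun _ : V => s, (∏ w, c (j w)) * F j ≤ b₁ - c a * c b * (b₁ - b₂) := by
  let s' : V → Finset κ := fun w => if w = u then {a} else if w = v then {b} else s
  have hs' : Fintype.piFinset s' = (Fintype.piFinset fun _ : V => s).filter
      fun j => j u = a ∧ j v = b := by
    ext j
    simp only [Fintype.mem_piFinset, mem_filter, s']
    constructor
    · intro h
      refine ⟨fun w => ?_, by simpa using h u, by simpa [huv.symm] using h v⟩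
      have := h w
      split_ifs at this with h2 h3
      · rw [mem_singleton.1 this]; exact ha
      · rw [mem_singleton.1 this]; exact hb
      · exact this
    · rintro ⟨h, h2, h3⟩ w
      split_ifs with h4 h5
      · rw [h4, h2]; exact mem_singleton_self _
      · rw [h5, h3]; exact mem_singleton_self _
      · exact h w
  have e1 : ∑ j ∈ Fintype.piFinset fun _ : V => s, ∏ w, c (j w) = 1 := by
    rw [← prod_univ_sum]; simp [h1]
  have e2 : ∑ j ∈ Fintype.piFinset s', ∏ w, c (j w) = c a * c b := by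
    rw [← prod_univ_sum, ← mul_prod_erase univ _ (mem_univ u),
      ← mul_prod_erase _ _ (mem_erase.2 ⟨huv.symm, mem_univ v⟩), prod_eq_one]
    · simp [s', huv.symm]
    · intro w hw
      have h2 := (mem_erase.1 hw).1
      have h3 := (mem_erase.1 (mem_erase.1 hw).2).1
      simp [s', h2, h3, h1]
  rw [← e2, hs', sum_filter, sum_mul]
  nth_rewrite 1 [← one_mul b₁, ← e1]
  rw [sum_mul, ← sum_sub_distrib]
  refine sum_le_sum fun j hj => ?_
  have h0 : 0 ≤ ∏ w, c (j w) := prod_nonneg fun w _ => hc _ (Fintype.mem_piFinset.1 hj w)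
  split_ifs with h
  · nlinarith [hF' j hj h.1 h.2]
  · nlinarith [hF j hj]

/-- the standing hypotheses on the primes in `(w, D]` -/
structure Setup (N : Type) [Fintype N] [DecidableEq N] (g : ℕ → ℤ[X]) (w D : ℕ) (η φ : ℕ → ℝ)
    (C γ : ℝ) : Prop where
  C_ge : 1 ≤ C
  γ_pos : 0 < γ
  γ_le : γ ≤ 1
  w_ge : 2 ≤ w
  ok : ∀ d, 1 ≤ d → ∀ p : PI w D, LocOK (alpha (g d) p.1) (omg N w D η (g d) p)
    (ps (alpha (g d) p.1) (η p.1)) C
    ((cT (Fintype.card (N → Fin 6)) C * (Fintype.card (Om w D p) : ℝ) ^ (-γ)) ^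
      Fintype.card (N → Fin 6)) (φ p.1)
  sum_le : ∑ p : PI w D, φ p.1 * 4 ^ Fintype.card (N → Fin 6) * Fintype.card (Om w D p) ≤ 1 / 8

variable {N : Type} [Fintype N] [DecidableEq N] [Nonempty N] {h : ℤ[X]} {g : ℕ → ℤ[X]}
  {lam r : ℕ → ℕ} {e w₀ w D : ℕ} {η φ : ℕ → ℝ} {C γ : ℝ}

theorem PI.lt (p : PI w D) : w < p.1 := (mem_Ioc.1 (mem_filter.1 p.2).1).1
theorem PI.prime (p : PI w D) : p.1.Prime := (mem_filter.1 p.2).2

theorem step_not_dvd (hF : Fam h g lam r e w₀) {q : ℕ} (hq : 1 ≤ q) {p : ℕ} (hp : p.Prime)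
    (h1 : ¬ p ∣ q) : ¬ (p : ℤ) ∣ (lam q : ℕ) ∧ ¬ (p : ℤ) ∣ (q : ℕ) :=
  ⟨fun h2 => h1 (hp.dvd_of_dvd_pow ((Int.natCast_dvd_natCast.1 h2).trans (hF.dvd q hq).2)),
    fun h2 => h1 (Int.natCast_dvd_natCast.1 h2)⟩

theorem step_sz_pos (S : Finset (PI w D)) : 1 ≤ sz (Om w D) S :=
  Nat.one_le_iff_ne_zero.2 (prod_ne_zero_iff.2 fun _ _ => Fintype.card_ne_zero)

theorem step_not_dvd_sz {S : Finset (PI w D)} {p : PI w D} (hp : p ∉ S) : ¬ p.1 ∣ sz (Om w D) S := by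
  intro h1
  obtain ⟨p', hp', h2⟩ := (Prime.dvd_finset_prod_iff p.prime.prime _).1 h1
  rw [card_Om] at h2
  exact hp (Subtype.ext ((Nat.prime_dvd_prime_iff_eq p.prime p'.prime).1 h2) ▸ hp')

/-- a piece of a free set has small value -/
theorem Setup.piece (hS : Setup N g w D η φ C γ) (hF : Fam h g lam r e w₀) {d M : ℕ} (hd : 1 ≤ d)
    (hM : 1 ≤ M) (hMp : ∀ p : PI w D, ¬ p.1 ∣ M) (S : Finset (PI w D)) {A : Set ℕ}
    (hA : Free (g d) A) (R : ℝ) (a n : ℕ) {b : ℝ}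
    (hb : ∀ A', Free (g (d * (M * sz (Om w D) S))) A' →
      val N w D η R (g (d * (M * sz (Om w D) S))) (ind A') n ≤ b) :
    |Form (omg N w D η (g d)) fun _ => part (low (Om w D) Sᶜ R) (push w D
      (fun s => ind A (a + lam (M * sz (Om w D) S) * s)) n a (lam (M * sz (Om w D) S)))| ≤ b := by
  have hq : 1 ≤ M * sz (Om w D) S := Nat.mul_pos hM (step_sz_pos S)
  obtain ⟨ρ, hρ⟩ := hF.step d _ hd hq
  have hL : 1 ≤ lam (M * sz (Om w D) S) :=
    Nat.pos_of_dvd_of_pos (hF.dvd _ hq).2 (Nat.pow_pos hq)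
  have hd' : 1 ≤ d * (M * sz (Om w D) S) := Nat.mul_pos hd hq
  refine le_trans (fibre_val hρ (fun p hp => step_not_dvd hF hq p.prime fun h1 => ?_)
    (fun p => (hS.ok d hd p).mean) (fun p => (hS.ok _ hd' p).mean) (fun p => (hS.ok _ hd' p).rp)
    (fun p => (hS.ok _ hd' p).val_transl) R _ n a) (hb _ (hA.sub hL hq hρ a))
  exact ((Nat.Prime.dvd_mul p.prime).1 h1).elim (hMp p) (step_not_dvd_sz hp)

end Vale.Agent.P042U
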