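import Vale.Agent.P042U.Step

/-! One step of the recursion, continued. -/

namespace Vale.Agent.P042U

open Finset Polynomial
open scoped BigOperators

variable {N : Type} [Fintype N] [DecidableEq N] [Nonempty N] {h : ℤ[X]} {g : ℕ → ℤ[X]}
  {lam r : ℕ → ℕ} {e w₀ w D : ℕ} {η φ : ℕ → ℝ} {C γ : ℝ}

theorem step_u_ne_v : (u₀ : N → Fin 6) ≠ v₀ := fun h => by
  have := congrFun h (Classical.arbitrary N)
  simp [u₀, v₀] at this

/-- the function on a piece -/
noncomputable def pc (w D : ℕ) (A : Set ℕ) (n L : ℕ) (i : ℕ × ℕ) : (∀ p, Om w D p) → ℝ :=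
  push w D (fun s => ind A (st n L i + L * s)) (ln n L i) (st n L i) L

/-- the error term -/
noncomputable def err (m : ℕ) (γ R D ε : ℝ) : ℝ :=
  3 * m * CT m * R ^ (-γ) + (2 * R) ^ (m ^ 2 + 3 * m) * (m * CT m * D ^ (-γ) + ε)

theorem Setup.fibres (hS : Setup N g w D η φ C γ) (hF : Fam h g lam r e w₀) {d M n : ℕ}
    (hd : 1 ≤ d) (hM : 1 ≤ M) (hMp : ∀ p : PI w D, ¬ p.1 ∣ M) {A : Set ℕ} (hA : Free (g d) A)
    {R b : ℝ} (hb0 : 0 ≤ b) (S : Finset (PI w D)) (hn : 8 * lam M * lam (sz (Om w D) S) ≤ n)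
    (hb : ∀ n', n ≤ 8 * lam M * lam (sz (Om w D) S) * n' → ∀ A',
      Free (g (d * (M * sz (Om w D) S))) A' →
      val N w D η R (g (d * (M * sz (Om w D) S))) (ind A') n' ≤ b)
    (j : (N → Fin 6) → ℕ × ℕ) (hj : ∀ v, n ≤ 4 * lam M * ln n (lam M) (j v))
    (z : (N → Fin 6) → ∀ p, Om w D p) :
    |Form (omg N w D η (g d)) fun v => fib S R (pc w D A n (lam M) (j v)) (z v)| ≤
      2 ^ Fintype.card (N → Fin 6) * b := by
  have hq := step_sz_pos S
  set q := sz (Om w D) S with hqe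
  have hL : 1 ≤ lam M := Nat.pos_of_dvd_of_pos (hF.dvd _ hM).2 (Nat.pow_pos hM)
  have hL' : 1 ≤ lam q := Nat.pos_of_dvd_of_pos (hF.dvd _ hq).2 (Nat.pow_pos hq)
  have key := fun v => fib_push (fun s => ind A (st n (lam M) (j v) + lam M * s))
    (n := ln n (lam M) (j v)) (L := lam q) (st n (lam M) (j v)) (b := lam M)
    (fun p => (step_not_dvd hF hM p.prime (hMp p)).1) S (hF.dvd _ hq).1 hL'
    (by have := hj v; nlinarith) R (z v)
  choose c l hc0 hc1 hl he using key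
  simp only [pc, he]
  refine chess_convex (fun p => (hS.ok d hd p).rp) (fun v i _ => hc0 v i) hc1 hb0 fun v i hi => ?_
  have h1 := hS.piece hF hd hM hMp S hA R (st n (lam M) (j v) + lam M * i) (l v i) (b := b)
    (hb _ (by have := hj v; have := (hl v i (mem_range.1 hi)).1; nlinarith))
  rw [← hqe, hF.mul M q hM hq] at h1
  convert h1 using 6
  · ring_nf
  · push_cast; ring
  · push_cast; ring

theorem Setup.step (hS : Setup N g w D η φ C γ) (hF : Fam h g lam r e w₀) {d M n c : ℕ}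
    (hd : 1 ≤ d) (hM : 1 ≤ M) (hMp : ∀ p : PI w D, ¬ p.1 ∣ M) {A : Set ℕ} (hA : Free (g d) A)
    {R b ε : ℝ} (hR : 1 ≤ R) (hD : R ^ Fintype.card (N → Fin 6) ≤ D) (hn : 24 * lam M ≤ n)
    (hn2 : 8 * lam M * D ^ 5 ≤ n) (hb0 : 0 ≤ b) (hε : 0 ≤ ε)
    (hn3 : ∀ S, (sz (Om w D) S : ℝ) ≤ R → 8 * lam M * lam (sz (Om w D) S) ≤ n)
    (hb : ∀ S, (sz (Om w D) S : ℝ) ≤ R → ∀ n', n ≤ 8 * lam M * lam (sz (Om w D) S) * n' → ∀ A',
      Free (g (d * (M * sz (Om w D) S))) A' →
      val N w D η R (g (d * (M * sz (Om w D) S))) (ind A') n' ≤ sz (Om w D) S * b)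
    (hc : c < lam M)
    (harc : ∀ S : Finset (PI w D), (sz (Om w D) S : ℝ) ≤ R ^ Fintype.card (N → Fin 6) →
      ∀ z z' : ∀ p, Om w D p, (∀ p ∈ S, alpha (g d) p.1 (z' p - z p) ≠ 0) →
      |𝔼 x, 𝔼 y, pc w D A n (lam M) (0, 0) x * dl S x z * (pc w D A n (lam M) (2, c) y * dl S y z') *
        ker (fun p t => marg (ps (N := N) (alpha (g d) p.1) (η p.1)) u₀ v₀ t /
          𝔼 x, ps (N := N) (alpha (g d) p.1) (η p.1) x) Sᶜ D (y - x)| ≤ ε)
    (herr : err (Fintype.card (N → Fin 6)) γ R D ε ≤ 3 / 4 * b) :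
    val N w D η R (g d) (ind A) n ≤
      b - (3 / 4 * b - err (Fintype.card (N → Fin 6)) γ R D ε) / (16 * (lam M : ℝ) ^ 2) := by
  set L := lam M with hLe
  have hL : 1 ≤ L := Nat.pos_of_dvd_of_pos (hF.dvd _ hM).2 (Nat.pow_pos hM)
  obtain ⟨hp1, hp2, -⟩ := pieces hL hn
  have hn0 : (0 : ℝ) < n := by exact_mod_cast (by omega : 0 < n)
  have hL0 : (0 : ℝ) < L := by exact_mod_cast hL
  have hD1 : (1 : ℝ) ≤ D := (one_le_pow₀ hR).trans hD
  have e1 : val N w D η R (g d) (ind A) n = Form (omg N w D η (g d)) fun _ y =>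
      ∑ i ∈ range 3 ×ˢ range L, (ln n L i : ℝ) / n * part (low (Om w D) univ R) (pc w D A n L i) y := by
    unfold val
    congr 1
    funext _ y
    rw [← val_part_sum]
    congr 1
    funext x
    exact push_split _ hL hn x
  have ha : ((0, 0) : ℕ × ℕ) ∈ range 3 ×ˢ range L := by simp; omega
  have hb' : ((2, c) : ℕ × ℕ) ∈ range 3 ×ˢ range L := by simp; omega
  have hw : ∀ i ∈ range 3 ×ˢ range L, 1 / (4 * (L : ℝ)) ≤ (ln n L i : ℝ) / n := by
    intro i hi
    rw [div_le_div_iff₀ (by positivity) hn0]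
    have : (n : ℝ) ≤ 4 * L * ln n L i := by exact_mod_cast (hp2 i hi).1
    linarith
  rw [e1, form_sum]
  refine (step_weighted _ (fun i => (ln n L i : ℝ) / n) (fun i _ => by positivity) ?_ step_u_ne_v ha
    hb' _ (b₁ := b) (b₂ := b / 4 + err (Fintype.card (N → Fin 6)) γ R D ε) (by linarith)
    (fun j hj => ?_) fun j hj hu hv => ?_).trans ?_
  · rw [← sum_div, ← Nat.cast_sum, hp1, div_self hn0.ne']
  · obtain ⟨v, hv⟩ := chess (fun p => (hS.ok d hd p).rp)
      fun v => part (low (Om w D) univ R) (pc w D A n L (j v))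
    refine (le_abs_self _).trans (hv.trans ?_)
    have e0 : sz (Om w D) ∅ = 1 := rfl
    have h1 := hS.piece hF hd hM hMp ∅ hA R (st n L (j v)) (ln n L (j v)) (b := b) (by
      have h2 := hb ∅ (by simpa [e0] using hR) (ln n L (j v)) (by
        have := (hp2 _ (Fintype.mem_piFinset.1 hj v)).1
        have h3 : 1 ≤ lam (sz (Om w D) ∅) :=
          Nat.pos_of_dvd_of_pos (hF.dvd _ le_rfl).2 (Nat.pow_pos one_pos)
        nlinarith [Nat.mul_le_mul_left (8 * L * ln n L (j v)) h3])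
      simpa [e0] using h2)
    simpa [e0, pc] using h1
  · have hj' := fun v => hp2 _ (Fintype.mem_piFinset.1 hj v)
    have := model sz_inj (fun p => by have := p.lt; have := hS.w_ge; rw [card_Om]; omega) rfl
      hS.C_ge hS.γ_pos.le hS.γ_le (hS.ok d hd) hS.sum_le
      (μ := fun v => pc w D A n L (j v))
      (ν := fun v => push w D (fun _ => 1) (ln n L (j v)) (st n L (j v)) L)
      (δ := 8 * L * D ^ 4 / n) (Y := D ^ 4) (R := R) (D := D) (b := b) (ε := ε)
      (fun v x => abs_push_le (fun s => ind_le _ _) _ _ _ x)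
      (fun v => by
        have h1 := (hj' v).1
        have h2 : 1 ≤ ln n L (j v) := by
          rcases Nat.eq_zero_or_pos (ln n L (j v)) with h0 | h0
          · rw [h0] at h1; omega
          · exact h0
        refine (pr_push h2 _ (fun p => (step_not_dvd hF hM p.prime (hMp p)).1) _).val_mono ?_
        have h3 : (n : ℝ) ≤ 4 * L * ln n L (j v) := by exact_mod_cast h1
        have h4 : (0 : ℝ) < ln n L (j v) := by exact_mod_cast h2
        rw [div_le_div_iff₀ h4 hn0]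
        have : (0 : ℝ) ≤ D ^ 4 := by positivity
        nlinarith)
      hR hD le_rfl (by positivity) (by
        rw [div_mul_eq_mul_div, div_le_one hn0]
        have : ((8 * L * D ^ 5 : ℕ) : ℝ) ≤ n := by exact_mod_cast hn2
        push_cast at this
        linarith) hb0 hε
      (fun S _ hSR z => by
        rw [mul_assoc]
        exact hS.fibres hF hd hM hMp hA (by positivity) S (hn3 S hSR) (hb S hSR) j
          (fun v => (hj' v).1) z)
      (fun S hSR z z' hz => by rw [hu, hv]; exact harc S hSR z z' hz)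
    unfold err
    linarith
  · have h1 := hw _ ha
    have h2 := hw _ hb'
    have h3 : 1 / (16 * (L : ℝ) ^ 2) ≤ (ln n L (0, 0) : ℝ) / n * ((ln n L (2, c) : ℝ) / n) := by
      calc 1 / (16 * (L : ℝ) ^ 2) = 1 / (4 * (L : ℝ)) * (1 / (4 * (L : ℝ))) := by field_simp; ring
        _ ≤ _ := by gcongr
    have h4 : 0 ≤ 3 / 4 * b - err (Fintype.card (N → Fin 6)) γ R D ε := by linarith
    have := mul_le_mul_of_nonneg_right h3 h4
    rw [div_eq_mul_one_div _ (16 * (L : ℝ) ^ 2)]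
    nlinarith

end Vale.Agent.P042U
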