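import Vale.Agent.P042U.Finner
import Vale.Agent.P042U.Flat

/-! Auxiliary inequalities for the tail bound. -/

namespace Vale.Agent.P042U

open Finset
open scoped BigOperators

theorem tailJensen {X : Type} [Fintype X] [Nonempty X] (f : X → ℝ) (hf : ∀ x, 0 ≤ f x) (n : ℕ) :
    (𝔼 x, f x) ^ n ≤ 𝔼 x, f x ^ n := by
  have hc : (0 : ℝ) < Fintype.card X := Nat.cast_pos.2 Fintype.card_pos
  have h := Real.pow_arith_mean_le_arith_mean_pow (univ : Finset X)
    (fun _ => (Fintype.card X : ℝ)⁻¹) f (fun _ _ => by positivity)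
    (by rw [Finset.sum_const, Finset.card_univ, nsmul_eq_mul, mul_inv_cancel₀ hc.ne'])
    (fun x _ => hf x) n
  rw [← Finset.mul_sum, ← Finset.mul_sum] at h
  rwa [Fintype.expect_eq_sum_div_card, Fintype.expect_eq_sum_div_card, div_eq_inv_mul,
    div_eq_inv_mul]

theorem tailProdSqrt {V : Type} [Fintype V] [Nonempty V] (X : V → ℝ) (hX : ∀ v, 0 ≤ X v) :
    ∏ v, √(X v) ≤ ∑ v, (1 + X v ^ Fintype.card V) := by
  obtain ⟨w, -, hw⟩ := Finset.exists_max_image univ X Finset.univ_nonempty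
  have h1 : ∏ v, √(X v) ≤ √(X w) ^ Fintype.card V := by
    rw [← Finset.card_univ, ← Finset.prod_const]
    exact Finset.prod_le_prod (fun _ _ => Real.sqrt_nonneg _)
      fun v hv => Real.sqrt_le_sqrt (hw v hv)
  have h2 : X w ^ Fintype.card V = (√(X w) ^ Fintype.card V) ^ 2 := by
    rw [← pow_mul, mul_comm, pow_mul, Real.sq_sqrt (hX w)]
  have h3 : √(X w) ^ Fintype.card V ≤ 1 + X w ^ Fintype.card V := by
    rw [h2]
    nlinarith [sq_nonneg (√(X w) ^ Fintype.card V - 1), sq_nonneg (√(X w) ^ Fintype.card V)]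
  exact h1.trans (h3.trans (Finset.single_le_sum (f := fun v => 1 + X v ^ Fintype.card V)
    (fun v _ => add_nonneg zero_le_one (pow_nonneg (hX v) _)) (Finset.mem_univ w)))

variable {ι : Type} [Fintype ι] [DecidableEq ι] {Ω : ι → Type} [∀ i, Fintype (Ω i)]
  [∀ i, DecidableEq (Ω i)] [∀ i, AddCommGroup (Ω i)] {V : Type} [Fintype V] [DecidableEq V]

/-- a product of couplings with uniform marginals has uniform marginals -/
theorem tailMarg {k : ∀ i, (V → Ω i) → ℝ} (v : V)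
    (hk : ∀ i (H : Ω i → ℝ), 𝔼 x, k i x * H (x v) = 𝔼 a, H a) (Ψ : (∀ i, Ω i) → ℝ) :
    𝔼 x : V → ∀ i, Ω i, (∏ i, k i fun w => x w i) * Ψ (x v) = 𝔼 z, Ψ z := by
  have hp : ∀ H : ∀ i, Ω i → ℝ, 𝔼 x : V → ∀ i, Ω i, (∏ i, k i fun w => x w i) * ∏ i, H i (x v i) =
      𝔼 z : ∀ i, Ω i, ∏ i, H i (z i) := by
    intro H
    rw [expect_prod_coord H, ← Finset.prod_congr rfl fun i _ => hk i (H i),
      ← expect_prod_coord (Ω := fun i => V → Ω i) fun i x => k i x * H i (x v)]
    refine Fintype.expect_equiv (Equiv.piComm fun (_ : V) (i : ι) => Ω i) _ _ fun x => ?_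
    rw [← Finset.prod_mul_distrib]
    rfl
  have hΨ : ∀ z, Ψ z = ∑ w : ∀ i, Ω i, Ψ w * ∏ i, if z i = w i then (1 : ℝ) else 0 := by
    intro z
    rw [Finset.sum_eq_single z]
    · simp
    · intro w _ hw
      obtain ⟨i, hi⟩ := Function.ne_iff.1 hw
      rw [Finset.prod_eq_zero (Finset.mem_univ i) (if_neg (Ne.symm hi)), mul_zero]
    · simp
  calc 𝔼 x : V → ∀ i, Ω i, (∏ i, k i fun w => x w i) * Ψ (x v)
      = 𝔼 x : V → ∀ i, Ω i, ∑ w : ∀ i, Ω i, Ψ w * ((∏ i, k i fun w => x w i) *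
          ∏ i, if x v i = w i then (1 : ℝ) else 0) := by
        refine Finset.expect_congr rfl fun x _ => ?_
        rw [hΨ (x v), Finset.mul_sum]
        exact Finset.sum_congr rfl fun w _ => by ring
    _ = ∑ w : ∀ i, Ω i, Ψ w * 𝔼 z : ∀ i, Ω i, ∏ i, if z i = w i then (1 : ℝ) else 0 := by
        rw [Finset.expect_sum_comm]
        refine Finset.sum_congr rfl fun w _ => ?_
        rw [← Finset.mul_expect, hp fun i a => if a = w i then (1 : ℝ) else 0]
    _ = 𝔼 z, Ψ z := by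
        simp only [Finset.mul_expect]
        rw [← Finset.expect_sum_comm]
        exact Finset.expect_congr rfl fun z _ => (hΨ z).symm

theorem tailMargP {cp : ∀ i, (V → Ω i) → ℝ} (v : V)
    (hk : ∀ i (H : Ω i → ℝ), 𝔼 x, cp i x * H (x v) = 𝔼 a, H a) (P : Finset ι)
    (Ψ : (∀ i, Ω i) → ℝ) :
    𝔼 x : V → ∀ i, Ω i, (∏ i ∈ P, cp i fun w => x w i) * Ψ (x v) = 𝔼 z, Ψ z := by
  have h1 : ∀ i (H : Ω i → ℝ), 𝔼 x : V → Ω i, H (x v) = 𝔼 a, H a := by
    intro i H
    rw [← Fintype.expect_equiv (Equiv.piSplitAt v fun _ : V => Ω i).symm (fun p => H p.1)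
      (fun x => H (x v)) fun p => by simp, ← Finset.univ_product_univ, Finset.expect_product]
    simp only [Fintype.expect_const]
  rw [← tailMarg (k := fun i x => if i ∈ P then cp i x else 1) v (fun i H => ?_) Ψ]
  · refine Finset.expect_congr rfl fun x _ => ?_
    rw [Finset.prod_ite_mem, Finset.univ_inter]
  · by_cases hi : i ∈ P
    · simp only [hi, if_true, hk]
    · simp only [hi, if_false, one_mul, h1]

omit [Fintype ι] [DecidableEq V] in
theorem tailWt {ξ : ι → ℝ} (hξ : ∀ i, 0 ≤ ξ i ∧ ξ i ≤ 1) {l g : ℝ} (hl0 : 0 ≤ l) (hl : l ≤ 1)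
    (T : V → Finset ι) (v₁ : V) (hg : ∏ i ∈ T v₁, ξ i ≤ g) :
    ∏ i ∈ univ.biUnion T, (l ^ Fintype.card V * ξ i) ≤ g * ∏ v, l ^ (T v).card := by
  have hs : ∀ v, T v ⊆ univ.biUnion T := fun v => Finset.subset_biUnion_of_mem T (mem_univ v)
  have h1 : ∏ i ∈ univ.biUnion T, ξ i ≤ g :=
    (Finset.prod_le_prod_of_subset_of_le_one (hs v₁) (fun i _ => (hξ i).1)
      fun i _ _ => (hξ i).2).trans hg
  have h2 : (l ^ Fintype.card V) ^ (univ.biUnion T).card ≤ ∏ v, l ^ (T v).card := by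
    rw [← pow_mul, mul_comm, pow_mul, ← Finset.card_univ, ← Finset.prod_const]
    exact Finset.prod_le_prod (fun _ _ => by positivity)
      fun v _ => pow_le_pow_of_le_one hl0 hl (Finset.card_le_card (hs v))
  rw [Finset.prod_mul_distrib, Finset.prod_const, mul_comm]
  exact mul_le_mul h1 h2 (by positivity)
    ((Finset.prod_nonneg fun i _ => (hξ i).1).trans h1)

open Classical in
/-- the Finner inequality on a product of families -/
theorem tailFinner (Q : V → Finset (Finset ι)) (s : V → Finset ι → ℝ) (hs : ∀ v T, 0 ≤ s v T) :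
    ∑ T ∈ Fintype.piFinset Q with Dbl T, ∏ v, s v (T v) ≤
      ∏ v, √(∑ T ∈ Q v, (3 * 2 ^ Fintype.card V) ^ T.card * s v T ^ 2) := by
  have h := finner (fun v T => if T ∈ Q v then s v T else 0) fun v T => by
    split_ifs
    · exact hs v T
    · exact le_rfl
  refine le_trans ?_ (h.trans (le_of_eq ?_))
  · calc ∑ T ∈ Fintype.piFinset Q with Dbl T, ∏ v, s v (T v)
        = ∑ T ∈ Fintype.piFinset Q with Dbl T, ∏ v, if T v ∈ Q v then s v (T v) else 0 := by
          refine Finset.sum_congr rfl fun T hT => Finset.prod_congr rfl fun v _ => ?_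
          rw [if_pos (Fintype.mem_piFinset.1 (Finset.mem_filter.1 hT).1 v)]
      _ ≤ _ := by
          refine Finset.sum_le_sum_of_subset_of_nonneg
            (Finset.filter_subset_filter _ (Finset.subset_univ _)) fun T _ _ => ?_
          refine Finset.prod_nonneg fun v _ => ?_
          split_ifs
          · exact hs v _
          · exact le_rfl
  · refine Finset.prod_congr rfl fun v _ => congrArg _ ?_
    rw [← Finset.sum_subset (Finset.subset_univ (Q v)) fun T _ hT => by simp [hT]]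
    exact Finset.sum_congr rfl fun T hT => by rw [if_pos hT]

/-- terms that are not doubly covered vanish -/
theorem tailZero {k : ∀ i, (V → Ω i) → ℝ} (hk : ∀ i x c, k i (fun v => x v + c) = k i x)
    (μ : V → (∀ i, Ω i) → ℝ) {T : V → Finset ι} (hT : ¬ Dbl T) :
    Form k (fun v => ES (T v) (μ v)) = 0 := by
  unfold Dbl at hT
  push Not at hT
  obtain ⟨v, i, hi, hw⟩ := hT
  refine form_zero (u := v) (hk i) (fun y => ES_zero (μ v) hi y) fun w hwv y a => ?_
  refine ES_dep (T w) (μ w) _ _ fun j hj => Function.update_of_ne ?_ _ _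
  rintro rfl
  exact hw w hwv hj

/-- the moment bound for the partially resampled square function -/
theorem tailMom (hinj : Function.Injective (sz Ω)) {μ ν : (∀ i, Ω i) → ℝ} {I : Finset ι}
    {Q : Finset (Finset ι)} {δ Y R : ℝ} (hμ : ∀ x, |μ x| ≤ ν x) (h : PR ν I δ Y)
    (hQ : Q ⊆ low Ω I R) (hR : 1 ≤ R) (hY : R ^ 3 ≤ Y) (hδ0 : 0 ≤ δ) (hδ : δ * R ≤ 1) (j : ℕ)
    {l : ℝ} (hl0 : 0 ≤ l) (hl : 4 * 2 ^ j * l ≤ 1) (P : Finset ι) :
    𝔼 z, (∑ T ∈ Q, l ^ T.card * 𝔼 y, ES T μ (P.piecewise z y) ^ 2) ^ j ≤ 4 ^ j := by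
  refine le_trans ?_ (sq_moment hinj hμ h hR hY hδ0 hδ j hl0 hl)
  rw [expect_piecewise P fun y => (∑ T ∈ low Ω I R, l ^ T.card * ES T μ y ^ 2) ^ j]
  refine Finset.expect_le_expect fun z _ => le_trans ?_ (tailJensen _ (fun y =>
    Finset.sum_nonneg fun T _ => by positivity) j)
  refine pow_le_pow_left₀ (Finset.sum_nonneg fun T _ => mul_nonneg (by positivity)
    (Finset.expect_nonneg fun _ _ => sq_nonneg _)) ?_ j
  rw [Finset.expect_sum_comm]
  simp only [← Finset.mul_expect]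
  exact Finset.sum_le_sum_of_subset_of_nonneg hQ fun T _ _ => mul_nonneg (by positivity)
    (Finset.expect_nonneg fun _ _ => sq_nonneg _)

end Vale.Agent.P042U
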