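import Vale.Agent.P042U.Finner
import Vale.Agent.P042U.Flat
import Vale.Agent.P042U.TailA

/-! The tail bound and the comparison with fibres (task E). -/

namespace Vale.Agent.P042U

open Finset
open scoped BigOperators

/-- constants of the tail bound -/
noncomputable def cT (m : ℕ) (C : ℝ) : ℝ := (1 / (4 * 2 ^ m)) ^ m / (2 * C)
noncomputable def CT (m : ℕ) : ℝ := m * (1 + 4 ^ m)

variable {ι : Type} [Fintype ι] [DecidableEq ι] {Ω : ι → Type} [∀ i, Fintype (Ω i)]
  [∀ i, DecidableEq (Ω i)] [∀ i, AddCommGroup (Ω i)] {V : Type} [Fintype V] [DecidableEq V]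

/-- multilinearity -/
theorem form_sum {κ : Type} [DecidableEq κ] (k : ∀ i, (V → Ω i) → ℝ) (s : V → Finset κ)
    (c : V → κ → ℝ) (H : V → κ → (∀ i, Ω i) → ℝ) :
    Form k (fun v y => ∑ j ∈ s v, c v j * H v j y) =
      ∑ j ∈ Fintype.piFinset s, (∏ v, c v (j v)) * Form k fun v => H v (j v) := by
  unfold Form
  simp only [Finset.prod_univ_sum, Finset.mul_sum, Finset.expect_sum_comm, Finset.mul_expect]
  refine Finset.sum_congr rfl fun j _ => Finset.expect_congr rfl fun x _ => ?_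
  rw [Finset.prod_mul_distrib]
  ring

theorem tail (hinj : Function.Injective (sz Ω)) {k k₀ cp : ∀ i, (V → Ω i) → ℝ} {C : ℝ}
    {ξ : ι → ℝ} (hC : 1 ≤ C) (hξ : ∀ i, 0 ≤ ξ i ∧ ξ i ≤ 1)
    (hk : ∀ i, Adm (k i) (k₀ i) (cp i) C ((cT (Fintype.card V) C * ξ i) ^ Fintype.card V))
    {μ ν : V → (∀ i, Ω i) → ℝ} {I : V → Finset ι} {Q : V → Finset (Finset ι)} {δ Y R g : ℝ}
    (hμ : ∀ v x, |μ v x| ≤ ν v x) (hν : ∀ v, PR (ν v) (I v) δ Y) (hQ : ∀ v, Q v ⊆ low Ω (I v) R)
    (hR : 1 ≤ R) (hY : R ^ 3 ≤ Y) (hδ0 : 0 ≤ δ) (hδ : δ * R ≤ 1) (v₁ : V) (hg0 : 0 ≤ g)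
    (hg : ∀ T ∈ Q v₁, ∏ i ∈ T, ξ i ≤ g) :
    |Form k fun v => part (Q v) (μ v)| ≤ CT (Fintype.card V) * g := by
  classical
  have : Nonempty V := ⟨v₁⟩
  set m := Fintype.card V with hm
  set l : ℝ := 1 / (4 * 2 ^ m) with hl
  have hl0 : 0 ≤ l := by positivity
  have h2m : (1 : ℝ) ≤ 2 ^ m := one_le_pow₀ (by norm_num)
  have hl1 : l ≤ 1 := by
    rw [hl, div_le_one (by positivity)]
    linarith
  have hθ : ∀ i, 2 * C * (cT m C * ξ i) = l ^ m * ξ i := by
    intro i
    have : C ≠ 0 := by positivity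
    rw [cT, ← hl]
    field_simp
  have hθ1 : ∀ i, 0 ≤ cT m C * ξ i ∧ cT m C * ξ i ≤ 1 := by
    intro i
    have h0 : 0 ≤ cT m C * ξ i := mul_nonneg (by unfold cT; positivity) (hξ i).1
    refine ⟨h0, ?_⟩
    have h1 : l ^ m * ξ i ≤ 1 := mul_le_one₀ (pow_le_one₀ hl0 hl1) (hξ i).1 (hξ i).2
    rw [← hθ] at h1
    nlinarith
  set s : Finset ι → (V → ∀ i, Ω i) → V → Finset ι → ℝ := fun P x v T =>
    l ^ T.card * √(𝔼 y, ES T (μ v) (P.piecewise (x v) y) ^ 2) with hs
  have hs0 : ∀ P x v T, 0 ≤ s P x v T := fun P x v T => by positivity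
  have hcp : ∀ (P : Finset ι) (x : V → ∀ i, Ω i), 0 ≤ ∏ i ∈ P, cp i fun v => x v i :=
    fun P x => Finset.prod_nonneg fun i _ => (hk i).cp_nonneg _
  have e1 : Form k (fun v => part (Q v) (μ v)) =
      ∑ T ∈ Fintype.piFinset Q with Dbl T, Form k fun v => ES (T v) (μ v) := by
    have h := form_sum k Q (fun _ _ => 1) fun v T => ES T (μ v)
    simp only [one_mul, Finset.prod_const_one] at h
    rw [Finset.sum_filter_of_ne fun T _ hT => by
      by_contra h
      exact hT (tailZero (fun i => (hk i).transl) μ h), ← h]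
    rfl
  have e2 : ∀ T ∈ (Fintype.piFinset Q).filter Dbl, |Form k fun v => ES (T v) (μ v)| ≤
      g * 𝔼 P : Finset ι, 𝔼 x : V → ∀ i, Ω i,
        (∏ i ∈ P, cp i fun v => x v i) * ∏ v, s P x v (T v) := by
    intro T hT
    have hT' := Fintype.mem_piFinset.1 (Finset.mem_filter.1 hT).1
    refine (term_bound hC hθ1 hk (fun v => ES_dep (T v) (μ v))
      fun v i hi y => ES_zero (μ v) hi y).trans ?_
    simp only [hθ]
    refine (mul_le_mul_of_nonneg_right (tailWt hξ hl0 hl1 T v₁ (hg _ (hT' v₁)))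
      (Finset.expect_nonneg fun P _ => Finset.expect_nonneg fun x _ =>
        mul_nonneg (hcp P x) (Finset.prod_nonneg fun v _ => Real.sqrt_nonneg _))).trans
      (le_of_eq ?_)
    rw [mul_assoc, Finset.mul_expect]
    refine congrArg _ (Finset.expect_congr rfl fun P _ => ?_)
    rw [Finset.mul_expect]
    refine Finset.expect_congr rfl fun x _ => ?_
    simp only [hs, Finset.prod_mul_distrib]
    ring
  set L : ℝ := 3 * 2 ^ m * l ^ 2 with hL
  have hL0 : 0 ≤ L := by positivity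
  have hL1 : 4 * 2 ^ m * L ≤ 1 := by
    have : 4 * 2 ^ m * L = 3 / 4 := by
      rw [hL, hl]
      field_simp
    linarith
  set X : Finset ι → V → (∀ i, Ω i) → ℝ := fun P v z =>
    ∑ T ∈ Q v, L ^ T.card * 𝔼 y, ES T (μ v) (P.piecewise z y) ^ 2 with hX
  have e3 : ∀ (P : Finset ι) (x : V → ∀ i, Ω i),
      ∑ T ∈ Fintype.piFinset Q with Dbl T, ∏ v, s P x v (T v) ≤ ∑ v, (1 + X P v (x v) ^ m) := by
    intro P x
    refine (tailFinner Q (s P x) (hs0 P x)).trans (le_trans (le_of_eq ?_)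
      (tailProdSqrt (fun v => X P v (x v)) fun v => Finset.sum_nonneg fun T _ =>
        mul_nonneg (by positivity) (Finset.expect_nonneg fun _ _ => sq_nonneg _)))
    refine Finset.prod_congr rfl fun v _ => congrArg _ (Finset.sum_congr rfl fun T _ => ?_)
    simp only [hs]
    rw [mul_pow (l ^ T.card), Real.sq_sqrt (Finset.expect_nonneg fun _ _ => sq_nonneg _), hL,
      mul_pow _ (l ^ 2), ← pow_mul l 2, ← pow_mul l, mul_comm 2 T.card, mul_assoc]
  have e4 : ∀ P : Finset ι, 𝔼 x : V → ∀ i, Ω i, (∏ i ∈ P, cp i fun v => x v i) *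
      ∑ v, (1 + X P v (x v) ^ m) ≤ CT m := by
    intro P
    simp only [Finset.mul_sum, Finset.expect_sum_comm]
    calc _ ≤ ∑ _v : V, ((1 : ℝ) + 4 ^ m) := by
          refine Finset.sum_le_sum fun v _ => ?_
          rw [tailMargP v (fun i => (hk i).cp_marg v) P fun z => 1 + X P v z ^ m,
            Finset.expect_add_distrib, Fintype.expect_const]
          exact add_le_add le_rfl
            (tailMom hinj (hμ v) (hν v) (hQ v) hR hY hδ0 hδ m hL0 hL1 P)
      _ = CT m := by rw [Finset.sum_const, Finset.card_univ, nsmul_eq_mul, CT]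
  rw [e1]
  refine (Finset.abs_sum_le_sum_abs _ _).trans ((Finset.sum_le_sum e2).trans ?_)
  rw [← Finset.mul_sum, mul_comm]
  refine mul_le_mul_of_nonneg_right ?_ hg0
  rw [← Finset.expect_sum_comm]
  refine Finset.expect_le Finset.univ_nonempty fun P _ => le_trans ?_ (e4 P)
  rw [← Finset.expect_sum_comm]
  refine Finset.expect_le_expect fun x _ => ?_
  rw [← Finset.mul_sum]
  exact mul_le_mul_of_nonneg_left (e3 P x) (hcp P x)

/-- a combination of the fibre components over the subsets of `S` -/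
noncomputable def tailF (S : Finset ι) (R : ℝ) (Q : Finset ι → Finset (Finset ι))
    (μ : (∀ i, Ω i) → ℝ) (z y : ∀ i, Ω i) : ℝ :=
  ∑ d ∈ low Ω S R, 2 ^ d.card * part (Q d) (fun x => μ x * cc d x z / 2 ^ d.card) y

omit [Fintype ι] [DecidableEq ι] [∀ i, DecidableEq (Ω i)] in
theorem tailSzPos (T : Finset ι) : (1 : ℝ) ≤ sz Ω T :=
  Nat.one_le_cast.2 (Finset.prod_pos fun _ _ => Fintype.card_pos)

omit [Fintype ι] [∀ i, DecidableEq (Ω i)] [∀ i, AddCommGroup (Ω i)] in
theorem tailSzUnion {d T : Finset ι} (h : Disjoint d T) :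
    (sz Ω (d ∪ T) : ℝ) = sz Ω d * sz Ω T := by
  rw [← Nat.cast_mul, sz, Finset.prod_union h]
  rfl

omit [Fintype ι] [DecidableEq ι] [∀ i, DecidableEq (Ω i)] in
theorem tailSzMono {d T : Finset ι} (h : d ⊆ T) : (sz Ω d : ℝ) ≤ sz Ω T :=
  Nat.cast_le.2 (Finset.prod_le_prod_of_subset_of_one_le' h fun _ _ _ => Fintype.card_pos)

omit [∀ i, AddCommGroup (Ω i)] in
theorem tailES (T d : Finset ι) (μ : (∀ i, Ω i) → ℝ) (z y : ∀ i, Ω i) :
    2 ^ d.card * ES T (fun x => μ x * cc d x z / 2 ^ d.card) y =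
      ES T (fun x => μ x * cc d x z) y := by
  unfold ES
  rw [Finset.mul_expect]
  refine Finset.expect_congr rfl fun x _ => ?_
  field_simp

theorem tailGen (hinj : Function.Injective (sz Ω)) {k k₀ cp : ∀ i, (V → Ω i) → ℝ} {C : ℝ}
    {ξ : ι → ℝ} (hC : 1 ≤ C) (hξ : ∀ i, 0 ≤ ξ i ∧ ξ i ≤ 1)
    (hk : ∀ i, Adm (k i) (k₀ i) (cp i) C ((cT (Fintype.card V) C * ξ i) ^ Fintype.card V))
    {μ ν : V → (∀ i, Ω i) → ℝ} {δ Y R g : ℝ} (hμ : ∀ v x, |μ v x| ≤ ν v x)
    (hν : ∀ v, PR (ν v) univ δ Y) (hR : 1 ≤ R) (hY : R ^ 4 ≤ Y) (hδ0 : 0 ≤ δ) (hδ : δ * R ≤ 1)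
    (S : Finset ι) (z : V → ∀ i, Ω i) {Q : V → Finset ι → Finset (Finset ι)}
    (hQ : ∀ v d, Q v d ⊆ low Ω Sᶜ R) (v₁ : V) (hg0 : 0 ≤ g)
    (hg : ∀ d ∈ low Ω S R, ∀ T ∈ Q v₁ d, ∏ i ∈ T, ξ i ≤ g) :
    |Form k fun v => tailF S R (Q v) (μ v) (z v)| ≤
      3 ^ (Fintype.card V * S.card) * (CT (Fintype.card V) * g) := by
  have h := form_sum k (fun _ => low Ω S R) (fun _ d => 2 ^ d.card)
    fun v d => part (Q v d) fun x => μ v x * cc d x (z v) / 2 ^ d.card
  have hb : ∀ d ∈ Fintype.piFinset fun _ : V => low Ω S R,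
      |(∏ v, (2 : ℝ) ^ (d v).card) * Form k fun v =>
        part (Q v (d v)) fun x => μ v x * cc (d v) x (z v) / 2 ^ (d v).card| ≤
      (∏ v, (2 : ℝ) ^ (d v).card) * (CT (Fintype.card V) * g) := by
    intro d hd
    have hd' := fun v => Finset.mem_filter.1 (Fintype.mem_piFinset.1 hd v)
    have h0 : 0 ≤ ∏ v, (2 : ℝ) ^ (d v).card := Finset.prod_nonneg fun _ _ => by positivity
    rw [abs_mul, abs_of_nonneg h0]
    refine mul_le_mul_of_nonneg_left (tail hinj hC hξ hk (I := fun _ => Sᶜ) (Y := R ^ 3)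
      (fun v x => ?_) (fun v => (hν v).fibre (Finset.subset_univ (d v)) (Finset.subset_univ _)
        ?_ ?_ (z v)) (fun v => hQ v (d v)) hR le_rfl hδ0 hδ v₁ hg0
      (hg _ (Fintype.mem_piFinset.1 hd v₁))) h0
    · rw [abs_div, abs_mul, abs_of_pos (show (0 : ℝ) < 2 ^ (d v).card by positivity)]
      refine div_le_div_of_nonneg_right (mul_le_mul (hμ v x) ?_ (abs_nonneg _)
        ((hν v).nonneg x)) (by positivity)
      rw [cc, Finset.abs_prod]
      refine Finset.prod_le_prod (fun _ _ => abs_nonneg _) fun i _ => ?_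
      have : (0 : ℝ) ≤ if x i = z v i then (Fintype.card (Ω i) : ℝ) else 0 := by positivity
      rw [abs_le]
      constructor <;> linarith
    · exact Finset.disjoint_of_subset_left (Finset.mem_powerset.1 (hd' v).1) disjoint_compl_right
    · refine le_trans ?_ hY
      rw [pow_succ R 3]
      exact mul_le_mul_of_nonneg_left (hd' v).2 (by positivity)
  have hs : ∑ d ∈ low Ω S R, (2 : ℝ) ^ d.card ≤ 3 ^ S.card := by
    calc _ ≤ ∑ d ∈ S.powerset, (2 : ℝ) ^ d.card :=
          Finset.sum_le_sum_of_subset_of_nonneg (Finset.filter_subset _ _)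
            fun _ _ _ => by positivity
      _ = ∏ _i ∈ S, ((2 : ℝ) + 1) := by
          rw [Finset.prod_add_one]
          exact Finset.sum_congr rfl fun d _ => (Finset.prod_const _).symm
      _ = 3 ^ S.card := by rw [Finset.prod_const]; norm_num
  refine (le_of_eq (congrArg _ h)).trans ((Finset.abs_sum_le_sum_abs _ _).trans
    ((Finset.sum_le_sum hb).trans ?_))
  rw [← Finset.sum_mul, ← Finset.prod_univ_sum (fun _ : V => low Ω S R) fun _ d => (2 : ℝ) ^ d.card,
    Finset.prod_const, Finset.card_univ, mul_comm (Fintype.card V), pow_mul]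
  refine mul_le_mul_of_nonneg_right (pow_le_pow_left₀ (by positivity) hs _)
    (mul_nonneg ?_ hg0)
  unfold CT
  positivity

/-- the index sets for a restricted truncation -/
noncomputable def tailQ (Ω : ι → Type) [∀ i, Fintype (Ω i)] (S : Finset ι) (r : ℝ)
    (d : Finset ι) : Finset (Finset ι) :=
  Sᶜ.powerset.filter fun T => (sz Ω d : ℝ) * sz Ω T ≤ r

omit [∀ i, DecidableEq (Ω i)] in
theorem tailQsub (S : Finset ι) {r R : ℝ} (h : r ≤ R) (d : Finset ι) :
    tailQ Ω S r d ⊆ low Ω Sᶜ R := by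
  intro T hT
  obtain ⟨h1, h2⟩ := Finset.mem_filter.1 hT
  refine Finset.mem_filter.2 ⟨h1, le_trans ?_ (h2.trans h)⟩
  exact le_mul_of_one_le_left (Nat.cast_nonneg _) (tailSzPos d)

theorem tailPart (S : Finset ι) {r R : ℝ} (h : r ≤ R) (μ : (∀ i, Ω i) → ℝ) (z y : ∀ i, Ω i) :
    part (low Ω univ r) μ (S.piecewise z y) = tailF S R (tailQ Ω S r) μ z y := by
  unfold tailF part
  simp only [Finset.mul_sum, tailES, ES_piecewise]
  rw [Finset.sum_sigma']
  have hu : ∀ T : Finset ι, (sz Ω (T ∩ S) : ℝ) * sz Ω (T \ S) = sz Ω T := by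
    intro T
    rw [← tailSzUnion (Finset.disjoint_of_subset_left Finset.inter_subset_right
      Finset.disjoint_sdiff), Finset.union_comm, Finset.sdiff_union_inter]
  refine Finset.sum_nbij' (fun T => ⟨T ∩ S, T \ S⟩) (fun p => p.1 ∪ p.2) ?_ ?_ ?_ ?_
    fun T _ => rfl
  · intro T hT
    have hT' : (sz Ω T : ℝ) ≤ r := (Finset.mem_filter.1 hT).2
    refine Finset.mem_sigma.2 ⟨Finset.mem_filter.2 ⟨Finset.mem_powerset.2
      Finset.inter_subset_right, (tailSzMono Finset.inter_subset_left).trans (hT'.trans h)⟩,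
      Finset.mem_filter.2 ⟨Finset.mem_powerset.2 fun i hi =>
        Finset.mem_compl.2 (Finset.mem_sdiff.1 hi).2, ?_⟩⟩
    exact (hu T).le.trans hT'
  · rintro ⟨d, T⟩ hp
    obtain ⟨h1, h2⟩ := Finset.mem_sigma.1 hp
    have h3 : d ⊆ S := Finset.mem_powerset.1 (Finset.mem_filter.1 h1).1
    have h4 : T ⊆ Sᶜ := Finset.mem_powerset.1 (Finset.mem_filter.1 h2).1
    refine Finset.mem_filter.2 ⟨Finset.mem_powerset.2 (Finset.subset_univ _), ?_⟩
    rw [tailSzUnion (Finset.disjoint_of_subset_left h3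
      (Finset.disjoint_of_subset_right h4 disjoint_compl_right))]
    exact (Finset.mem_filter.1 h2).2
  · intro T _
    exact (Finset.union_comm _ _).trans (Finset.sdiff_union_inter T S)
  · rintro ⟨d, T⟩ hp
    obtain ⟨h1, h2⟩ := Finset.mem_sigma.1 hp
    have h3 : d ⊆ S := Finset.mem_powerset.1 (Finset.mem_filter.1 h1).1
    have h4 : T ⊆ Sᶜ := Finset.mem_powerset.1 (Finset.mem_filter.1 h2).1
    have h5 : ∀ i, i ∈ d → i ∈ S := fun i hi => h3 hi
    have h6 : ∀ i, i ∈ T → i ∉ S := fun i hi => Finset.mem_compl.1 (h4 hi)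
    have e1 : (d ∪ T) ∩ S = d := by
      ext i
      simp only [Finset.mem_inter, Finset.mem_union]
      have := h5 i
      have := h6 i
      tauto
    have e2 : (d ∪ T) \ S = T := by
      ext i
      simp only [Finset.mem_sdiff, Finset.mem_union]
      have := h5 i
      have := h6 i
      tauto
    simp only [e1, e2]

theorem tailFib {S : Finset ι} {R : ℝ} (h : (sz Ω S : ℝ) ≤ R) (r : ℝ) (μ : (∀ i, Ω i) → ℝ)
    (z : ∀ i, Ω i) : fib S r μ z = tailF S R (fun _ => low Ω Sᶜ r) μ z := by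
  funext y
  have hl : low Ω S R = S.powerset :=
    Finset.filter_true_of_mem fun d hd => (tailSzMono (Finset.mem_powerset.1 hd)).trans h
  unfold tailF fib part
  simp only [Finset.mul_sum, tailES]
  rw [hl, Finset.sum_comm]
  refine Finset.sum_congr rfl fun T _ => ?_
  unfold ES
  rw [← Finset.expect_sum_comm]
  refine Finset.expect_congr rfl fun x _ => ?_
  simp only [dl_eq_sum, Finset.mul_sum, Finset.sum_mul]

omit [∀ i, AddCommGroup (Ω i)] in
theorem tailFdiff (S : Finset ι) (R : ℝ) {Q Q' : Finset ι → Finset (Finset ι)}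
    (h : ∀ d, Q d ⊆ Q' d) (μ : (∀ i, Ω i) → ℝ) (z y : ∀ i, Ω i) :
    tailF S R Q' μ z y = tailF S R Q μ z y + tailF S R (fun d => Q' d \ Q d) μ z y := by
  unfold tailF part
  rw [← Finset.sum_add_distrib]
  refine Finset.sum_congr rfl fun d _ => ?_
  rw [← Finset.sum_sdiff (h d)]
  ring

omit [∀ i, DecidableEq (Ω i)] [∀ i, AddCommGroup (Ω i)] in
theorem tailAdd (k : ∀ i, (V → Ω i) → ℝ) {H₁ H₂ H₃ : V → (∀ i, Ω i) → ℝ} (u : V)
    (h2 : ∀ v, v ≠ u → H₂ v = H₁ v) (h3 : ∀ v, v ≠ u → H₃ v = H₁ v)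
    (hu : ∀ y, H₁ u y = H₂ u y + H₃ u y) : Form k H₁ = Form k H₂ + Form k H₃ := by
  unfold Form
  rw [← Finset.expect_add_distrib]
  refine Finset.expect_congr rfl fun x _ => ?_
  rw [← Finset.mul_prod_erase univ (fun v => H₁ v (x v)) (mem_univ u),
    ← Finset.mul_prod_erase univ (fun v => H₂ v (x v)) (mem_univ u),
    ← Finset.mul_prod_erase univ (fun v => H₃ v (x v)) (mem_univ u), hu,
    Finset.prod_congr rfl fun v hv => congrFun (h2 v (Finset.ne_of_mem_erase hv)) (x v),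
    Finset.prod_congr rfl fun v hv => congrFun (h3 v (Finset.ne_of_mem_erase hv)) (x v)]
  ring

omit [Fintype ι] [DecidableEq ι] [∀ i, DecidableEq (Ω i)] in
theorem tailXi {γ : ℝ} (hγ : 0 ≤ γ) (i : ι) :
    0 ≤ (Fintype.card (Ω i) : ℝ) ^ (-γ) ∧ (Fintype.card (Ω i) : ℝ) ^ (-γ) ≤ 1 :=
  ⟨by positivity, Real.rpow_le_one_of_one_le_of_nonpos (Nat.one_le_cast.2 Fintype.card_pos)
    (neg_nonpos.2 hγ)⟩

theorem fib_total (hinj : Function.Injective (sz Ω)) {k k₀ cp : ∀ i, (V → Ω i) → ℝ} {C γ : ℝ}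
    (hC : 1 ≤ C) (hγ : 0 ≤ γ) [Nonempty V]
    (hk : ∀ i, Adm (k i) (k₀ i) (cp i) C
      ((cT (Fintype.card V) C * (Fintype.card (Ω i) : ℝ) ^ (-γ)) ^ Fintype.card V))
    {μ ν : V → (∀ i, Ω i) → ℝ} {r : V → ℝ} {δ Y R' : ℝ}
    (hμ : ∀ v x, |μ v x| ≤ ν v x) (hν : ∀ v, PR (ν v) univ δ Y) (hr : ∀ v, r v ≤ R')
    (hR : 1 ≤ R') (hY : R' ^ 4 ≤ Y) (hδ0 : 0 ≤ δ) (hδ : δ * R' ≤ 1) (S : Finset ι)
    (z : V → ∀ i, Ω i) :
    |Form k fun v y => part (low Ω univ (r v)) (μ v) (S.piecewise (z v) y)| ≤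
      3 ^ (Fintype.card V * S.card) * CT (Fintype.card V) := by
  obtain ⟨v₁⟩ := ‹Nonempty V›
  have h := tailGen hinj hC (tailXi hγ) hk hμ hν hR hY hδ0 hδ S z
    (fun v d => tailQsub S (hr v) d) v₁ zero_le_one
    fun d _ T _ => Finset.prod_le_one (fun i _ => (tailXi hγ i).1) fun i _ => (tailXi hγ i).2
  rw [mul_one] at h
  refine le_of_eq_of_le (congrArg _ (congrArg _ ?_)) h
  funext v y
  exact tailPart S (hr v) (μ v) (z v) y

theorem fib_cmp (hinj : Function.Injective (sz Ω)) {k k₀ cp : ∀ i, (V → Ω i) → ℝ} {C γ : ℝ}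
    (hC : 1 ≤ C) (hγ : 0 ≤ γ)
    (hk : ∀ i, Adm (k i) (k₀ i) (cp i) C
      ((cT (Fintype.card V) C * (Fintype.card (Ω i) : ℝ) ^ (-γ)) ^ Fintype.card V))
    {μ ν : V → (∀ i, Ω i) → ℝ} {r : V → ℝ} {δ Y R R' : ℝ}
    (hμ : ∀ v x, |μ v x| ≤ ν v x) (hν : ∀ v, PR (ν v) univ δ Y) (hr : ∀ v, R ≤ r v ∧ r v ≤ R')
    (hR : 1 ≤ R) (hY : R' ^ 4 ≤ Y) (hδ0 : 0 ≤ δ) (hδ : δ * R' ≤ 1) {S : Finset ι}
    (hS : (sz Ω S : ℝ) ≤ R) (z : V → ∀ i, Ω i) :
    |(Form k fun v y => part (low Ω univ (r v)) (μ v) (S.piecewise (z v) y)) -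
      Form k fun v => fib S (r v) (μ v) (z v)| ≤
      Fintype.card V * 3 ^ (Fintype.card V * S.card) * CT (Fintype.card V) *
        (sz Ω S / R) ^ γ := by
  set E : ℝ := 3 ^ (Fintype.card V * S.card) * (CT (Fintype.card V) * (sz Ω S / R) ^ γ) with hE
  set Q : Finset V → V → Finset ι → Finset (Finset ι) := fun U v d =>
    if v ∈ U then low Ω Sᶜ (r v) else tailQ Ω S (r v) d with hQ
  have hR0 : 0 < R := by positivity
  have hlow : ∀ v, low Ω Sᶜ (r v) ⊆ low Ω Sᶜ R' := fun v T hT =>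
    Finset.mem_filter.2 ⟨(Finset.mem_filter.1 hT).1, (Finset.mem_filter.1 hT).2.trans (hr v).2⟩
  have hQs : ∀ U v d, Q U v d ⊆ low Ω Sᶜ R' := by
    intro U v d
    simp only [hQ]
    split_ifs
    · exact hlow v
    · exact tailQsub S (hr v).2 d
  have key : ∀ U : Finset V, |(Form k fun v => tailF S R' (Q ∅ v) (μ v) (z v)) -
      Form k fun v => tailF S R' (Q U v) (μ v) (z v)| ≤ U.card * E := by
    intro U
    induction U using Finset.induction_on with
    | empty => simp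
    | insert u U hu ih =>
      set Q' : V → Finset ι → Finset (Finset ι) := fun v d =>
        if v = u then low Ω Sᶜ (r u) \ tailQ Ω S (r u) d else Q U v d with hQ'
      have ha : (Form k fun v => tailF S R' (Q (insert u U) v) (μ v) (z v)) =
          (Form k fun v => tailF S R' (Q U v) (μ v) (z v)) +
            Form k fun v => tailF S R' (Q' v) (μ v) (z v) := by
        refine tailAdd k u (fun v hv => ?_) (fun v hv => ?_) fun y => ?_
        · simp only [hQ, Finset.mem_insert, hv, false_or]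
        · simp only [hQ', hQ, Finset.mem_insert, hv, false_or, if_false]
        · simp only [hQ', hQ, Finset.mem_insert_self, hu, if_true, if_false]
          exact tailFdiff S R' (fun d => tailQsub S le_rfl d) _ _ _
      have hb : |Form k fun v => tailF S R' (Q' v) (μ v) (z v)| ≤ E := by
        refine tailGen hinj hC (tailXi hγ) hk hμ hν (hR.trans ((hr u).1.trans (hr u).2)) hY hδ0 hδ
          S z (fun v d => ?_) u (by positivity) fun d hd T hT => ?_
        · simp only [hQ']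
          split_ifs
          · exact Finset.sdiff_subset.trans (hlow u)
          · exact hQs U v d
        · simp only [hQ', if_true] at hT
          obtain ⟨h1, h2⟩ := Finset.mem_sdiff.1 hT
          have h3 : r u < (sz Ω d : ℝ) * sz Ω T := not_le.1 fun h =>
            h2 (Finset.mem_filter.2 ⟨(Finset.mem_filter.1 h1).1, h⟩)
          have h4 : (sz Ω d : ℝ) ≤ sz Ω S :=
            tailSzMono (Finset.mem_powerset.1 (Finset.mem_filter.1 hd).1)
          have h5 : (0 : ℝ) < sz Ω T := zero_lt_one.trans_le (tailSzPos T)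
          rw [Real.finsetProd_rpow _ _ (fun _ _ => Nat.cast_nonneg _), ← Nat.cast_prod,
            Real.rpow_neg (Nat.cast_nonneg _), ← Real.inv_rpow (Nat.cast_nonneg _)]
          refine Real.rpow_le_rpow (by positivity) ?_ hγ
          change (sz Ω T : ℝ)⁻¹ ≤ _
          rw [inv_eq_one_div, div_le_div_iff₀ h5 hR0, one_mul]
          exact (hr u).1.trans (h3.le.trans (mul_le_mul_of_nonneg_right h4 h5.le))
      rw [ha, ← sub_sub, Finset.card_insert_of_notMem hu]
      refine (abs_sub _ _).trans ((add_le_add ih hb).trans (le_of_eq ?_))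
      push_cast
      ring
  have e1 : (fun v y => part (low Ω univ (r v)) (μ v) (S.piecewise (z v) y)) =
      fun v => tailF S R' (Q ∅ v) (μ v) (z v) := by
    funext v y
    simp only [hQ, Finset.notMem_empty, if_false]
    exact tailPart S (hr v).2 (μ v) (z v) y
  have e2 : (fun v => fib S (r v) (μ v) (z v)) = fun v => tailF S R' (Q univ v) (μ v) (z v) := by
    funext v
    simp only [hQ, Finset.mem_univ, if_true]
    exact tailFib (hS.trans ((hr v).1.trans (hr v).2)) (r v) (μ v) (z v)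
  rw [e1, e2]
  refine (key univ).trans (le_of_eq ?_)
  rw [Finset.card_univ, hE]
  ring

end Vale.Agent.P042U
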