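import Vale.Agent.P042U.Chess
import Vale.Agent.P042U.Loc
import Vale.Agent.P042U.Alpha
import Vale.Agent.P042U.Push

/-! The value of a set and its behaviour under passing to progressions. -/

namespace Vale.Agent.P042U

open Finset Polynomial
open scoped BigOperators

section General

variable {ι : Type} [Fintype ι] [DecidableEq ι] {Ω : ι → Type} [∀ i, Fintype (Ω i)]
  [∀ i, DecidableEq (Ω i)] [∀ i, AddCommGroup (Ω i)]

theorem val_part_dep {I : Finset ι} (R : ℝ) (μ : (∀ i, Ω i) → ℝ) :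
    DepOn I (part (low Ω I R) μ) := by
  intro x y hxy
  refine sum_congr rfl fun T hT => ES_dep T μ x y fun i hi => hxy i ?_
  exact mem_powerset.1 (mem_filter.1 hT).1 hi

theorem val_part_sum {κ : Type} (Q : Finset (Finset ι)) (s : Finset κ) (c : κ → ℝ)
    (μ : κ → (∀ i, Ω i) → ℝ) (y : ∀ i, Ω i) :
    part Q (fun x => ∑ j ∈ s, c j * μ j x) y = ∑ j ∈ s, c j * part Q (μ j) y := by
  simp only [part, ES, mul_sum, sum_mul, expect_sum_comm, mul_expect, mul_assoc]
  rw [sum_comm]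

theorem val_expect_part {R : ℝ} (hR : 1 ≤ R) (μ : (∀ i, Ω i) → ℝ) :
    𝔼 y, part (low Ω univ R) μ y = 𝔼 x, μ x := by
  have h0 : ∀ T : Finset ι, T ≠ ∅ → 𝔼 y, ES T μ y = 0 := by
    intro T hT
    obtain ⟨i, hi⟩ := nonempty_iff_ne_empty.2 hT
    have h1 : ∀ x : ∀ i, Ω i, 𝔼 y, cc T x y = 0 := by
      intro x
      have h2 := expect_prod_coord (Ω := Ω) fun j a =>
        if j ∈ T then (if x j = a then (Fintype.card (Ω j) : ℝ) else 0) - 1 else 1
      simp only [prod_ite_mem, univ_inter] at h2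
      rw [show (𝔼 y, cc T x y) = _ from h2]
      refine prod_eq_zero (mem_univ i) ?_
      simp only [hi, if_true, expect_sub_distrib, Fintype.expect_const]
      rw [Fintype.expect_eq_sum_div_card]
      simp
    simp only [ES]
    rw [expect_comm]
    simp only [← mul_expect, h1, mul_zero, expect_const_zero]
  simp only [part]
  rw [expect_sum_comm, sum_eq_single ∅]
  · simp only [ES_empty, Fintype.expect_const]
  · exact fun T _ hT => h0 T hT
  · intro h
    exact absurd (mem_filter.2 ⟨empty_mem_powerset _, by simpa [sz] using hR⟩) h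

theorem PR.val_mono {ν : (∀ i, Ω i) → ℝ} {I : Finset ι} {δ δ' Y : ℝ} (h : PR ν I δ Y)
    (hδ : δ ≤ δ') : PR ν I δ' Y :=
  ⟨h.nonneg, fun T hT hY Ψ hΨ => (h.equi T hT hY Ψ hΨ).trans
    (mul_le_mul_of_nonneg_right hδ (expect_nonneg fun _ _ => abs_nonneg _))⟩

end General

theorem Adm.val_mono {A V : Type} [Fintype A] [DecidableEq A] [AddCommGroup A] [Fintype V]
    [DecidableEq V] {k k₀ cp : (V → A) → ℝ} {C κ κ' : ℝ} (h : Adm k k₀ cp C κ) (hκ : κ ≤ κ') :
    Adm k k₀ cp C κ' :=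
  ⟨h.transl, h.mean, h.bdd, fun u F G hF hG => (h.flat u F G hF hG).trans
    (mul_le_mul_of_nonneg_right (by linarith) (add_nonneg (expect_nonneg fun _ _ => sq_nonneg _)
      (expect_nonneg fun _ _ => sq_nonneg _))), h.cp_nonneg, h.cp_marg,
    fun x => (h.rest x).trans (mul_le_mul_of_nonneg_right hκ (h.cp_nonneg x))⟩

variable {N : Type} [Fintype N] [DecidableEq N]

theorem LocOK.val_mono {A : Type} [Fintype A] [DecidableEq A] [AddCommGroup A] {α : A → ℝ}
    {ω ψ : ((N → Fin 6) → A) → ℝ} {C κ κ' φ : ℝ} (h : LocOK α ω ψ C κ φ) (hκ : κ ≤ κ') :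
    LocOK α ω ψ C κ' φ := by
  obtain ⟨k₀, cp, h1, h2⟩ := h.adm
  exact ⟨h.rp, h.mean, ⟨k₀, cp, h1.val_mono hκ, h2.val_mono hκ⟩, h.ψ_nonneg, h.ψ_le, h.fail,
    h.supp, h.marg_le⟩

theorem LocOK.val_transl {A : Type} [Fintype A] [DecidableEq A] [AddCommGroup A] {α : A → ℝ}
    {ω ψ : ((N → Fin 6) → A) → ℝ} {C κ φ : ℝ} (h : LocOK α ω ψ C κ φ) (x : (N → Fin 6) → A)
    (c : A) : ω (fun v => x v + c) = ω x := by
  obtain ⟨k₀, cp, h1, -⟩ := h.adm
  exact h1.transl x c

/-- the kernels attached to a polynomial -/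
noncomputable def omg (N : Type) [Fintype N] [DecidableEq N] (w D : ℕ) (η : ℕ → ℝ) (g : ℤ[X])
    (p : PI w D) : ((N → Fin 6) → Om w D p) → ℝ := om (alpha g p.1) (η p.1)

/-- the value of a function on `[0, n)` -/
noncomputable def val (N : Type) [Fintype N] [DecidableEq N] (w D : ℕ) (η : ℕ → ℝ) (R : ℝ)
    (g : ℤ[X]) (f : ℕ → ℝ) (n : ℕ) : ℝ :=
  Form (omg N w D η g) fun _ => part (low (Om w D) univ R) (push w D f n 0 1)

variable {w D : ℕ}

theorem val_ES_push (T : Finset (PI w D)) (f : ℕ → ℝ) (n : ℕ) (a b : ℤ) (y : ∀ p, Om w D p) :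
    ES T (push w D f n a b) y = (∑ s ∈ range n, f s * cc T (red w D (a + b * s)) y) / n :=
  expect_push f n a b fun x => cc T x y

theorem fibre_val [Nonempty N] {η : ℕ → ℝ} {g g' : ℤ[X]} {L ρ Q : ℤ}
    (hg : C L * g' = g.comp (C ρ + C Q * X)) {S : Finset (PI w D)}
    (hS : ∀ p : PI w D, p ∉ S → ¬ (p.1 : ℤ) ∣ L ∧ ¬ (p.1 : ℤ) ∣ Q)
    (h1 : ∀ p, 𝔼 x, omg N w D η g p x = 1) (h2 : ∀ p, 𝔼 x, omg N w D η g' p x = 1)
    (h3 : ∀ p, RPK (omg N w D η g' p))
    (h4 : ∀ p x c, omg N w D η g' p (fun v => x v + c) = omg N w D η g' p x)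
    (R : ℝ) (f : ℕ → ℝ) (n : ℕ) (a : ℤ) :
    |Form (omg N w D η g) fun _ => part (low (Om w D) Sᶜ R) (push w D f n a L)| ≤
      val N w D η R g' f n := by
  have hu : ∀ p : PI w D, p ∉ S → ((L : ℤ) : ZMod p.1) ≠ 0 := fun p hp h =>
    (hS p hp).1 ((ZMod.intCast_zmod_eq_zero_iff_dvd _ _).1 h)
  let β : ∀ p : PI w D, Om w D p ≃+ Om w D p := fun p =>
    if hp : p ∈ S then AddEquiv.refl _ else
      { Equiv.mulLeft₀ ((L : ℤ) : ZMod p.1) (hu p hp) with map_add' := fun x y => mul_add _ x y }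
  let σ : ∀ p : PI w D, Om w D p ≃ Om w D p := fun p =>
    (β p).toEquiv.trans (Equiv.addLeft ((a : ℤ) : ZMod p.1))
  have hσ : ∀ p x, σ p x = (a : ZMod p.1) + β p x := fun p x => rfl
  have hβ : ∀ p : PI w D, p ∉ S → ∀ x, β p x = (L : ZMod p.1) * x := by
    intro p hp x
    simp only [β, dif_neg hp]
    rfl
  set μ : (∀ p, Om w D p) → ℝ := fun x => push w D f n 0 1 fun p => (σ p).symm (x p) with hμ
  have e1 : part (low (Om w D) Sᶜ R) (push w D f n a L) = part (low (Om w D) Sᶜ R) μ := by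
    funext y
    refine sum_congr rfl fun T hT => ?_
    have hT' : T ⊆ Sᶜ := mem_powerset.1 (mem_filter.1 hT).1
    rw [val_ES_push]
    have e2 : ES T μ y = 𝔼 x, push w D f n 0 1 x * cc T (fun p => σ p (x p)) y := by
      refine (Fintype.expect_equiv (Equiv.piCongrRight σ) _ _ fun x => ?_).symm
      simp only [hμ, Equiv.piCongrRight_apply, Pi.map_apply, Equiv.symm_apply_apply]
      rfl
    rw [e2, expect_push]
    congr 1
    refine sum_congr rfl fun s _ => ?_
    congr 1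
    refine prod_congr rfl fun p hp => ?_
    have : red w D (a + L * s) p = σ p (red w D (0 + 1 * s) p) := by
      rw [hσ, hβ p (mem_compl.1 (hT' hp))]
      simp [red]
    rw [this]
  have e3 := form_affine (omg N w D η g) σ (low (Om w D) Sᶜ R) μ
  have e4 : (fun x : ∀ p, Om w D p => μ fun p => σ p (x p)) = push w D f n 0 1 := by
    funext x; simp [hμ]
  rw [e4] at e3
  have e5 : (Form (fun p x => omg N w D η g p fun v => σ p (x v)) fun _ =>
      part (low (Om w D) Sᶜ R) (push w D f n 0 1)) =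
      Form (omg N w D η g') fun _ => part (low (Om w D) Sᶜ R) (push w D f n 0 1) := by
    refine form_indep (S := Sᶜ) (fun _ => val_part_dep _ _) (fun p hp => ?_) fun p hp => ?_
    · funext x
      have hp' := mem_compl.1 hp
      have := om_affine (N := N) (alpha g p.1) (η p.1) (β p) (a : ZMod p.1) x
      simp only [omg, hσ]
      rw [← this]
      congr 1
      funext d
      rw [hβ p hp', alpha_affine hg (hS p hp').1 (hS p hp').2]
    · rw [h2, ← h1 p]
      exact Fintype.expect_equiv (Equiv.piCongrRight fun _ => σ p) _ _ fun x => rfl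
  rw [e1, ← e3, e5, abs_of_nonneg (form_mono_nonneg h3 _)]
  exact form_jensen h3 h4 _ _ _

end Vale.Agent.P042U
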