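import Vale.Agent.P042U.WeylA

/-! The inverse form of the Weyl inequality (task W). -/

namespace Vale.Agent.P042U
open Finset Polynomial

lemma weyl_taylor_coeff (P : ℝ[X]) (h : ℝ) (n : ℕ) (hn : P.natDegree ≤ n + 1) :
    (taylor h P).coeff n = P.coeff n + (n + 1) * h * P.coeff (n + 1) := by
  have hd : (hasseDeriv n P).natDegree ≤ 1 := (natDegree_hasseDeriv_le P n).trans (by omega)
  rw [taylor_coeff, eq_X_add_C_of_natDegree_le_one hd]
  simp only [eval_add, eval_mul, eval_C, eval_X, hasseDeriv_coeff, zero_add, Nat.choose_self,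
    add_comm 1 n, Nat.choose_succ_self_right]
  push_cast; ring

lemma weyl_diff_deg (P : ℝ[X]) (h : ℝ) (k : ℕ) (hk : P.natDegree ≤ k + 1) :
    (taylor h P - P).natDegree ≤ k := by
  rw [natDegree_le_iff_coeff_eq_zero]
  intro n hn
  rw [coeff_sub, weyl_taylor_coeff P h n (by omega),
    coeff_eq_zero_of_natDegree_lt (by omega : P.natDegree < n + 1)]
  ring

/-- many shifts have a large differenced sum -/
lemma weyl_many (u : ℕ → ℂ) (L : ℕ) (Y : ℝ) (hu : ∀ n, ‖u n‖ ≤ 1) (hY : 2 ≤ Y)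
    (hL : Y ^ 3 ≤ L) (hS : L / Y ≤ ‖∑ n ∈ range L, u n‖) :
    (L : ℝ) / Y ^ 5 ≤ ((Ico 1 L).filter fun h => (L : ℝ) / Y ^ 5 ≤
      ‖∑ n ∈ range (L - h), u (n + h) * (starRingEnd ℂ) (u n)‖).card := by
  set c : ℕ → ℝ := fun h => ‖∑ n ∈ range (L - h), u (n + h) * (starRingEnd ℂ) (u n)‖ with hc
  have hY0 : 0 < Y := by linarith
  have hY3 : 8 ≤ Y ^ 3 := by
    calc (8 : ℝ) = 2 ^ 3 := by norm_num
      _ ≤ _ := pow_le_pow_left₀ (by norm_num) hY 3
  have hL0 : (0 : ℝ) < L := by linarith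
  have h1 := weyl_vdc u L hu
  have h2 : (L / Y) ^ 2 ≤ ‖∑ n ∈ range L, u n‖ ^ 2 := pow_le_pow_left₀ (by positivity) hS 2
  have hcL : ∀ h, c h ≤ L := fun h => by
    refine (norm_sum_le _ _).trans ?_
    calc _ ≤ ∑ n ∈ range (L - h), (1 : ℝ) := sum_le_sum fun n _ => by
          rw [norm_mul, Complex.norm_conj]
          exact mul_le_one₀ (hu _) (norm_nonneg _) (hu _)
      _ ≤ L := by simp
  set H := (Ico 1 L).filter fun h => (L : ℝ) / Y ^ 5 ≤ c h with hH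
  have h3 : ∑ h ∈ Ico 1 L, c h ≤ H.card * L + L * (L / Y ^ 5) := by
    rw [← sum_filter_add_sum_filter_not (Ico 1 L) fun h => (L : ℝ) / Y ^ 5 ≤ c h]
    refine add_le_add ?_ ?_
    · calc _ ≤ ∑ h ∈ H, (L : ℝ) := sum_le_sum fun h _ => hcL h
        _ = _ := by rw [sum_const, nsmul_eq_mul]
    · calc _ ≤ ∑ h ∈ (Ico 1 L).filter fun h => ¬ (L : ℝ) / Y ^ 5 ≤ c h, (L : ℝ) / Y ^ 5 :=
            sum_le_sum fun h hh => (not_le.1 (mem_filter.1 hh).2).le
        _ ≤ _ := by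
            rw [sum_const, nsmul_eq_mul]
            refine mul_le_mul_of_nonneg_right ?_ (by positivity)
            have := card_filter_le (Ico 1 L) fun h => ¬ (L : ℝ) / Y ^ 5 ≤ c h
            rw [Nat.card_Ico] at this
            exact_mod_cast this.trans (Nat.sub_le _ _)
  set x := (L : ℝ) / Y ^ 2 with hx
  have e1 : (L / Y) ^ 2 = L * x := by rw [hx]; field_simp
  have e2 : (L : ℝ) / Y ^ 5 = x / Y ^ 3 := by rw [hx]; field_simp
  have hx2 : 2 ≤ x := by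
    rw [hx, le_div_iff₀ (by positivity)]; nlinarith
  have h4 : x / Y ^ 3 ≤ x / 8 := div_le_div_of_nonneg_left (by linarith) (by norm_num) hY3
  rw [e2] at h3 ⊢
  have h5 : L * x ≤ L * (1 + 2 * H.card + 2 * (x / Y ^ 3)) := by nlinarith
  have h6 := le_of_mul_le_mul_left h5 hL0
  linarith

lemma weyl_aux (k : ℕ) (hk : 1 ≤ k) : ∃ C : ℕ, ∀ (P : ℝ[X]) (S : ℕ) (Y : ℝ),
    P.natDegree ≤ k → 2 ≤ Y → Y ^ C ≤ S → S / Y ≤ ‖∑ s ∈ range S, wE (P.eval (s : ℝ))‖ →
    ∃ q : ℕ, 1 ≤ q ∧ (q : ℝ) ≤ Y ^ C ∧ ∃ a : ℤ, |q * P.coeff k - a| ≤ Y ^ C / (S : ℝ) ^ k := by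
  induction k, hk using Nat.le_induction with
  | base =>
    refine ⟨1, fun P S Y hP hY hS hsum => ⟨1, le_rfl, by simp; linarith, round (P.coeff 1), ?_⟩⟩
    have h1 := weyl_geom (P.coeff 1) (P.coeff 0) S
    have e : ∀ s : ℕ, P.eval (s : ℝ) = P.coeff 0 + s * P.coeff 1 := fun s => by
      conv_lhs => rw [eq_X_add_C_of_natDegree_le_one hP]
      simp; ring
    simp only [e] at hsum
    simp only [pow_one, Nat.cast_one, one_mul] at hS ⊢
    have hS0 : (0 : ℝ) < S := by linarith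
    have h2 := mul_le_mul_of_nonneg_right hsum
      (by positivity : 0 ≤ 2 * |P.coeff 1 - round (P.coeff 1)|)
    have h3 := h2.trans h1
    rw [div_mul_eq_mul_div, div_le_one (by linarith)] at h3
    rw [le_div_iff₀ hS0]
    nlinarith [abs_nonneg (P.coeff 1 - round (P.coeff 1))]
  | succ k hk ih =>
    obtain ⟨C, ih⟩ := ih
    refine ⟨15 * C + 5 * k + 15, fun P L Y hP hY hL hsum => ?_⟩
    classical
    have hY1 : 1 ≤ Y := by linarith
    have hY0 : 0 < Y := by linarith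
    have mono : ∀ {a b : ℕ}, a ≤ b → Y ^ a ≤ Y ^ b := fun h => pow_le_pow_right₀ hY1 h
    have two : ∀ a : ℕ, (2 : ℝ) ^ a ≤ Y ^ a := fun a => pow_le_pow_left₀ (by norm_num) hY a
    have hL1 : (1 : ℝ) ≤ L := (one_le_pow₀ hY1).trans hL
    have hL0 : (0 : ℝ) < L := by linarith
    have hmany := weyl_many (fun n => wE (P.eval (n : ℝ))) L Y (fun n => (wE_norm _).le) hY
      ((mono (by omega)).trans hL) hsum
    set H0 := (Ico 1 L).filter fun h => (L : ℝ) / Y ^ 5 ≤ ‖∑ n ∈ range (L - h),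
      wE (P.eval ((n + h : ℕ) : ℝ)) * (starRingEnd ℂ) (wE (P.eval (n : ℝ)))‖ with hH0
    set η : ℝ := Y ^ (5 * C + 5 * k) / (L : ℝ) ^ k with hη
    have hex : ∀ h ∈ H0, ∃ q : ℕ, q ∈ Icc 1 ⌊Y ^ (5 * C)⌋₊ ∧
        ∃ a : ℤ, |(q * (k + 1) * P.coeff (k + 1)) * h - a| ≤ η := by
      intro h hh
      obtain ⟨hh1, hh2⟩ := mem_filter.1 hh
      have e : ∀ n : ℕ, wE (P.eval ((n + h : ℕ) : ℝ)) * (starRingEnd ℂ) (wE (P.eval (n : ℝ))) =
          wE ((taylor (h : ℝ) P - P).eval (n : ℝ)) := fun n => by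
        rw [wE_conj, ← wE_add, eval_sub, taylor_eval]; push_cast; ring_nf
      simp only [e] at hh2
      have hlen : (L : ℝ) / Y ^ 5 ≤ (L - h : ℕ) := by
        refine hh2.trans ((norm_sum_le _ _).trans ?_)
        simp [wE_norm]
      have hle : ((L - h : ℕ) : ℝ) ≤ L := by exact_mod_cast Nat.sub_le L h
      have hY5 : 2 ≤ Y ^ 5 := hY.trans (by simpa using mono (by norm_num : 1 ≤ 5))
      obtain ⟨q, hq1, hq2, a, ha⟩ := ih (taylor (h : ℝ) P - P) (L - h) (Y ^ 5)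
        (weyl_diff_deg P h k hP) hY5 (by
          refine le_trans ?_ hlen
          rw [le_div_iff₀ (by positivity), ← pow_mul, ← pow_add]
          exact (mono (by omega)).trans hL)
        ((div_le_div_of_nonneg_right hle (by positivity)).trans hh2)
      rw [← pow_mul] at hq2 ha
      refine ⟨q, mem_Icc.2 ⟨hq1, Nat.le_floor hq2⟩, a, ?_⟩
      rw [coeff_sub, weyl_taylor_coeff P h k hP] at ha
      have e2 : (q * (k + 1) * P.coeff (k + 1)) * h =
          q * (P.coeff k + (k + 1) * h * P.coeff (k + 1) - P.coeff k) := by ring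
      rw [e2]
      refine ha.trans ?_
      have h3 : ((L : ℝ) / Y ^ 5) ^ k ≤ ((L - h : ℕ) : ℝ) ^ k :=
        pow_le_pow_left₀ (by positivity) hlen k
      calc _ ≤ Y ^ (5 * C) / ((L : ℝ) / Y ^ 5) ^ k :=
            div_le_div_of_nonneg_left (by positivity) (by positivity) h3
        _ = η := by rw [hη, div_pow, ← pow_mul, pow_add]; field_simp
    choose! f hf using hex
    set Z : ℝ := Y ^ (5 * C + 5) with hZ
    obtain ⟨q, hq, hfib⟩ := exists_le_card_fiber_of_nsmul_le_card_of_maps_to (s := H0)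
      (t := Icc 1 ⌊Y ^ (5 * C)⌋₊) (f := f) (b := (L : ℝ) / Z) (fun h hh => (hf h hh).1)
      ⟨1, mem_Icc.2 ⟨le_rfl, Nat.le_floor (by simpa using one_le_pow₀ hY1)⟩⟩ (by
        refine le_trans ?_ hmany
        rw [Nat.card_Icc, nsmul_eq_mul, Nat.add_sub_cancel]
        calc _ ≤ Y ^ (5 * C) * (L / Z) :=
              mul_le_mul_of_nonneg_right (Nat.floor_le (by positivity)) (by positivity)
          _ = _ := by rw [hZ, pow_add]; field_simp)
    obtain ⟨hq1, hq2⟩ := mem_Icc.1 hq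
    have hq3 : (q : ℝ) ≤ Y ^ (5 * C) := (Nat.le_floor_iff (by positivity)).1 hq2
    have hLk : (L : ℝ) ≤ (L : ℝ) ^ k := by simpa using pow_le_pow_right₀ hL1 hk
    have h32 : (32 : ℝ) ≤ Y ^ 5 := le_trans (by norm_num) (two 5)
    obtain ⟨q', hq'1, hq'2, a, ha⟩ := weyl_rec (q * (k + 1) * P.coeff (k + 1)) η Z L
      (H0.filter fun h => f h = q) (one_le_pow₀ hY1)
      (fun h hh => (mem_Ico.1 (mem_filter.1 (mem_filter.1 hh).1).1).2) hfib (by positivity)
      (by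
        have e : 32 * η * Z = 32 * Y ^ (10 * C + 5 * k + 5) / (L : ℝ) ^ k := by
          rw [hη, hZ]; field_simp; ring
        rw [e, div_le_one (by positivity)]
        calc _ ≤ Y ^ 5 * Y ^ (10 * C + 5 * k + 5) :=
              mul_le_mul_of_nonneg_right h32 (by positivity)
          _ ≤ Y ^ (15 * C + 5 * k + 15) := by rw [← pow_add]; exact mono (by omega)
          _ ≤ _ := hL.trans hLk)
      (by
        calc _ ≤ Y ^ 5 * Z ^ 2 := mul_le_mul_of_nonneg_right (by linarith) (by positivity)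
          _ ≤ Y ^ (15 * C + 5 * k + 15) := by
              rw [hZ, ← pow_mul, ← pow_add]; exact mono (by omega)
          _ ≤ _ := hL)
      (fun h hh => by
        obtain ⟨h1, h2⟩ := mem_filter.1 hh
        have := (hf h h1).2
        rwa [h2] at this)
    refine ⟨q' * q * (k + 1), Nat.mul_pos (Nat.mul_pos hq'1 hq1) (by omega), ?_, a, ?_⟩
    · have h1 : ((k + 1 : ℕ) : ℝ) ≤ Y ^ k := by
        refine le_trans ?_ (two k)
        exact_mod_cast Nat.lt_two_pow_self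
      have h2 : (q' : ℝ) ≤ Y ^ 5 * Z := hq'2.trans
        (mul_le_mul_of_nonneg_right (by linarith) (by positivity))
      rw [Nat.cast_mul, Nat.cast_mul]
      calc _ ≤ (Y ^ 5 * Z) * Y ^ (5 * C) * Y ^ k := by gcongr
        _ ≤ _ := by rw [hZ, ← pow_add, ← pow_add, ← pow_add]; exact mono (by omega)
    · have e : ((q' * q * (k + 1) : ℕ) : ℝ) * P.coeff (k + 1) =
          q' * (q * (k + 1) * P.coeff (k + 1)) := by push_cast; ring
      rw [e]
      refine ha.trans ?_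
      have e2 : 24 * η * Z ^ 2 / L = 24 * Y ^ (15 * C + 5 * k + 10) / (L : ℝ) ^ (k + 1) := by
        rw [hη, hZ]; field_simp; ring
      rw [e2]
      refine div_le_div_of_nonneg_right ?_ (by positivity)
      calc _ ≤ Y ^ 5 * Y ^ (15 * C + 5 * k + 10) :=
            mul_le_mul_of_nonneg_right (by linarith) (by positivity)
        _ = _ := by rw [← pow_add]; congr 1; omega

theorem inverse_weyl (k : ℕ) (hk : 1 ≤ k) : ∃ C : ℕ, ∀ (P : Polynomial ℝ) (S : ℕ) (δ : ℝ),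
    P.natDegree ≤ k → 0 < δ → δ ≤ 1 / 2 → δ⁻¹ ^ C ≤ S →
    δ * S ≤ ‖∑ s ∈ Finset.range S, Complex.exp (2 * Real.pi * Complex.I * (P.eval (s : ℝ) : ℝ))‖ →
    ∃ q : ℕ, 1 ≤ q ∧ (q : ℝ) ≤ δ⁻¹ ^ C ∧ ∃ a : ℤ, |q * P.coeff k - a| ≤ δ⁻¹ ^ C / (S : ℝ) ^ k := by
  obtain ⟨C, hC⟩ := weyl_aux k hk
  refine ⟨C, fun P S δ hP h0 h1 hS hsum => hC P S δ⁻¹ hP ?_ hS ?_⟩
  · rw [le_inv_comm₀ (by norm_num) h0]; linarith
  · rw [div_inv_eq_mul, mul_comm]; exact hsum

end Vale.Agent.P042U
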