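import Mathlib

/-! Auxiliary lemmas for the inverse Weyl inequality. -/

namespace Vale.Agent.P042U
open Finset

/-- `e(x)` -/
noncomputable def wE (x : ℝ) : ℂ := Complex.exp (2 * Real.pi * Complex.I * x)

lemma wE_add (x y : ℝ) : wE (x + y) = wE x * wE y := by
  simp only [wE, ← Complex.exp_add]; push_cast; ring_nf

lemma wE_norm (x : ℝ) : ‖wE x‖ = 1 := by
  have : (2 * Real.pi * Complex.I * x : ℂ) = ((2 * Real.pi * x : ℝ) : ℂ) * Complex.I := by
    push_cast; ring
  rw [wE, this, Complex.norm_exp_ofReal_mul_I]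

lemma wE_int (n : ℤ) : wE n = 1 := by
  have := Complex.exp_int_mul_two_pi_mul_I n
  rw [wE, ← this]; congr 1; push_cast; ring

lemma wE_conj (x : ℝ) : (starRingEnd ℂ) (wE x) = wE (-x) := by
  rw [wE, wE, ← Complex.exp_conj]; congr 1
  simp [Complex.conj_ofReal, map_ofNat]

lemma wE_nat_mul (n : ℕ) (x : ℝ) : wE (n * x) = wE x ^ n := by
  rw [wE, wE, ← Complex.exp_nat_mul]; congr 1; push_cast; ring

lemma wE_sub_one (x : ℝ) : 4 * |x - round x| ≤ ‖wE x - 1‖ := by
  set t := x - round x with ht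
  have h1 : wE x = wE t := by
    have : x = t + (round x : ℤ) := by simp [ht]
    conv_lhs => rw [this]
    rw [wE_add, wE_int, mul_one]
  have h2 : |t| ≤ 1 / 2 := abs_sub_round x
  have h3 : wE t = Complex.exp (Complex.I * ((2 * Real.pi * t : ℝ) : ℂ)) := by
    rw [wE]; congr 1; push_cast; ring
  rw [h1, h3, Complex.norm_exp_I_mul_ofReal_sub_one]
  have h4 : 2 * Real.pi * t / 2 = Real.pi * t := by ring
  rw [h4, norm_mul, Real.norm_eq_abs, Real.norm_eq_abs, abs_two]
  have hpi := Real.pi_pos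
  have h5 : 2 / Real.pi * |Real.pi * t| ≤ |Real.sin (Real.pi * t)| := by
    apply Real.mul_abs_le_abs_sin
    rw [abs_mul, abs_of_pos hpi]; nlinarith
  rw [abs_mul, abs_of_pos hpi] at h5
  have : 2 / Real.pi * (Real.pi * |t|) = 2 * |t| := by field_simp
  linarith

lemma weyl_geom (α β : ℝ) (L : ℕ) :
    ‖∑ n ∈ range L, wE (β + n * α)‖ * (2 * |α - round α|) ≤ 1 := by
  have h1 : ∑ n ∈ range L, wE (β + n * α) = wE β * ∑ n ∈ range L, wE α ^ n := by
    rw [mul_sum]; exact sum_congr rfl fun n _ => by rw [wE_add, wE_nat_mul]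
  have h2 := geom_sum_mul (wE α) L
  have h3 : ‖∑ n ∈ range L, wE α ^ n‖ * ‖wE α - 1‖ ≤ 2 := by
    rw [← norm_mul, h2]
    refine (norm_sub_le _ _).trans ?_
    rw [norm_pow, wE_norm]; norm_num
  rw [h1, norm_mul, wE_norm, one_mul]
  have h4 := wE_sub_one α
  nlinarith [norm_nonneg (∑ n ∈ range L, wE α ^ n)]

/-- van der Corput expansion -/
lemma weyl_vdc (u : ℕ → ℂ) (L : ℕ) (hu : ∀ n, ‖u n‖ ≤ 1) :
    ‖∑ n ∈ range L, u n‖ ^ 2 ≤
      L + 2 * ∑ h ∈ Ico 1 L, ‖∑ n ∈ range (L - h), u (n + h) * (starRingEnd ℂ) (u n)‖ := by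
  set c : ℕ → ℕ → ℂ := fun h L => ∑ n ∈ range (L - h), u (n + h) * (starRingEnd ℂ) (u n) with hc
  have key : ∀ L : ℕ, Complex.normSq (∑ n ∈ range L, u n) =
      ∑ n ∈ range L, Complex.normSq (u n) + 2 * ∑ h ∈ Ico 1 L, (c h L).re := by
    intro L
    induction L with
    | zero => simp
    | succ L ih =>
      rw [sum_range_succ, Complex.normSq_add, ih, sum_range_succ]
      have e1 : ∑ h ∈ Ico 1 (L + 1), (c h (L + 1)).re =
          ∑ h ∈ Ico 1 (L + 1), (c h L).re +
            ∑ h ∈ Ico 1 (L + 1), (u L * (starRingEnd ℂ) (u (L - h))).re := by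
        rw [← sum_add_distrib]
        refine sum_congr rfl fun h hh => ?_
        have hh' := mem_Ico.1 hh
        have : L + 1 - h = (L - h) + 1 := by omega
        simp only [hc, this, sum_range_succ, Complex.add_re]
        rw [show L - h + h = L by omega]
      have e2 : ∑ h ∈ Ico 1 (L + 1), (c h L).re = ∑ h ∈ Ico 1 L, (c h L).re := by
        rcases Nat.eq_zero_or_pos L with rfl | hL
        · simp
        · rw [sum_Ico_succ_top hL]; simp [hc]
      have e3 : ∑ h ∈ Ico 1 (L + 1), (u L * (starRingEnd ℂ) (u (L - h))).re =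
          ((∑ n ∈ range L, u n) * (starRingEnd ℂ) (u L)).re := by
        rw [sum_mul, Complex.re_sum, sum_Ico_eq_sum_range, ← sum_range_reflect]
        refine sum_congr (by simp) fun n hn => ?_
        have hn' := mem_range.1 hn
        rw [show L - (1 + (L + 1 - 1 - 1 - n)) = n by omega]
        simp only [Complex.mul_re, Complex.conj_re, Complex.conj_im]; ring
      rw [e1, e2, e3]; ring
  rw [← Complex.normSq_eq_norm_sq, key]
  have h1 : ∑ n ∈ range L, Complex.normSq (u n) ≤ L := by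
    calc _ ≤ ∑ n ∈ range L, (1 : ℝ) := sum_le_sum fun n _ => by
          rw [Complex.normSq_eq_norm_sq]; nlinarith [hu n, norm_nonneg (u n)]
      _ = L := by simp
  have h2 : ∑ h ∈ Ico 1 L, (c h L).re ≤ ∑ h ∈ Ico 1 L, ‖c h L‖ :=
    sum_le_sum fun h _ => Complex.re_le_norm _
  linarith

/-- integers in a real interval -/
lemma weyl_card_int (s : Finset ℤ) (a b : ℝ) (hab : a ≤ b) (h : ∀ x ∈ s, a ≤ x ∧ (x : ℝ) ≤ b) :
    (s.card : ℝ) ≤ b - a + 1 := by
  have hs : s ⊆ Icc ⌈a⌉ ⌊b⌋ := fun x hx =>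
    mem_Icc.2 ⟨Int.ceil_le.2 (h x hx).1, Int.le_floor.2 (h x hx).2⟩
  have h1 := card_le_card hs
  rw [Int.card_Icc] at h1
  have h2 : (s.card : ℤ) ≤ max (⌊b⌋ + 1 - ⌈a⌉) 0 := by
    rw [← Int.ofNat_toNat]; exact_mod_cast h1
  have h3 := Int.floor_le b
  have h4 := Int.le_ceil a
  rcases le_total (⌊b⌋ + 1 - ⌈a⌉) 0 with h5 | h5
  · rw [max_eq_right h5] at h2
    have : (s.card : ℝ) ≤ 0 := by exact_mod_cast h2
    linarith
  · rw [max_eq_left h5] at h2
    have : (s.card : ℝ) ≤ ⌊b⌋ + 1 - ⌈a⌉ := by exact_mod_cast h2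
    linarith

/-- returns of a slow rotation -/
lemma weyl_count (φ t η : ℝ) (M : ℕ) (ht : t ≠ 0) (hη : 0 ≤ η) (hη2 : η ≤ 1 / 2)
    (s : Finset ℕ) (hs : ∀ m ∈ s, m < M ∧ ∃ a : ℤ, |φ + m * t - a| ≤ η) :
    (s.card : ℝ) ≤ (M * |t| + 2) * (2 * η / |t| + 1) := by
  classical
  have htp : 0 < |t| := abs_pos.2 ht
  choose! a ha using fun m hm => (hs m hm).2
  have h1 : ((s.image a).card : ℝ) ≤ M * |t| + 2 := by
    have := weyl_card_int (s.image a) (min φ (φ + M * t) - η) (max φ (φ + M * t) + η)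
      (by have := min_le_max (a := φ) (b := φ + M * t); linarith) (by
        intro x hx
        obtain ⟨m, hm, rfl⟩ := mem_image.1 hx
        have h2 := abs_le.1 (ha m hm)
        have h3 : (m : ℝ) ≤ M := by exact_mod_cast (hs m hm).1.le
        have h4 : (0 : ℝ) ≤ m := Nat.cast_nonneg m
        rcases le_total 0 t with h5 | h5
        · have := min_le_left φ (φ + M * t)
          have := le_max_right φ (φ + M * t)
          constructor <;> nlinarith
        · have := min_le_right φ (φ + M * t)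
          have := le_max_left φ (φ + M * t)
          constructor <;> nlinarith)
    have h6 : max φ (φ + M * t) - min φ (φ + M * t) = M * |t| := by
      rw [max_sub_min_eq_abs, add_sub_cancel_left, abs_mul, Nat.abs_cast]
    linarith
  have h2 : ∀ j ∈ s.image a, ((s.filter fun m => a m = j).card : ℝ) ≤ 2 * η / |t| + 1 := by
    intro j _
    have := weyl_card_int ((s.filter fun m => a m = j).image (Nat.cast : ℕ → ℤ))
      ((j - φ) / t - η / |t|) ((j - φ) / t + η / |t|)
      (by have : 0 ≤ η / |t| := by positivity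
          linarith) (by
        intro x hx
        obtain ⟨m, hm, rfl⟩ := mem_image.1 hx
        obtain ⟨hm1, hm2⟩ := mem_filter.1 hm
        have h3 := ha m hm1
        rw [hm2] at h3
        have h4 : |(m : ℝ) - (j - φ) / t| ≤ η / |t| := by
          have e : ((m : ℝ) - (j - φ) / t) * t = φ + m * t - j := by field_simp; ring
          rw [le_div_iff₀ htp, ← abs_mul, e]
          exact h3
        have := abs_le.1 h4
        push_cast; constructor <;> linarith)
    rw [card_image_of_injective _ Nat.cast_injective] at this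
    have e : 2 * η / |t| = η / |t| + η / |t| := by ring
    linarith
  have h3 : (s.card : ℝ) = ∑ j ∈ s.image a, ((s.filter fun m => a m = j).card : ℝ) := by
    rw [card_eq_sum_card_image a s]; push_cast; rfl
  rw [h3]
  calc _ ≤ ∑ j ∈ s.image a, (2 * η / |t| + 1) := sum_le_sum h2
    _ = (s.image a).card * (2 * η / |t| + 1) := by rw [sum_const, nsmul_eq_mul]
    _ ≤ _ := mul_le_mul_of_nonneg_right h1 (by positivity)

/-- two elements at a small gap -/
lemma weyl_gap (H : Finset ℕ) (L g : ℕ) (hg : 1 ≤ g) (hH : ∀ h ∈ H, h < L)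
    (hc : (L : ℝ) / g + 1 < H.card) : ∃ x ∈ H, ∃ y ∈ H, x < y ∧ y - x < g := by
  have h1 : (range (L / g + 1)).card < H.card := by
    rw [card_range]
    have : ((L / g : ℕ) : ℝ) ≤ (L : ℝ) / g := Nat.cast_div_le
    have : ((L / g + 1 : ℕ) : ℝ) < H.card := by push_cast; linarith
    exact_mod_cast this
  obtain ⟨x, hx, y, hy, hne, he⟩ := exists_ne_map_eq_of_card_lt_of_maps_to h1
    (f := fun h => h / g) (fun h hh => by
      simp only [coe_range, Set.mem_Iio]
      exact Nat.lt_succ_of_le (Nat.div_le_div_right (hH h hh).le))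
  have hx1 := Nat.div_add_mod x g
  have hy1 := Nat.div_add_mod y g
  have hx2 := Nat.mod_lt x hg
  have hy2 := Nat.mod_lt y hg
  rw [he] at hx1
  rcases lt_or_gt_of_ne hne with h | h
  · exact ⟨x, hx, y, hy, h, by omega⟩
  · exact ⟨y, hy, x, hx, h, by omega⟩

/-- strong recurrence for linear phases -/
lemma weyl_rec (β η Z : ℝ) (L : ℕ) (H : Finset ℕ) (hZ : 1 ≤ Z) (hH : ∀ h ∈ H, h < L)
    (hc : (L : ℝ) / Z ≤ H.card) (hη : 0 ≤ η) (hηZ : 32 * η * Z ≤ 1) (hL : 24 * Z ^ 2 ≤ L)
    (ha : ∀ h ∈ H, ∃ a : ℤ, |β * h - a| ≤ η) :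
    ∃ q : ℕ, 1 ≤ q ∧ (q : ℝ) ≤ 3 * Z ∧ ∃ a : ℤ, |q * β - a| ≤ 24 * η * Z ^ 2 / L := by
  classical
  have hZ0 : 0 < Z := by linarith
  have hL0 : (0 : ℝ) < L := by nlinarith
  set g := ⌈2 * Z⌉₊ with hg
  have hg1 : 2 * Z ≤ g := Nat.le_ceil _
  have hg2 : (g : ℝ) < 2 * Z + 1 := Nat.ceil_lt_add_one (by linarith)
  have hg0 : (0 : ℝ) < g := by linarith
  obtain ⟨x, hx, y, hy, hxy, hgap⟩ := weyl_gap H L g (by exact_mod_cast hg0) hH (by
    have h1 : (L : ℝ) / g ≤ L / (2 * Z) := div_le_div_of_nonneg_left hL0.le (by linarith) hg1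
    have h2 : (L : ℝ) / Z = 2 * (L / (2 * Z)) := by field_simp
    have h3 : 1 < (L : ℝ) / (2 * Z) := by rw [lt_div_iff₀ (by linarith)]; nlinarith
    linarith)
  set q := y - x with hq
  have hq1 : 1 ≤ q := by omega
  have hqZ : (q : ℝ) ≤ 3 * Z := by
    have : (q : ℝ) ≤ g := by exact_mod_cast hgap.le
    linarith
  have hq0 : (0 : ℝ) < q := by exact_mod_cast hq1
  obtain ⟨ax, hax⟩ := ha x hx
  obtain ⟨ay, hay⟩ := ha y hy
  refine ⟨q, hq1, hqZ, ay - ax, ?_⟩
  set t : ℝ := q * β - (ay - ax : ℤ) with ht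
  have hqc : (q : ℝ) = y - x := by rw [hq, Nat.cast_sub hxy.le]
  have ht2 : |t| ≤ 2 * η := by
    have : t = (β * y - ay) - (β * x - ax) := by rw [ht, hqc]; push_cast; ring
    rw [this]
    exact (abs_sub _ _).trans (by linarith)
  by_cases ht0 : t = 0
  · rw [ht0, abs_zero]; positivity
  have htp : 0 < |t| := abs_pos.2 ht0
  set M := L / q + 1 with hM
  have hMq : (q : ℝ) * M ≤ 2 * L := by
    have h1 : q * (L / q) ≤ L := Nat.mul_div_le L q
    have h2 : (q : ℝ) * (L / q : ℕ) ≤ L := by exact_mod_cast h1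
    have h3 : (q : ℝ) ≤ L := by nlinarith
    rw [hM]; push_cast; linarith
  have hη2 : η ≤ 1 / 2 := by nlinarith
  have hfib : ∀ c ∈ range q, ((H.filter fun h => h % q = c).card : ℝ) ≤
      (M * |t| + 2) * (2 * η / |t| + 1) := by
    intro c _
    have hinj : Set.InjOn (fun h => h / q) (H.filter fun h => h % q = c : Finset ℕ) := by
      intro u hu v hv huv
      have hu2 := (mem_filter.1 hu).2
      have hv2 := (mem_filter.1 hv).2
      have := Nat.div_add_mod u q
      have := Nat.div_add_mod v q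
      simp only at huv
      rw [huv] at *; omega
    rw [← card_image_of_injOn hinj]
    refine weyl_count (β * c) t η M ht0 hη hη2 _ ?_
    intro m hm
    obtain ⟨h, hh, rfl⟩ := mem_image.1 hm
    obtain ⟨hh1, hh2⟩ := mem_filter.1 hh
    refine ⟨Nat.lt_succ_of_le (Nat.div_le_div_right (hH h hh1).le), ?_⟩
    obtain ⟨a, ha⟩ := ha h hh1
    have e : (h : ℝ) = q * (h / q : ℕ) + c := by
      rw [← hh2]; exact_mod_cast (Nat.div_add_mod h q).symm
    generalize h / q = m at e ⊢
    refine ⟨a - (m : ℤ) * (ay - ax), ?_⟩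
    convert ha using 2
    rw [ht, e]
    push_cast; ring
  have hsum : (H.card : ℝ) ≤ q * ((M * |t| + 2) * (2 * η / |t| + 1)) := by
    rw [card_eq_sum_card_fiberwise (s := H) (t := range q) (f := fun h => h % q)
      (fun h _ => by simpa using Nat.mod_lt h hq1)]
    push_cast
    calc _ ≤ ∑ c ∈ range q, (M * |t| + 2) * (2 * η / |t| + 1) := sum_le_sum hfib
      _ = _ := by rw [sum_const, card_range, nsmul_eq_mul]
  have e1 : (M * |t| + 2) * (2 * η / |t| + 1) = 2 * η * M + M * |t| + 4 * (η / |t|) + 2 := by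
    field_simp; ring
  rw [e1] at hsum
  have hM0 : (0 : ℝ) ≤ M := Nat.cast_nonneg M
  have h1 : (q : ℝ) * (2 * η * M + M * |t|) ≤ L / Z / 4 := by
    have : (q : ℝ) * (2 * η * M + M * |t|) ≤ 8 * η * L := by
      have h5 : 2 * η * M + M * |t| ≤ M * (4 * η) := by nlinarith
      calc _ ≤ q * (M * (4 * η)) := mul_le_mul_of_nonneg_left h5 hq0.le
        _ = (q * M) * (4 * η) := by ring
        _ ≤ (2 * L) * (4 * η) := mul_le_mul_of_nonneg_right hMq (by linarith)
        _ = _ := by ring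
    refine this.trans ?_
    rw [div_div, le_div_iff₀ (by linarith)]; nlinarith
  have h2 : (q : ℝ) * 2 ≤ L / Z / 4 := by
    rw [div_div, le_div_iff₀ (by linarith)]; nlinarith
  have h3 : L / Z / 2 ≤ 12 * Z * (η / |t|) := by
    have : 0 ≤ η / |t| := by positivity
    nlinarith
  rw [div_div, div_le_iff₀ (by linarith)] at h3
  rw [le_div_iff₀ hL0]
  have h4 : (L : ℝ) * |t| ≤ 12 * Z * (η / |t|) * (Z * 2) * |t| :=
    mul_le_mul_of_nonneg_right h3 htp.le
  have h5 : 12 * Z * (η / |t|) * (Z * 2) * |t| = 24 * η * Z ^ 2 := by field_simp; ring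
  linarith

end Vale.Agent.P042U
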